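import Vale.Agent.P002Punct.Defs
import Vale.Agent.P002Surf.Tri

/-!
The shapes of the representatives used in genus one.
-/

namespace P002Punct

open Matrix P002Surf

variable {n : ℕ}

/-- Lower bidiagonal with ones below the diagonal. -/
def Bidiag (b : Mat n) : Prop :=
  (∀ i j : Fin n, i < j → b i j = 0) ∧ (∀ i j : Fin n, (i : ℕ) = j + 1 → b i j = 1) ∧
    ∀ i j : Fin n, (j : ℕ) + 1 < i → b i j = 0

/-- The shape of the representative of a nonscalar class: either one eigenvalue fills exactly an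
initial proper segment of the diagonal, or there is one eigenvalue and the first superdiagonal
entry is not zero. -/
def Special (J : Mat n) : Prop :=
  (∃ (m : Fin n) (a : ℂ), 0 < (m : ℕ) ∧ ∀ i, (J i i = a ↔ i < m)) ∨
    ∃ a : ℂ, (∀ i, J i i = a) ∧ ∃ i j : Fin n, (i : ℕ) = 0 ∧ (j : ℕ) = 1 ∧ J i j ≠ 0

theorem Special.not_scalar {J : Mat n} (hJ : Special J) (c : ℂ) : J ≠ c • (1 : Mat n) := by
  rintro rfl
  rcases hJ with ⟨m, a, hm, h⟩ | ⟨a, -, i, j, hi, hj, hne⟩
  · have h0 := (h ⟨0, (Nat.zero_le _).trans_lt m.isLt⟩).2 hm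
    have h1 : ¬((c • (1 : Mat n)) m m = a) := fun e => lt_irrefl _ ((h m).1 e)
    simp only [Matrix.smul_apply, Matrix.one_apply_eq] at h0 h1
    exact h1 h0
  · have hij : i ≠ j := fun e => by subst e; omega
    simp [Matrix.one_apply_ne hij] at hne

end P002Punct
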