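import Vale.Agent.P002Punct.One.Stab
import Vale.Agent.P002Punct.Span

/-!
Genus one: at one generic point of the closure a neighbourhood in the representation variety is in
the closure.  The centraliser of the first boundary matrix replaces its trace condition.
-/

namespace P002Punct

open Matrix Filter Topology P002Surf

open scoped Matrix.Norms.Operator

variable {s n : ℕ} {R : Subring ℂ} {J : Fin (s + 1) → Mat n}

/-- A representation in genus one at which all moves are generic. -/
def GenericOne (J : Fin (s + 1) → Mat n) (x : St 1 (s + 1) n) : Prop :=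
  PRep J x ∧ Hy1 (x.1 0) ∧
    (∀ j : Fin (s + 1), j ≠ 0 →
      ((bdPre J x j).adjugate * (cm (x.1 0)).adjugate).trace ≠ (bdPre J x j).adjugate.trace) ∧
    ∀ j : Fin (s + 1), Indep ((x.1 0).2.adjugate * bdPre J x j)

/-- Genus one: the velocities reach every variation of the conjugators. -/
theorem bd_span_one (hJd : ∀ k, (J k).det = 1) (hJR : ∀ k, IntM R (J k))
    (htri : Up (J 0) ∨ Lo (J 0)) (hRint : ∀ z ∈ R, IsIntegral ℤ z) {ε : ℂ} (hε : ε ∈ R)
    (hε' : ε⁻¹ ∈ R) (hinf : (Set.range fun k : ℕ => ε ^ k).Infinite) {x : St 1 (s + 1) n}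
    (hx : GenericOne J x) (δ : Fin (s + 1) → Mat n) (hδ : ∀ k, ((x.2 k).adjugate * δ k).trace = 0) :
    δ ∈ (Submodule.span ℂ (ImV R J x)).map
      (LinearMap.snd ℂ (Fin 1 → Mat n) (Fin (s + 1) → Mat n)) := by
  classical
  rcases Nat.eq_zero_or_pos n with hn | hn
  · subst hn
    rw [Subsingleton.elim δ 0]
    exact Submodule.zero_mem _
  have hn' : (n : ℂ) ≠ 0 := Nat.cast_ne_zero.2 hn.ne'
  obtain ⟨hr, hH, hT, hI0⟩ := hx
  set W := (Submodule.span ℂ (ImV R J x)).map
    (LinearMap.snd ℂ (Fin 1 → Mat n) (Fin (s + 1) → Mat n)) with hW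
  by_contra hu
  obtain ⟨φ, hφu, hφ⟩ := Submodule.exists_dual_map_eq_bot_of_notMem hu inferInstance
  have hkill : ∀ e ∈ W, φ e = 0 := fun e he => by
    have := Submodule.mem_map_of_mem (f := φ) he
    rwa [hφ, Submodule.mem_bot] at this
  apply hφu
  have hf : ∀ k, ∃ b : Mat n, ∀ X, φ (Pi.single k (X * x.2 k)) = (b * X).trace := fun k =>
    ⟨_, functional_trace (φ.comp ((LinearMap.single ℂ (fun _ : Fin (s + 1) => Mat n) k).comp
      (LinearMap.mulRight ℂ (x.2 k))))⟩
  choose b hb using hf
  have hsum : ∀ e : Fin (s + 1) → Mat n, φ e = ∑ k, (b k * (e k * (x.2 k).adjugate)).trace := by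
    intro e
    conv_lhs => rw [← Finset.univ_sum_single e]
    rw [map_sum]
    refine Finset.sum_congr rfl fun k _ => ?_
    rw [← hb, Matrix.mul_assoc (e k), adj_mul_one (hr.2.1 k), Matrix.mul_one]
  -- the stabiliser of the first boundary matrix
  set h0 := x.2 0 with hh0
  have hd0 : h0.det = 1 := hr.2.1 0
  have hstab : ∀ p : Polynomial ℂ, (Polynomial.aeval (J 0) p).trace = 0 →
      (b 0 * (h0 * Polynomial.aeval (J 0) p * h0.adjugate)).trace = 0 := by
    intro p hp
    have hmem := stab_span (g := 1) htri (hJR 0) hRint hε hε' hinf x p hp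
    have h0' : φ (Pi.single 0 (h0 * Polynomial.aeval (J 0) p)) = 0 := by
      refine hkill _ ?_
      refine ⟨fderiv ℂ coords x ((0, Pi.single 0 (h0 * Polynomial.aeval (J 0) p)) : St 1 (s + 1) n),
        ?_, fderiv_coords_snd _ _⟩
      have e : Submodule.span ℂ (ImV R J x) = (Submodule.span ℂ {v | Vel R J x v}).map
          (fderiv ℂ coords x).toLinearMap := by rw [Submodule.map_span]; rfl
      rw [e]
      exact Submodule.mem_map_of_mem hmem
    rw [← h0', ← hb]
    congr 2
    rw [← hh0, Matrix.mul_assoc (h0 * _), adj_mul_one hd0, Matrix.mul_one]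
  have hM : ∀ j : Fin (s + 1), ∃ c : ℂ,
      ∑ k ∈ Finset.univ.filter (· ≤ j), b k = c • (1 : Mat n) := by
    intro j
    set M := ∑ k ∈ Finset.univ.filter (· ≤ j), b k with hMdef
    refine ⟨M.trace / n, ?_⟩
    set M0 : Mat n := M - (M.trace / n) • 1 with hM0
    have ht0 : M0.trace = 0 := by simp [hM0, hn']
    set P' := bdPre J x j with hP'
    have hPd : P'.det = 1 := det_bdPre_span hJd hr.2.1 j
    obtain ⟨⟨hA, hB1⟩, hgd, hG, hG', hIA, hIB, htc⟩ := hH
    have hstep : ∀ A B : Mat n, OrbS R J x 0 (A, B) → Indep (B.adjugate * P') →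
        (B.adjugate * (P' * M0)).trace = 0 := by
      intro A B hS hI
      obtain ⟨hp, -, hsub⟩ := hS
      have hk : ((upd 0 (A, B) x).1 (Fin.last 0)).2.adjugate *
          bdPre J (upd 0 (A, B) x) j = B.adjugate * P' := by
        simp [upd, hP', bdPre, bdList]
      obtain ⟨w, hw, hw2⟩ := vel_bd (g := 0) hJd hJR j (y := upd 0 (A, B) x) (by rw [hk]; exact hI)
      have h0 : φ w.2 = 0 := hkill _ ⟨w, Submodule.subset_span (hsub hw), rfl⟩
      rw [hw2, hsum, hk] at h0
      set γ := B.adjugate * P' with hγ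
      have e1 : ∀ k : Fin (s + 1), (b k * ((if k ≤ j then -(((n : ℂ) • γ - γ.trace • (1 : Mat n)) *
          (upd 0 (A, B) x).2 k) else 0) * (x.2 k).adjugate)).trace =
          if k ≤ j then -(b k * ((n : ℂ) • γ - γ.trace • (1 : Mat n))).trace else 0 := by
        intro k
        by_cases hk' : k ≤ j
        · simp only [if_pos hk', upd, Matrix.neg_mul, Matrix.mul_assoc,
            mul_adj_one (hr.2.1 k), Matrix.mul_one, Matrix.mul_neg, Matrix.trace_neg]
        · simp [hk']
      simp only [e1] at h0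
      rw [← Finset.sum_filter, Finset.sum_neg_distrib, ← Matrix.trace_sum, ← Finset.sum_mul,
        ← hMdef, neg_eq_zero] at h0
      have e2 : (n : ℂ) * (B.adjugate * (P' * M0)).trace =
          (M * ((n : ℂ) • γ - γ.trace • (1 : Mat n))).trace := by
        rw [← Matrix.mul_assoc, Matrix.trace_mul_comm, ← hγ]
        simp only [hM0, Matrix.mul_sub, Matrix.sub_mul, Matrix.mul_smul, Matrix.smul_mul,
          Matrix.one_mul, Matrix.mul_one, Matrix.trace_sub, Matrix.trace_smul, smul_eq_mul]
        field_simp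
      rw [h0, mul_eq_zero] at e2
      exact e2.resolve_left hn'
    obtain ⟨e, he⟩ := orbit_kernel hPd (fun A B Z h hI hZ hc => OrbS.twist_fst h hI hZ hc)
      (fun A B Z h hI hZ hc => OrbS.twist_snd h hI hZ hc) hstep hA hB1
      (orbS_self hr 0) hIA hIB (hI0 j) hG hG'
    have e3 : M0 = e • (P'.adjugate - P'.adjugate * (cm (x.1 0)).adjugate) := by
      calc M0 = P'.adjugate * (P' * M0) := by rw [← Matrix.mul_assoc, adj_mul_one hPd, Matrix.one_mul]
        _ = _ := by rw [he, Matrix.mul_smul, Matrix.mul_sub, Matrix.mul_one]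
    suffices he0 : e = 0 by rw [he0, zero_smul, hM0, sub_eq_zero] at e3; exact e3
    rcases eq_or_ne j 0 with rfl | hj
    · have hM1 : M = b 0 := by
        rw [hMdef, show (Finset.univ.filter (· ≤ (0 : Fin (s + 1)))) = {0} by ext k; simp,
          Finset.sum_singleton]
      have hPbd : P' = bd (J 0) h0 := by
        simp [hP', bdPre, bdList, List.ofFn_succ, hh0]
      have hs := hstab (Polynomial.X - Polynomial.C ((J 0).trace / n))
        (by simp [Algebra.algebraMap_eq_smul_one, hn'])
      have htc0 : (J 0).trace = P'.trace := by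
        rw [hPbd, bd, Matrix.trace_mul_comm, ← Matrix.mul_assoc, adj_mul_one hd0, Matrix.one_mul]
      have h1 : (b 0 * P').trace - (P'.trace / n) * (b 0).trace = 0 := by
        rw [← htc0, hPbd, ← hs]
        simp only [map_sub, Polynomial.aeval_X, Polynomial.aeval_C, Algebra.algebraMap_eq_smul_one,
          Matrix.mul_sub, Matrix.sub_mul, Matrix.mul_smul, Matrix.smul_mul, Matrix.mul_one,
          mul_adj_one hd0, Matrix.trace_sub, Matrix.trace_smul, smul_eq_mul, bd]
      have h2 : (M0 * P').trace = 0 := by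
        rw [hM0, hM1, Matrix.sub_mul, Matrix.smul_mul, Matrix.one_mul, Matrix.trace_sub,
          Matrix.trace_smul, smul_eq_mul, ← h1]
        ring
      rw [e3, Matrix.smul_mul, Matrix.trace_smul, Matrix.sub_mul, adj_mul_one hPd, Matrix.trace_sub,
        Matrix.trace_mul_comm (P'.adjugate * _), ← Matrix.mul_assoc, mul_adj_one hPd,
        Matrix.one_mul, Matrix.trace_one, Fintype.card_fin, smul_eq_mul, mul_eq_zero, sub_eq_zero] at h2
      exact h2.resolve_right (Ne.symm htc)
    · have e4 := congrArg Matrix.trace e3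
      rw [ht0, Matrix.trace_smul, Matrix.trace_sub, smul_eq_mul, eq_comm, mul_eq_zero, sub_eq_zero] at e4
      exact e4.resolve_right (Ne.symm (hT j hj))
  choose c hc using hM
  have hsc : ∀ m : ℕ, ∀ j : Fin (s + 1), (j : ℕ) = m → ∃ d : ℂ, b j = d • (1 : Mat n) := by
    intro m
    induction m using Nat.strong_induction_on with
    | _ m ih =>
      intro j hj
      choose d hd using fun (k : Fin (s + 1)) (hk : k < j) => ih k (by rw [← hj]; exact hk) k rfl
      let d' : Fin (s + 1) → ℂ := fun k => if hk : k < j then d k hk else 0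
      refine ⟨c j - ∑ k ∈ Finset.univ.filter (· < j), d' k, ?_⟩
      have hs := hc j
      rw [show (Finset.univ.filter (· ≤ j) : Finset (Fin (s + 1))) =
        insert j (Finset.univ.filter (· < j)) by ext k; simp [le_iff_eq_or_lt],
        Finset.sum_insert (by simp)] at hs
      rw [sub_smul, Finset.sum_smul, eq_sub_iff_add_eq, ← hs]
      refine congrArg (b j + ·) (Finset.sum_congr rfl fun k hk => ?_)
      have hk' : k < j := (Finset.mem_filter.1 hk).2
      simp only [d', dif_pos hk']
      exact (hd k hk').symm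
  rw [hsum]
  refine Finset.sum_eq_zero fun k _ => ?_
  obtain ⟨d, hd⟩ := hsc k k rfl
  rw [hd, Matrix.smul_mul, Matrix.one_mul, Matrix.trace_smul, Matrix.trace_mul_comm, hδ, smul_zero]

/-- Genus one: the velocities at a generic point fill the tangent space, and so a neighbourhood in
the representation variety is in the closure. -/
theorem nhds_generic_one (hn : 0 < n) (hJd : ∀ k, (J k).det = 1) (hJR : ∀ k, IntM R (J k))
    (htri : Up (J 0) ∨ Lo (J 0)) (hRint : ∀ z ∈ R, IsIntegral ℤ z) {ε : ℂ} (hε : ε ∈ R)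
    (hε' : ε⁻¹ ∈ R) (hinf : (Set.range fun k : ℕ => ε ^ k).Infinite) {x : St 1 (s + 1) n}
    (hx : GenericOne J x) (hz : Zd R J x) : ∀ᶠ y in 𝓝 x, PRep J y → Zd R J y := by
  have hr := hx.1
  suffices hspan : ∀ u, fderiv ℂ (relFun J) x u = 0 → u ∈ Submodule.span ℂ {v | Vel R J x v} by
    have h := nhds_of_span (R := R) (J := J) (X := {y : St 1 (s + 1) n | PRep J y})
      (contDiff_relFun J).contDiffAt
      (fun y hy => (prep_iff_relFun.1 hy).trans (prep_iff_relFun.1 hr).symm) hr hr hz hspan
    exact h.mono fun y hy hp => hy ((prep_iff_relFun.1 hp).trans (prep_iff_relFun.1 hr).symm)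
  intro u hu
  set V := Submodule.span ℂ {v | Vel R J x v} with hV
  have htan : ∀ v ∈ V, fderiv ℂ (relFun J) x v = 0 := by
    intro v hv
    induction hv using Submodule.span_induction with
    | mem v hv => exact vel_tangent hr hz hv
    | zero => exact map_zero _
    | add a b _ _ ha hb => rw [map_add, ha, hb, add_zero]
    | smul c a _ ha => rw [map_smul, ha, smul_zero]
  obtain ⟨e, he, hes⟩ := Submodule.mem_map.1
    (bd_span_one hJd hJR htri hRint hε hε' hinf hx u.2 (tangent_parts hn hJd hr hu).2.1)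
  rw [show Submodule.span ℂ (ImV R J x) = V.map (fderiv ℂ coords x).toLinearMap by
    rw [hV, Submodule.map_span]; rfl] at he
  obtain ⟨w, hwV, hwe⟩ := Submodule.mem_map.1 he
  set u1 := u - w with hu1
  have hw2 : w.2 = u.2 := by
    rw [← fderiv_coords_snd x w]
    exact (congrArg Prod.snd hwe).trans hes
  have hu12 : u1.2 = 0 := by simp [hu1, hw2]
  have hu1t : fderiv ℂ (relFun J) x u1 = 0 := by rw [hu1, map_sub, hu, htan w hwV, sub_zero]
  obtain ⟨hp1, -, hprod1⟩ := tangent_parts hn hJd hr hu1t
  have hD : (fderiv ℂ coords x u1).1 0 = 0 := by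
    have h1 := hprod1 hu12
    simp only [List.ofFn_succ, List.ofFn_zero, List.prod_cons, List.prod_nil, Matrix.mul_one] at h1
    exact (hasDerivAt_line (cm (x.1 0)) _).unique h1
  have hu1V : u1 ∈ V := by
    have hsum : u1 = emb 0 (u1.1 0) := by
      refine Prod.ext (funext fun i => ?_) (by simp [emb, hu12])
      rw [Subsingleton.elim i 0]
      simp [emb]
    rw [hsum]
    obtain ⟨⟨hsl, -, hG, -, hIA, hIB, -⟩, -⟩ := hx.2
    obtain ⟨t1, t2, -, he'⟩ := hp1 0
    exact mem_span_handle hsl hG hIA hIB (he' hD) t1 t2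
  have : u = u1 + w := by simp [hu1]
  rw [this]
  exact V.add_mem hu1V hwV

end P002Punct
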