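import Vale.Agent.P002Punct.One.Perturb
import Vale.Agent.P002Punct.One.Span
import Vale.Agent.P002Punct.One.Defs

/-!
Genus one: from one generic seed to all representations.
-/

namespace P002Punct

open Matrix Filter Topology P002Surf

open scoped Matrix.Norms.Operator

variable {s n : ℕ} {R : Subring ℂ} {J : Fin (s + 2) → Mat n}

/-- A lower bidiagonal matrix with ones below the diagonal is regular, and so is its inverse. -/
theorem cyclic_of_bidiag (hn : 0 < n) {b : Mat n} (hb : Bidiag b) : Cyclic b := by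
  let o : Fin n := ⟨0, hn⟩
  refine ⟨Pi.single o 1, ?_⟩
  have key : ∀ k : ℕ, ∀ i : Fin n, ((k : ℕ) < i → (b ^ k *ᵥ Pi.single o 1) i = 0) ∧
      ((i : ℕ) = k → (b ^ k *ᵥ Pi.single o 1) i = 1) := by
    intro k
    induction k with
    | zero =>
      intro i
      simp only [pow_zero, Matrix.one_mulVec, Pi.single_apply]
      exact ⟨fun h => if_neg fun e => by rw [e] at h; simp [o] at h,
        fun h => if_pos (Fin.ext h)⟩
    | succ k ih =>
      intro i
      rw [pow_succ', ← Matrix.mulVec_mulVec]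
      refine ⟨fun h => ?_, fun h => ?_⟩
      · rw [Matrix.mulVec, dotProduct]
        refine Finset.sum_eq_zero fun l _ => ?_
        rcases lt_or_ge k (l : ℕ) with hl | hl
        · rw [(ih l).1 hl, mul_zero]
        · rw [hb.2.2 i l (by omega), zero_mul]
      · have hk : k < n := by have := i.isLt; omega
        rw [Matrix.mulVec, dotProduct, Finset.sum_eq_single (⟨k, hk⟩ : Fin n)]
        · rw [(ih _).2 rfl, hb.2.1 i ⟨k, hk⟩ h, mul_one]
        · intro l _ hl
          rcases lt_or_gt_of_ne (fun e => hl (Fin.ext e) : (l : ℕ) ≠ k) with hl' | hl'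
          · rw [hb.2.2 i l (by omega), zero_mul]
          · rw [(ih l).1 hl', mul_zero]
        · simp
  let M : Mat n := Matrix.of fun i k : Fin n => (b ^ (k : ℕ) *ᵥ Pi.single o 1) i
  have hup : M.BlockTriangular (id : Fin n → Fin n) := fun i k h => (key k i).1 h
  have hd : M.det = 1 := det_one_of_up hup fun i => (key i i).2 rfl
  exact Matrix.linearIndependent_cols_of_det_ne_zero (A := M) (by rw [hd]; exact one_ne_zero)

theorem cyclic_of_adj_bidiag (hn : 0 < n) {J : Mat n} (hd : J.det = 1) (hb : Bidiag J.adjugate) :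
    Cyclic J := by
  have h := (cyclic_of_bidiag hn hb).adjugate (det_adj_one hd)
  rwa [adj_adj_one hd] at h

/-- A generic seed makes the integral representations dense. -/
theorem all_zd_one (hn : 2 ≤ n) (hRint : ∀ z ∈ R, IsIntegral ℤ z)
    (hR : ∀ z ∈ R, z ∈ Vale.Agent.P002.Surface.acl (∅ : Set ℂ)) {ε : ℂ} (hε : ε ∈ R)
    (hε' : ε⁻¹ ∈ R) (hinf : (Set.range fun k : ℕ => ε ^ k).Infinite) (hJd : ∀ j, (J j).det = 1)
    (hJR : ∀ j, IntM R (J j)) (htri : Up (J 0) ∨ Lo (J 0)) (h0 : Cyclic (J 0))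
    (h1 : ∀ c : ℂ, J 1 ≠ c • (1 : Mat n))
    (hseed : ∃ x : St 1 (s + 2) n, Zd R J x ∧ GenericOne J x) :
    ∀ x : St 1 (s + 2) n, PRep J x → Zd R J x := by
  obtain ⟨x0, hz0, hx0⟩ := hseed
  have hnh := nhds_generic_one (by omega) hJd hJR htri hRint hε hε' hinf hx0 hz0
  intro x hx
  refine zdOn_true.1 (zdOn_of_hy_one (Q := fun _ => True) hn hR (fun j a b => hR _ (hJR j a b)) hJd
    h0 h1 (fun y hy hk => zdOn_true.2 ?_) x hx)
  exact zd_of_nhds_good (g := 0) hJd hx0.1
    (fun i => by rw [Fin.fin_one_eq_zero i]; exact hx0.2.1.2.1) hnh hy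
    (fun i => by rw [Fin.fin_one_eq_zero i]; exact hk.2.1)

/-- The same with irreducible integral representations only. -/
theorem all_eval_zero_one (hn : 2 ≤ n) (hRint : ∀ z ∈ R, IsIntegral ℤ z)
    (hR : ∀ z ∈ R, z ∈ Vale.Agent.P002.Surface.acl (∅ : Set ℂ)) {ε : ℂ} (hε : ε ∈ R)
    (hε' : ε⁻¹ ∈ R) (hinf : (Set.range fun k : ℕ => ε ^ k).Infinite) (hJd : ∀ j, (J j).det = 1)
    (hJR : ∀ j, IntM R (J j)) (htri : Up (J 0) ∨ Lo (J 0)) (h0 : Cyclic (J 0))
    (h1 : ∀ c : ℂ, J 1 ≠ c • (1 : Mat n))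
    (hseed : ∃ x : St 1 (s + 2) n, Zd R J x ∧ GenericOne J x)
    {p : MvPolynomial (Var 1 (s + 2) n) ℂ}
    (hp : ∀ a : St 1 (s + 2) n, PRep J a → IntSt R a → (∃ i, PairIrr (a.1 i)) →
      MvPolynomial.eval (sev a) p = 0)
    {x : St 1 (s + 2) n} (hx : PRep J x) : MvPolynomial.eval (sev x) p = 0 :=
  eval_zero_all_of_irr_one hn hR (fun j a b => hR _ (hJR j a b)) hJd h0 h1
    (all_zd_one hn hRint hR hε hε' hinf hJd hJR htri h0 h1 hseed) hp hx

end P002Punct
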