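import Vale.Agent.P002Punct.ClassRep
import Vale.Agent.P002Punct.Indep
import Vale.Agent.P002Punct.One.Assemble

/-!
Representatives of the classes used in genus one: the inverse of the regular one lower bidiagonal,
the nonscalar one of special shape.
-/

namespace P002Punct

open Module Submodule Matrix P002Surf Vale.Agent.P002.Free

variable {n : ℕ}

/-- A basis of generalised eigenvectors in chains, before ordering. -/
theorem exists_chain_form (A : Mat n) (R : Subring ℂ) (hR : ∀ z : ℂ, A.charpoly.IsRoot z → z ∈ R) :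
    ∃ (P M : Mat n) (d : Fin n → ℕ), P.det ≠ 0 ∧ A * P = P * M ∧ IntM R M ∧
      (∀ k l, k ≠ l → M k l ≠ 0 → M k k = M l l ∧ d k < d l) ∧
      ∀ k k' l, k ≠ l → k' ≠ l → M k l ≠ 0 → M k' l ≠ 0 → k = k' := by
  classical
  let f : Module.End ℂ (Fin n → ℂ) := Matrix.toLinAlgEquiv' A
  have hint : DirectSum.IsInternal fun μ => f.maxGenEigenspace μ :=
    (DirectSum.isInternal_submodule_iff_iSupIndep_and_iSup_eq_top _).2
      ⟨f.independent_maxGenEigenspace, f.iSup_maxGenEigenspace_eq_top⟩
  have hblock : ∀ μ, ∃ (ι : Type) (_ : Fintype ι) (b : Basis ι ℂ (f.maxGenEigenspace μ))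
      (d : ι → ℕ), ∀ i k, b.repr (f.restrict
        (Module.End.mapsTo_maxGenEigenspace_of_comm (Commute.refl f) μ) (b i)) k ∈ R ∧
        (k = i → b.repr (f.restrict
          (Module.End.mapsTo_maxGenEigenspace_of_comm (Commute.refl f) μ) (b i)) k = μ) ∧
        (b.repr (f.restrict (Module.End.mapsTo_maxGenEigenspace_of_comm (Commute.refl f) μ) (b i)) k
          ≠ 0 → k = i ∨ d k < d i) ∧
        (k ≠ i → b.repr (f.restrict
          (Module.End.mapsTo_maxGenEigenspace_of_comm (Commute.refl f) μ) (b i)) k ≠ 0 →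
          (f.restrict (Module.End.mapsTo_maxGenEigenspace_of_comm (Commute.refl f) μ) (b i) =
            μ • b i + b k)) := by
    intro μ
    have hstab : ∀ v ∈ f.maxGenEigenspace μ, (f - algebraMap ℂ _ μ) v ∈ f.maxGenEigenspace μ :=
      Module.End.mapsTo_maxGenEigenspace_of_comm
        ((Commute.refl f).sub_right (Algebra.commute_algebraMap_right μ f)) μ
    set Nn := (f - algebraMap ℂ _ μ).restrict hstab with hNn
    have hnil : IsNilpotent Nn :=
      Module.End.isNilpotent_restrict_maxGenEigenspace_sub_algebraMap f μ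
    obtain ⟨ι, hι, b, hb, -⟩ := exists_chain_basis _ Nn rfl hnil
    obtain ⟨m, hm⟩ := hnil
    have hex : ∀ i, ∃ e, (Nn ^ e) (b i) = 0 := fun i => ⟨m, by simp [hm]⟩
    have hlt : ∀ i j, Nn (b i) = b j → Nat.find (hex j) < Nat.find (hex i) := fun i j h => by
      have h0 : Nat.find (hex i) ≠ 0 := fun h0 => by
        have := Nat.find_spec (hex i)
        rw [h0, pow_zero, Module.End.one_apply] at this
        exact b.ne_zero i this
      obtain ⟨e, he⟩ := Nat.exists_eq_succ_of_ne_zero h0
      have hspec := Nat.find_spec (hex i)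
      rw [he, pow_succ, Module.End.mul_apply, h] at hspec
      have := Nat.find_min' (hex j) hspec
      omega
    refine ⟨ι, hι, b, fun i => Nat.find (hex i), fun i k => ?_⟩
    have hμ : μ ∈ R := by
      refine hR μ ?_
      have hv : f.HasEigenvalue μ := by
        refine Module.End.HasUnifEigenvalue.lt (k := ⊤) (by simp) ?_
        exact fun h => b.ne_zero i (Subtype.ext ((Submodule.mem_bot ℂ).1 (h ▸ (b i).2)))
      have h := (Module.End.hasEigenvalue_iff_isRoot_charpoly f μ).1 hv
      have e : f.charpoly = A.charpoly := by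
        rw [← Matrix.charpoly_toLin' A]
        rfl
      rwa [e] at h
    have e : f.restrict (Module.End.mapsTo_maxGenEigenspace_of_comm (Commute.refl f) μ) (b i) =
        μ • b i + Nn (b i) := Subtype.ext (by
      simp [hNn, Module.algebraMap_end_apply]
      rfl)
    rw [e]
    rcases hb i with h | ⟨j, h⟩
    · simp only [h, add_zero, map_smul, Finsupp.smul_apply, b.repr_self, Finsupp.single_apply,
        smul_eq_mul]
      by_cases hki : k = i
      · subst hki; simp [hμ]
      · simp [hki, Ne.symm hki]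
    · have hlt' := hlt i j h
      have hji : j ≠ i := fun e => by rw [e] at hlt'; exact lt_irrefl _ hlt'
      rw [h, map_add, map_smul, Finsupp.add_apply, Finsupp.smul_apply, b.repr_self, b.repr_self,
        Finsupp.single_apply, Finsupp.single_apply, smul_eq_mul]
      by_cases hki : k = i
      · subst hki; simp [hμ, hji]
      · simp only [if_neg (Ne.symm hki), mul_zero, zero_add]
        by_cases hjk : j = k
        · subst hjk; simp [hki, hlt']
        · simp [hjk, hki]
  choose ι hι b d hb using hblock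
  let B := hint.collectedBasis b
  have : Fintype (Σ μ, ι μ) := @Fintype.ofFinite _ (Module.Finite.finite_basis B)
  have hcard : Fintype.card (Σ μ, ι μ) = Fintype.card (Fin n) := by
    rw [← Module.finrank_eq_card_basis B, Module.finrank_fintype_fun_eq_card]
  let e0 := Fintype.equivOfCardEq hcard
  let C := B.reindex e0
  have key : ∀ i j, LinearMap.toMatrix C C f i j ∈ R ∧
      (i = j → LinearMap.toMatrix C C f i j = (e0.symm i).1) ∧
      (i ≠ j → LinearMap.toMatrix C C f i j ≠ 0 → (e0.symm i).1 = (e0.symm j).1 ∧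
        d (e0.symm i).1 (e0.symm i).2 < d (e0.symm j).1 (e0.symm j).2) := by
    intro i j
    rw [LinearMap.toMatrix_apply]
    simp only [C, Basis.reindex_apply, Basis.repr_reindex, Finsupp.mapDomain_equiv_apply]
    have heq : i = j ↔ e0.symm i = e0.symm j := e0.symm.injective.eq_iff.symm
    simp only [ne_eq, heq]
    generalize hj : e0.symm j = cj
    generalize hi : e0.symm i = ci
    obtain ⟨ν, k⟩ := cj
    obtain ⟨μ, l⟩ := ci
    rw [hint.collectedBasis_coe]
    have hmem : f (b ν k : Fin n → ℂ) ∈ f.maxGenEigenspace ν :=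
      Module.End.mapsTo_maxGenEigenspace_of_comm (Commute.refl f) ν (b ν k).2
    rcases eq_or_ne ν μ with rfl | hne
    · rw [hint.collectedBasis_repr_of_mem b hmem]
      refine ⟨(hb ν k l).1, fun h => (hb ν k l).2.1 (eq_of_heq (Sigma.mk.inj_iff.1 h).2),
        fun hne h0 => ⟨rfl, ((hb ν k l).2.2.1 h0).resolve_left fun h => hne (by rw [h])⟩⟩
    · rw [hint.collectedBasis_repr_of_mem_ne b hne hmem]
      exact ⟨zero_mem _, fun h => absurd (congrArg Sigma.fst h).symm hne, fun _ h => absurd rfl h⟩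
  have hsucc : ∀ i j, i ≠ j → LinearMap.toMatrix C C f i j ≠ 0 →
      f (C j) = (e0.symm j).1 • C j + C i := by
    intro i j
    rw [LinearMap.toMatrix_apply]
    simp only [C, Basis.reindex_apply, Basis.repr_reindex, Finsupp.mapDomain_equiv_apply]
    intro hij
    have hne' : e0.symm i ≠ e0.symm j := fun e => hij (e0.symm.injective e)
    revert hne'
    generalize e0.symm j = cj
    generalize e0.symm i = ci
    obtain ⟨ν, k⟩ := cj
    obtain ⟨μ, l⟩ := ci
    intro hne' h0
    rw [hint.collectedBasis_coe] at h0 ⊢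
    have hmem : f (b ν k : Fin n → ℂ) ∈ f.maxGenEigenspace ν :=
      Module.End.mapsTo_maxGenEigenspace_of_comm (Commute.refl f) ν (b ν k).2
    rcases eq_or_ne ν μ with rfl | hne
    · rw [hint.collectedBasis_repr_of_mem b hmem] at h0
      exact congrArg Subtype.val ((hb ν k l).2.2.2 (fun e => hne' (by rw [e])) h0)
    · exact absurd (hint.collectedBasis_repr_of_mem_ne b hne hmem) h0
  refine ⟨(Pi.basisFun ℂ (Fin n)).toMatrix C, LinearMap.toMatrix C C f,
    fun i => d (e0.symm i).1 (e0.symm i).2, ?_, ?_, fun i j => (key i j).1, fun k l hkl h => ?_,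
    fun k k' l hk hk' h h' => C.injective (add_left_cancel
      ((hsucc k l hk h).symm.trans (hsucc k' l hk' h')))⟩
  · have := (Pi.basisFun ℂ (Fin n)).invertibleToMatrix C
    exact (Matrix.isUnit_det_of_invertible _).ne_zero
  · have hA' : A = LinearMap.toMatrix (Pi.basisFun ℂ (Fin n)) (Pi.basisFun ℂ (Fin n)) f := by
      ext i j
      simp [f]
    conv_lhs => rw [hA']
    rw [linearMap_toMatrix_mul_basis_toMatrix, basis_toMatrix_mul_linearMap_toMatrix]
  · obtain ⟨h1, h2⟩ := (key k l).2.2 hkl h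
    exact ⟨by rw [(key k k).2.1 rfl, (key l l).2.1 rfl, h1], h2⟩

/-- Ordering the basis by a weight that increases along the chains. -/
theorem exists_ordered {A P M : Mat n} (hP : P.det ≠ 0) (hAP : A * P = P * M) (w : Fin n → ℕ)
    (hw : ∀ k l, k ≠ l → M k l ≠ 0 → w k < w l) :
    ∃ (σ : Equiv.Perm (Fin n)) (P' : Mat n), P'.det ≠ 0 ∧ A * P' = P' * M.submatrix σ σ ∧
      Up (M.submatrix σ σ) ∧ Monotone fun i => w (σ i) := by
  refine ⟨Tuple.sort w, P.submatrix id (Tuple.sort w), ?_, ?_, fun i j hji => ?_, Tuple.monotone_sort w⟩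
  · rw [Matrix.det_permute']
    exact mul_ne_zero (Int.cast_ne_zero.2 (Units.ne_zero _)) hP
  · conv_lhs => rw [← Matrix.submatrix_id_id A]
    rw [← Matrix.submatrix_mul A P id id _ Function.bijective_id, hAP,
      Matrix.submatrix_mul_equiv P M id (Tuple.sort w)]
  · by_contra h
    have h' : j < i := hji
    exact absurd (Tuple.monotone_sort w h'.le)
      (not_le.2 (hw _ _ (fun e => h'.ne' ((Tuple.sort w).injective e)) h))

/-- A nonscalar matrix is similar to an integral triangular one of special shape. -/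
theorem exists_special_form (A : Mat n) (R : Subring ℂ) (hR : ∀ z : ℂ, A.charpoly.IsRoot z → z ∈ R)
    (hns : ∀ c : ℂ, A ≠ c • (1 : Mat n)) :
    ∃ P J : Mat n, P.det ≠ 0 ∧ A * P = P * J ∧ Up J ∧ IntM R J ∧ Special J := by
  classical
  obtain ⟨P, M, d, hP, hAP, hMR, hM, hone⟩ := exists_chain_form A R hR
  by_cases hall : ∀ k l, M k k = M l l
  · -- one eigenvalue
    have hn : 0 < n := Nat.pos_of_ne_zero fun h => hns 0 (by subst h; exact Subsingleton.elim _ _)
    set a := M ⟨0, hn⟩ ⟨0, hn⟩ with ha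
    obtain ⟨i, j, hij, hne⟩ : ∃ i j, i ≠ j ∧ M i j ≠ 0 := by
      by_contra h
      push Not at h
      refine hns a ?_
      have hMd : M = a • (1 : Mat n) := Matrix.ext fun k l => by
        rcases eq_or_ne k l with rfl | hkl
        · rw [Matrix.smul_apply, one_apply_eq, smul_eq_mul, mul_one]; exact hall _ _
        · rw [Matrix.smul_apply, one_apply_ne hkl, smul_zero]; exact h k l hkl
      have e : A * P = (a • (1 : Mat n)) * P := by
        rw [hAP, hMd, smul_mul_assoc, mul_smul_comm, Matrix.one_mul, Matrix.mul_one]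
      have hu : IsUnit P.det := isUnit_iff_ne_zero.2 hP
      rw [← Matrix.mul_nonsing_inv_cancel_right P A hu, e,
        Matrix.mul_nonsing_inv_cancel_right P _ hu]
    let S := Finset.univ.filter fun q : Fin n × Fin n => q.1 ≠ q.2 ∧ M q.1 q.2 ≠ 0
    obtain ⟨⟨i₀, j₀⟩, hq, hmin⟩ :=
      S.exists_min_image (fun q => d q.2) ⟨(i, j), Finset.mem_filter.2 ⟨Finset.mem_univ _, hij, hne⟩⟩
    obtain ⟨hij₀, hne₀⟩ := (Finset.mem_filter.1 hq).2
    let w : Fin n → ℕ := fun k => if k = i₀ then 0 else if k = j₀ then 1 else d k + 2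
    have hcol : ∀ k, k ≠ i₀ → M k i₀ = 0 := fun k hk => by
      by_contra h
      have h1 : d j₀ ≤ d i₀ := hmin (k, i₀) (Finset.mem_filter.2 ⟨Finset.mem_univ _, hk, h⟩)
      have h2 := (hM i₀ j₀ hij₀ hne₀).2
      omega
    have hw : ∀ k l, k ≠ l → M k l ≠ 0 → w k < w l := fun k l hkl h => by
      have hl : l ≠ i₀ := fun e => h (by rw [e] at hkl ⊢; exact hcol k hkl)
      simp only [w, if_neg hl]
      by_cases hlj : l = j₀
      · rw [if_pos hlj]
        by_cases hki : k = i₀
        · rw [if_pos hki]; exact Nat.one_pos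
        · exact absurd (hone k i₀ l hkl (by rw [hlj]; exact hij₀) h (by rw [hlj]; exact hne₀)) hki
      · rw [if_neg hlj]
        have hd := (hM k l hkl h).2
        split_ifs <;> omega
    obtain ⟨σ, P', hP', hAP', hup, hmono⟩ := exists_ordered hP hAP w hw
    have h0 : (σ.symm i₀ : ℕ) = 0 := by
      by_contra h0
      have := hmono (show (⟨0, hn⟩ : Fin n) ≤ σ.symm i₀ from Nat.zero_le _)
      simp only [Equiv.apply_symm_apply, w, if_pos rfl] at this
      by_cases h1 : σ ⟨0, hn⟩ = i₀
      · rw [← h1, Equiv.symm_apply_apply] at h0; exact h0 rfl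
      · rw [if_neg h1] at this; split_ifs at this <;> omega
    have h1 : (σ.symm j₀ : ℕ) = 1 := by
      have hne0 : (σ.symm j₀ : ℕ) ≠ 0 := fun e => hij₀ (σ.symm.injective (Fin.ext (h0.trans e.symm)))
      by_contra h1
      have hn2 : 1 < n := lt_of_le_of_lt (by omega : 1 ≤ (σ.symm j₀ : ℕ)) (σ.symm j₀).isLt
      have := hmono (show (⟨1, hn2⟩ : Fin n) ≤ σ.symm j₀ from by show 1 ≤ (σ.symm j₀ : ℕ); omega)
      simp only [Equiv.apply_symm_apply, w, if_neg hij₀.symm, if_true] at this
      by_cases h2 : σ ⟨1, hn2⟩ = i₀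
      · rw [← h2, Equiv.symm_apply_apply] at h0; exact one_ne_zero h0
      · rw [if_neg h2] at this
        by_cases h3 : σ ⟨1, hn2⟩ = j₀
        · rw [← h3, Equiv.symm_apply_apply] at h1; exact h1 rfl
        · rw [if_neg h3] at this; omega
    refine ⟨P', M.submatrix σ σ, hP', hAP', hup, fun _ _ => hMR _ _,
      Or.inr ⟨a, fun k => hall _ _, σ.symm i₀, σ.symm j₀, h0, h1, ?_⟩⟩
    simpa using hne₀
  · -- several eigenvalues
    push Not at hall
    obtain ⟨k₀, l₀, hkl₀⟩ := hall
    set a := M k₀ k₀ with ha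
    let D := Finset.univ.sup d
    let w : Fin n → ℕ := fun k => if M k k = a then d k else D + 1 + d k
    have hD : ∀ k, d k ≤ D := fun k => Finset.le_sup (Finset.mem_univ k)
    have hw : ∀ k l, k ≠ l → M k l ≠ 0 → w k < w l := fun k l hkl h => by
      obtain ⟨h1, h2⟩ := hM k l hkl h
      simp only [w, h1]
      split_ifs <;> omega
    obtain ⟨σ, P', hP', hAP', hup, hmono⟩ := exists_ordered hP hAP w hw
    let T := Finset.univ.filter fun i : Fin n => M (σ i) (σ i) ≠ a
    have hT : T.Nonempty := ⟨σ.symm l₀, by simpa [T, ha] using hkl₀.symm⟩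
    set m := T.min' hT with hm
    have hm1 : M (σ m) (σ m) ≠ a := (Finset.mem_filter.1 (Finset.min'_mem T hT)).2
    have hiff : ∀ i, M (σ i) (σ i) = a ↔ i < m := fun i => by
      refine ⟨fun h => lt_of_not_ge fun hle => ?_, fun h => by_contra fun hc => ?_⟩
      · have := hmono hle
        simp only [w, if_pos h, if_neg hm1] at this
        have := hD (σ i)
        omega
      · exact absurd (Finset.min'_le T i (Finset.mem_filter.2 ⟨Finset.mem_univ _, hc⟩)) (not_le.2 h)
    refine ⟨P', M.submatrix σ σ, hP', hAP', hup, fun _ _ => hMR _ _,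
      Or.inl ⟨m, a, ?_, fun i => hiff i⟩⟩
    have := (hiff (σ.symm k₀)).1 (by rw [Equiv.apply_symm_apply])
    exact lt_of_le_of_lt (Nat.zero_le _) this

/-- From a similarity to a conjugation by a matrix of determinant one. -/
theorem conj_rep (hn : 0 < n) {A P J : Mat n} (hA : A.det = 1) (hP : P.det ≠ 0) (h : A * P = P * J) :
    J.det = 1 ∧ ∃ c : Mat n, c.det = 1 ∧ bd J c = A := by
  refine ⟨?_, ?_⟩
  · have e := congrArg Matrix.det h
    rw [Matrix.det_mul, Matrix.det_mul, hA, one_mul] at e
    exact (mul_eq_left₀ hP).1 e.symm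
  obtain ⟨c, hc⟩ := IsAlgClosed.exists_pow_nat_eq (P.det)⁻¹ hn
  have hd : (c • P).det = 1 := by
    rw [Matrix.det_smul, Fintype.card_fin, hc, inv_mul_cancel₀ hP]
  refine ⟨c • P, hd, ?_⟩
  rw [bd, smul_mul_assoc, ← h, ← mul_smul_comm, Matrix.mul_assoc, mul_adj_one hd, Matrix.mul_one]

/-- A regular matrix is similar to a lower bidiagonal one with ones below the diagonal and the
eigenvalues on it. -/
theorem exists_bidiag_form {B : Mat n} (hB : Cyclic B) (R : Subring ℂ)
    (hR : ∀ z : ℂ, B.charpoly.IsRoot z → z ∈ R) :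
    ∃ P b : Mat n, P.det ≠ 0 ∧ B * P = P * b ∧ Bidiag b ∧ IntM R b := by
  classical
  obtain ⟨v, hv⟩ := hB
  obtain ⟨μ, hμ⟩ := exists_roots B
  have hμR : ∀ i, μ i ∈ R := fun i => hR _ (by
    rw [hμ, Polynomial.IsRoot.def, Polynomial.eval_prod]
    exact Finset.prod_eq_zero (Finset.mem_univ i) (by simp))
  let q : ℕ → Polynomial ℂ := fun k =>
    ∏ l ∈ Finset.univ.filter (fun l : Fin n => (l : ℕ) < k), (Polynomial.X - Polynomial.C (μ l))
  have hq1 : ∀ k, (q k).Monic := fun k => Polynomial.monic_prod_of_monic _ _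
    fun l _ => Polynomial.monic_X_sub_C _
  have hqd : ∀ k, k ≤ n → (q k).natDegree = k := fun k hk => by
    rw [Polynomial.natDegree_prod_of_monic _ _ fun l _ => Polynomial.monic_X_sub_C _]
    simp [Fin.card_filter_val_lt, hk]
  have hqs : ∀ k (hk : k < n), q (k + 1) = q k * (Polynomial.X - Polynomial.C (μ ⟨k, hk⟩)) := by
    intro k hk
    have e : (Finset.univ.filter fun l : Fin n => (l : ℕ) < k + 1) =
        insert ⟨k, hk⟩ (Finset.univ.filter fun l : Fin n => (l : ℕ) < k) := by
      ext l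
      simp only [Finset.mem_filter, Finset.mem_univ, true_and, Finset.mem_insert, Fin.ext_iff]
      omega
    simp only [q, e]
    rw [Finset.prod_insert (by simp), mul_comm]
  let Kr : Mat n := Matrix.of fun i k : Fin n => (B ^ (k : ℕ) *ᵥ v) i
  let U : Mat n := Matrix.of fun i k : Fin n => (q k).coeff i
  let w : ℕ → Fin n → ℂ := fun k => Polynomial.aeval B (q k) *ᵥ v
  have hcol : ∀ i k : Fin n, (Kr * U) i k = w k i := by
    intro i k
    simp only [w]
    rw [Polynomial.aeval_eq_sum_range' (show (q k).natDegree < n by rw [hqd k k.isLt.le]; exact k.isLt),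
      Finset.sum_range]
    simp only [Matrix.mul_apply, Kr, U, Matrix.of_apply, Matrix.sum_mulVec, Matrix.smul_mulVec,
      Finset.sum_apply, Pi.smul_apply, smul_eq_mul]
    exact Finset.sum_congr rfl fun c _ => mul_comm _ _
  have hU : U.det = 1 := det_one_of_up
    (fun i k h => Polynomial.coeff_eq_zero_of_natDegree_lt (p := q k) (lt_of_eq_of_lt (hqd k k.isLt.le) h))
    fun i => by
      have := (hq1 i).coeff_natDegree
      rw [hqd i i.isLt.le] at this
      exact this
  have hKr : Kr.det ≠ 0 :=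
    ((Matrix.isUnit_iff_isUnit_det _).1 (Matrix.linearIndependent_cols_iff_isUnit.1 hv)).ne_zero
  have hlast : w n = 0 := by
    have e : q n = B.charpoly := by
      rw [hμ]
      simp only [q]
      exact Finset.prod_congr (Finset.filter_true_of_mem fun l _ => l.isLt) fun l _ => rfl
    simp only [w, e, Matrix.aeval_self_charpoly, Matrix.zero_mulVec]
  let b : Mat n := Matrix.of fun i k =>
    (if i = k then μ k else 0) + (if (i : ℕ) = k + 1 then 1 else 0)
  refine ⟨Kr * U, b, by rw [Matrix.det_mul, hU, mul_one]; exact hKr, ?_, ⟨?_, ?_, ?_⟩, fun i k => ?_⟩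
  · ext i k
    have h1 : (B * (Kr * U)) i k = (B *ᵥ w k) i := by
      simp only [Matrix.mul_apply (M := B), hcol, Matrix.mulVec, dotProduct]
    have h2 : B *ᵥ w k = μ k • w k + w (k + 1) := by
      simp only [w, hqs k k.isLt, Fin.eta, Matrix.mulVec_mulVec]
      rw [← Matrix.smul_mulVec, ← Matrix.add_mulVec]
      congr 1
      rw [map_mul, map_sub, Polynomial.aeval_X, Polynomial.aeval_C, Algebra.algebraMap_eq_smul_one,
        Matrix.mul_sub, mul_smul_comm, Matrix.mul_one, add_sub_cancel]
      have e := congrArg (Polynomial.aeval B) (mul_comm Polynomial.X (q k))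
      rw [map_mul, map_mul, Polynomial.aeval_X] at e
      exact e
    rw [h1, h2]
    simp only [Matrix.mul_apply (M := Kr * U), hcol, b, Matrix.of_apply, mul_add, mul_ite, mul_zero,
      mul_one, Finset.sum_add_distrib, Finset.sum_ite_eq', Finset.mem_univ, if_true, Pi.add_apply,
      Pi.smul_apply, smul_eq_mul]
    congr 1
    · exact mul_comm _ _
    by_cases hk : (k : ℕ) + 1 < n
    · rw [Finset.sum_eq_single ⟨(k : ℕ) + 1, hk⟩
        (fun c _ hc => if_neg fun e => hc (Fin.ext e)) (by simp), if_pos rfl]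
    · rw [Finset.sum_eq_zero fun c _ => if_neg fun e => hk (by have := c.isLt; omega)]
      have : (k : ℕ) + 1 = n := by have := k.isLt; omega
      rw [this, hlast]; rfl
  · intro i k h
    have h' : (i : ℕ) < k := h
    simp only [b, Matrix.of_apply, if_neg h.ne, zero_add]
    exact if_neg (by omega)
  · intro i k h
    have h' : i ≠ k := fun e => by rw [e] at h; omega
    simp [b, h', h]
  · intro i k h
    have h' : i ≠ k := fun e => by rw [e] at h; omega
    simp only [b, Matrix.of_apply, if_neg h', zero_add]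
    exact if_neg (by omega)
  · simp only [b, Matrix.of_apply]
    exact add_mem (by split_ifs; exacts [hμR _, zero_mem R]) (by split_ifs; exacts [one_mem R, zero_mem R])

theorem isRoot_of_bd {J c : Mat n} (hc : c.det = 1) (hJ : Up J) {z : ℂ}
    (hz : (bd J c).charpoly.IsRoot z) : ∃ i, J i i = z := by
  rw [bd, Matrix.mul_assoc, Matrix.charpoly_mul_comm, Matrix.mul_assoc, adj_mul_one hc,
    Matrix.mul_one, charpoly_of_isUpperTriangular _ hJ, Polynomial.IsRoot.def,
    Polynomial.eval_prod, Finset.prod_eq_zero_iff] at hz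
  obtain ⟨i, -, h⟩ := hz
  exact ⟨i, by simpa [sub_eq_zero, eq_comm] using h⟩

/-- Representatives in genus one. -/
theorem exists_rep_one {s : ℕ} (hn : 0 < n) (A : Fin (s + 2) → Mat n) (hdet : ∀ j, (A j).det = 1)
    (hq : ∀ j, ∀ z : ℂ, (A j).charpoly.IsRoot z → ∃ m : ℕ, 0 < m ∧ z ^ m = 1)
    (h0 : minpoly ℂ (A 0) = (A 0).charpoly) (h1 : ∀ c : ℂ, A 1 ≠ c • (1 : Mat n)) :
    ∃ N : ℕ, 0 < N ∧ ∀ R : Subring ℂ, (∀ z : ℂ, z ^ N = 1 → z ∈ R) →
      ∃ J : Fin (s + 2) → Mat n, Bidiag (J 0).adjugate ∧ Lo (J 0) ∧ Special (J 1) ∧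
        (∀ j, j ≠ 0 → Up (J j)) ∧ (∀ j, (J j).det = 1) ∧ (∀ j, IntM R (J j)) ∧
        ∀ j, ∃ c : Mat n, c.det = 1 ∧ bd (J j) c = A j := by
  obtain ⟨N, hN, hrep⟩ := exists_class_rep A hdet hq
  refine ⟨N, hN, fun R hR => ?_⟩
  obtain ⟨J, hJ, hJc⟩ := hrep R hR
  have hroot : ∀ j (z : ℂ), (A j).charpoly.IsRoot z → z ^ N = 1 := fun j z hz => by
    obtain ⟨c, hc, e⟩ := hJc j
    rw [← e] at hz
    obtain ⟨i, hi⟩ := isRoot_of_bd hc (hJ j).1 hz
    exact hi ▸ (hJ j).2.2.2 i
  -- the special class
  obtain ⟨P1, J1, hP1, hAP1, hup1, hR1, hsp⟩ :=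
    exists_special_form (A 1) R (fun z hz => hR z (hroot 1 z hz)) h1
  obtain ⟨hd1, hc1⟩ := conj_rep hn (hdet 1) hP1 hAP1
  -- the regular class
  set B := (A 0).adjugate with hBdef
  have hBd : B.det = 1 := det_adj_one (hdet 0)
  have hBroot : ∀ z : ℂ, B.charpoly.IsRoot z → z ∈ R := fun z hz => by
    rw [Polynomial.IsRoot.def, Matrix.eval_charpoly] at hz
    have hz0 : z ≠ 0 := fun h => by
      subst h
      simp [Matrix.det_neg, hBd] at hz
    have e : Matrix.scalar (Fin n) z⁻¹ - A 0 = ((-z⁻¹) • A 0) * (Matrix.scalar (Fin n) z - B) := by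
      simp only [← Matrix.algebraMap_eq_diagonal, Matrix.scalar_apply, ← smul_one_eq_diagonal,
        Matrix.mul_sub, mul_smul_comm, smul_mul_assoc, Matrix.mul_one, hBdef, mul_adj_one (hdet 0),
        smul_smul]
      simp [hz0, sub_eq_add_neg, neg_smul, add_comm]
    have hr : (A 0).charpoly.IsRoot z⁻¹ := by
      rw [Polynomial.IsRoot.def, Matrix.eval_charpoly, e, Matrix.det_mul, hz, mul_zero]
    have := hroot 0 _ hr
    refine hR z ?_
    rw [← inv_inv z, inv_pow, this, inv_one]
  obtain ⟨P0, b, hP0, hBP, hbid, hbR⟩ :=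
    exists_bidiag_form ((cyclic_of_minpoly h0).adjugate (hdet 0)) R hBroot
  obtain ⟨hbd, c0, hc0, e0⟩ := conj_rep hn hBd hP0 hBP
  have hblo : Lo b := fun i j h => hbid.1 i j (OrderDual.toDual_lt_toDual.1 h)
  have hadj : b.adjugate.adjugate = b := adj_adj_one hbd
  refine ⟨Function.update (Function.update J 1 J1) 0 b.adjugate, ?_, ?_, ?_, fun j hj => ?_,
    fun j => ?_, fun j => ?_, fun j => ?_⟩
  · rw [Function.update_self, hadj]; exact hbid
  · rw [Function.update_self, ← inv_eq_adj hbd]
    exact (tri_inv OrderDual.toDual.injective hblo (by rw [hbd]; exact one_ne_zero)).1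
  · rw [Function.update_of_ne (by simp), Function.update_self]; exact hsp
  · rw [Function.update_of_ne hj]
    rcases eq_or_ne j 1 with rfl | h
    · rw [Function.update_self]; exact hup1
    · rw [Function.update_of_ne h]; exact (hJ j).1
  all_goals
    rcases eq_or_ne j 0 with rfl | hj
    on_goal 2 => rw [Function.update_of_ne hj]; rcases eq_or_ne j 1 with rfl | h
  all_goals first
    | rw [Function.update_self]
    | rw [Function.update_of_ne h]
  · exact det_adj_one hbd
  · exact hd1
  · exact (hJ j).2.2.1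
  · exact hbR.adjugate
  · exact hR1
  · exact (hJ j).2.1
  · refine ⟨c0, hc0, ?_⟩
    have := congrArg Matrix.adjugate e0
    rw [hBdef, adj_adj_one (hdet 0)] at this
    rw [← this]
    simp only [bd, Matrix.adjugate_mul_distrib, adj_adj_one hc0, Matrix.mul_assoc]
  · exact hc1
  · exact hJc j

end P002Punct
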