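import Vale.Agent.P002Punct.One.Dom
import Vale.Agent.P002Punct.SeedInt
import Vale.Agent.P002Punct.SeedMat

/-!
Krylov matrices: the companion form, and prescribing the leading columns of a Hessenberg matrix
with given characteristic polynomial.
-/

namespace P002Punct

open Matrix P002Surf Polynomial

variable {n : ℕ}

/-- The companion matrix of a monic polynomial of degree `n`. -/
def comp (f : ℂ[X]) : Mat n :=
  Matrix.of fun i k => if (k : ℕ) + 1 < n then (if (i : ℕ) = k + 1 then 1 else 0) else -f.coeff i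

theorem kry_mul_comp (M : Mat n) : M * kry M = kry M * comp M.charpoly := by
  ext i k
  have hl : (M * kry M) i k = (M ^ ((k : ℕ) + 1)) i ⟨0, k.pos⟩ := by
    rw [pow_succ', Matrix.mul_apply, Matrix.mul_apply]
    refine Finset.sum_congr rfl fun l _ => ?_
    rw [kry_apply M l k ⟨0, k.pos⟩ rfl]
  rw [hl, Matrix.mul_apply]
  by_cases hk : (k : ℕ) + 1 < n
  · rw [Finset.sum_eq_single (⟨(k : ℕ) + 1, hk⟩ : Fin n)]
    · simp [comp, hk, kry]
    · intro l _ hl'
      have h' : (l : ℕ) ≠ k + 1 := fun e => hl' (Fin.ext e)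
      simp [comp, hk, h']
    · simp
  · have hkn : (k : ℕ) + 1 = n := by have := k.isLt; omega
    have hch : Polynomial.aeval M M.charpoly = 0 := Matrix.aeval_self_charpoly M
    rw [Polynomial.aeval_eq_sum_range, Matrix.charpoly_natDegree_eq_dim, Fintype.card_fin,
      Finset.sum_range_succ] at hch
    have hlead : M.charpoly.coeff n = 1 := by
      have h := (Matrix.charpoly_monic M).coeff_natDegree
      rwa [Matrix.charpoly_natDegree_eq_dim, Fintype.card_fin] at h
    rw [hlead, one_smul, ← Fin.sum_univ_eq_sum_range (fun l => M.charpoly.coeff l • M ^ l)] at hch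
    have h := congrFun (congrFun hch i) ⟨0, k.pos⟩
    simp only [Matrix.add_apply, Matrix.sum_apply, Matrix.smul_apply, smul_eq_mul,
      Matrix.zero_apply] at h
    rw [hkn]
    simp only [comp, Matrix.of_apply, if_neg hk, mul_neg, Finset.sum_neg_distrib]
    rw [eq_neg_iff_add_eq_zero]
    refine (Eq.trans ?_ h)
    rw [add_comm]
    congr 1
    exact Finset.sum_congr rfl fun l _ => by rw [kry_apply M i l ⟨0, k.pos⟩ rfl, mul_comm]

/-- A cyclic matrix in its Krylov basis. -/
theorem companion_eq {M : Mat n} (h : (kry M).det ≠ 0) :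
    (kry M)⁻¹ * M * kry M = comp M.charpoly := by
  rw [Matrix.mul_assoc, kry_mul_comp, Matrix.nonsing_inv_mul_cancel_left _ _ (isUnit_det_of_ne h)]

/-- The conjugate of the companion matrix by the Krylov matrix of `N` has the first `n - 1` columns
of `N`; if the characteristic polynomials agree it is `N`. -/
theorem conj_comp {N : Mat n} (hN : Hess N) (f : ℂ[X]) :
    (∀ i k : Fin n, (k : ℕ) + 1 < n → (kry N * comp (n := n) f * (kry N)⁻¹) i k = N i k) ∧
      (N.charpoly = f → kry N * comp f * (kry N)⁻¹ = N) := by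
  have hd := det_kry_ne hN
  have hu := isUnit_det_of_ne hd
  refine ⟨fun i k hk => ?_, fun hf => ?_⟩
  · set g := kry N
    have hgi : Up g⁻¹ := (tri_inv Function.injective_id (up_kry hN) hd).1
    have e : N = g * comp N.charpoly * g⁻¹ := by
      rw [← kry_mul_comp, Matrix.mul_nonsing_inv_cancel_right _ _ hu]
    conv_rhs => rw [e]
    rw [← sub_eq_zero, ← Matrix.sub_apply, ← Matrix.sub_mul, ← Matrix.mul_sub, Matrix.mul_apply]
    refine Finset.sum_eq_zero fun l _ => ?_
    rcases lt_or_ge k l with hl | hl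
    · rw [up_zero hgi hl, mul_zero]
    · have hln : (l : ℕ) + 1 < n := by have : (l : ℕ) ≤ k := hl; omega
      rw [Matrix.mul_apply, Finset.sum_eq_zero (fun m _ => ?_), zero_mul]
      simp [comp, hln]
  · rw [← hf, ← kry_mul_comp, Matrix.mul_nonsing_inv_cancel_right _ _ hu]

/-- The lower bidiagonal matrix of ones. -/
def lb (n : ℕ) : Mat n := Matrix.of fun i j => if i = j ∨ (i : ℕ) = j + 1 then 1 else 0

theorem bidiag_lb : Bidiag (lb n) :=
  ⟨fun i j h => by
      have h' : (i : ℕ) < j := h
      simp [lb, h.ne]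
      omega,
    fun i j h => by simp [lb, h],
    fun i j h => by
      have h1 : i ≠ j := fun e => by subst e; omega
      simp [lb, h1]
      omega⟩

theorem loU_lb : LoU (lb n) :=
  ⟨fun i j h => bidiag_lb.1 i j h, fun i => by simp [lb]⟩

theorem lb_mul_apply {L : Mat n} (i i' j : Fin n) (h : (i : ℕ) = i' + 1) :
    (lb n * L) i j = L i j + L i' j := by
  have hne : i ≠ i' := fun e => by subst e; omega
  rw [Matrix.mul_apply, Finset.sum_eq_add_of_mem i i' (Finset.mem_univ _) (Finset.mem_univ _) hne]
  · simp [lb, h]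
  · intro l _ hl
    have h1 : (l : ℕ) ≠ i' := fun e => hl.2 (Fin.ext e)
    have h2 : ¬(i = l) := fun e => hl.1 e.symm
    simp [lb, h2]
    omega

/-- The inverse of the bidiagonal matrix of ones has no zero below the diagonal. -/
theorem full_inv_lb : Full (lb n)⁻¹ := by
  have hd : (lb n).det = 1 := det_one_of_lo loU_lb.1 loU_lb.2
  have hu : IsUnit (lb n).det := by rw [hd]; exact isUnit_one
  have hL := loU_inv (loU_lb (n := n))
  intro i
  induction i using WellFoundedLT.induction with
  | _ i ih =>
    intro j hji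
    have hi : (j : ℕ) < i := hji
    let i' : Fin n := ⟨(i : ℕ) - 1, by have := i.isLt; omega⟩
    have h := lb_mul_apply (L := (lb n)⁻¹) i i' j (by show (i : ℕ) = i - 1 + 1; omega)
    rw [Matrix.mul_nonsing_inv _ hu, Matrix.one_apply_ne hji.ne'] at h
    intro h0
    rw [h0, zero_add] at h
    rcases eq_or_ne i' j with he | he
    · rw [he, hL.2] at h
      exact zero_ne_one h
    · exact ih i' (show (i : ℕ) - 1 < i by omega) j
        (show (j : ℕ) < i - 1 from lt_of_le_of_ne (by omega) fun e => he (Fin.ext e.symm)) h.symm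

/-- The inverse eigenbasis of the corresponding first entry has no zero below the diagonal. -/
theorem full_lam_lb {d : Fin n → ℂ} (hd : Function.Injective d) (hd0 : ∀ i, d i ≠ 0) :
    Full (lam (lb n)⁻¹ d) := by
  have hld : (lb n).det = 1 := det_one_of_lo loU_lb.1 loU_lb.2
  have hlu : IsUnit (lb n).det := by rw [hld]; exact isUnit_one
  obtain ⟨-, hW, hl, -, hAW, -⟩ := wMat_spec (loU_inv (loU_lb (n := n))) hd
  set Λ := lam (lb n)⁻¹ d
  have hWu : IsUnit (wMat (lb n)⁻¹ d).det := by rw [hW]; exact isUnit_one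
  have e1 : Λ * hA (lb n)⁻¹ d = diagonal d * Λ := by
    calc Λ * hA (lb n)⁻¹ d = Λ * (hA (lb n)⁻¹ d * wMat (lb n)⁻¹ d) * Λ := by
          simp only [Λ, lam, Matrix.mul_assoc, Matrix.mul_nonsing_inv _ hWu, Matrix.mul_one]
      _ = _ := by
        simp only [hAW, Λ, lam, ← Matrix.mul_assoc, Matrix.nonsing_inv_mul _ hWu, Matrix.one_mul]
  have e2 : diagonal d * Λ * diagonal (dinv d) * lb n = Λ := by
    rw [← e1, hA, Matrix.mul_assoc _ (_ * diagonal d), Matrix.mul_assoc (lb n)⁻¹ (diagonal d),
      diagonal_mul_diagonal,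
      show (fun i => d i * dinv d i) = fun _ => (1 : ℂ) from
        funext fun i => mul_inv_cancel₀ (hd0 i),
      diagonal_one, Matrix.mul_one, Matrix.mul_assoc, Matrix.nonsing_inv_mul _ hlu, Matrix.mul_one]
  intro i
  have key : ∀ m : ℕ, ∀ j : Fin n, (i : ℕ) = j + m → Λ i j ≠ 0 := by
    intro m
    induction m with
    | zero =>
      intro j h
      rw [show i = j from Fin.ext (by omega), hl.2]
      exact one_ne_zero
    | succ m ih =>
      intro j h
      let j' : Fin n := ⟨(j : ℕ) + 1, by have := i.isLt; omega⟩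
      have hne : j ≠ j' := fun e => by
        have := congrArg Fin.val e
        simp only [j'] at this
        omega
      have e := congrFun (congrFun e2 i) j
      rw [Matrix.mul_apply, Finset.sum_eq_add_of_mem j j' (Finset.mem_univ _) (Finset.mem_univ _) hne
        fun l _ hl' => ?_] at e
      · simp only [Matrix.mul_diagonal, Matrix.diagonal_mul, lb, Matrix.of_apply, true_or, if_true,
          show (j' : ℕ) = (j : ℕ) + 1 from rfl, or_true, mul_one, dinv] at e
        intro h0
        rw [h0] at e
        simp only [mul_zero, zero_mul, zero_add, mul_eq_zero, inv_eq_zero, hd0, false_or,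
          or_false] at e
        exact ih j' (by show (i : ℕ) = j + 1 + m; omega) e
      · have h1 : (l : ℕ) ≠ j + 1 := fun e' => hl'.2 (Fin.ext e')
        simp [lb, hl'.1, h1]
  intro j hji
  exact key ((i : ℕ) - j) j (by have : (j : ℕ) < i := hji; omega)

/-- Equal determinant one and equal characteristic polynomials of the inverses. -/
theorem charpoly_of_adjugate {A B : Mat n} (hA : A.det = 1) (hB : B.det = 1)
    (h : A.adjugate.charpoly = B.adjugate.charpoly) : A.charpoly = B.charpoly := by
  refine Polynomial.eq_of_infinite_eval_eq _ _ (((Set.finite_singleton (0 : ℂ)).infinite_compl).mono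
    fun z hz => ?_)
  have hz0 : z ≠ 0 := hz
  have key : ∀ M : Mat n, M.det = 1 →
      M.charpoly.eval z = (-z) ^ n * M.adjugate.charpoly.eval z⁻¹ := fun M hM => by
    have e : z • (1 : Mat n) - M = (-z) • (M * (z⁻¹ • (1 : Mat n) - M.adjugate)) := by
      rw [Matrix.mul_sub, Matrix.mul_smul, Matrix.mul_one, mul_adj_one hM, smul_sub, smul_smul,
        neg_mul, mul_inv_cancel₀ hz0, neg_smul, neg_smul, one_smul]
      abel
    rw [eval_charpoly_smul, e, Matrix.det_smul, Matrix.det_mul, hM, one_mul, eval_charpoly_smul,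
      Fintype.card_fin]
  show A.charpoly.eval z = B.charpoly.eval z
  rw [key A hA, key B hB, h]

/-! ### the Krylov matrix of an inverse, and unit subdiagonals -/

theorem det_kry_inv {W : Mat n} (hW : W.det = 1) :
    ∃ c : ℤˣ, (kry W).det = ((c : ℤ) : ℂ) * (kry W.adjugate).det := by
  refine ⟨Equiv.Perm.sign (Fin.revPerm (n := n)), ?_⟩
  have e : W.adjugate ^ (n - 1) * kry W = (kry W.adjugate).submatrix id Fin.rev := by
    ext i k
    rw [Matrix.submatrix_apply, id, kry_apply _ i (Fin.rev k) ⟨0, k.pos⟩ rfl, Fin.val_rev,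
      Matrix.mul_apply]
    have hk := k.isLt
    have e1 : W.adjugate ^ (n - 1) * W ^ (k : ℕ) = W.adjugate ^ (n - ((k : ℕ) + 1)) := by
      rw [show n - 1 = (n - ((k : ℕ) + 1)) + k by omega, pow_add, Matrix.mul_assoc,
        ← Commute.mul_pow (show Commute W.adjugate W from
          (adj_mul_one hW).trans (mul_adj_one hW).symm), adj_mul_one hW, one_pow, Matrix.mul_one]
    rw [← e1, Matrix.mul_apply]
    exact Finset.sum_congr rfl fun l _ => by rw [kry_apply W l k ⟨0, k.pos⟩ rfl]
  have h := congrArg Matrix.det e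
  rw [Matrix.det_mul, Matrix.det_pow, det_adj_one hW, one_pow, one_mul,
    show (kry W.adjugate).submatrix id Fin.rev = (kry W.adjugate).submatrix id Fin.revPerm from rfl,
    Matrix.det_permute'] at h
  simpa using h

variable {R : Subring ℂ}

theorem hess_pow_inv_mem {M : Mat n} (hM : Hess M)
    (h : ∀ i j : Fin n, (i : ℕ) = j + 1 → (M i j)⁻¹ ∈ R) :
    ∀ (k : ℕ) (i j : Fin n), (i : ℕ) = j + k → ((M ^ k) i j)⁻¹ ∈ R := by
  intro k
  induction k with
  | zero =>
    intro i j hij
    rw [pow_zero, show i = j from Fin.ext (by omega), Matrix.one_apply_eq, inv_one]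
    exact one_mem R
  | succ k ih =>
    intro i j hij
    rw [hess_pow_step hM k (l := ⟨(j : ℕ) + k, by have := i.isLt; omega⟩) hij rfl, mul_inv]
    exact mul_mem (h _ _ (by show (i : ℕ) = j + k + 1; omega)) (ih _ _ rfl)

theorem inR_kry {M : Mat n} (hM : InR R M) : InR R (kry M) := fun i k => by
  have h : ∀ m : ℕ, InR R (M ^ m) := fun m => by
    induction m with
    | zero => rw [pow_zero]; exact inR_one
    | succ m ih => rw [pow_succ]; exact ih.mul hM
  exact h _ _ _

theorem inR_inv {A : Mat n} (hA : InR R A) (hd : (A.det)⁻¹ ∈ R) : InR R A⁻¹ := fun i j => by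
  rw [Matrix.inv_def, Ring.inverse_eq_inv', Matrix.smul_apply, smul_eq_mul]
  exact mul_mem hd (hA.adjugate i j)

theorem ratM_kry {M : ℂ → Mat n} (hM : RatM M) : RatM fun t => kry (M t) := fun i k => by
  have h : ∀ m : ℕ, RatM fun t => M t ^ m := fun m => by
    induction m with
    | zero => simpa only [pow_zero] using ratM_const (1 : Mat n)
    | succ m ih => simpa only [pow_succ] using ih.mul hM
  exact h _ _ _

end P002Punct
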