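import Vale.Agent.P002Punct.One.Regular
import Vale.Agent.P002Surf.Section

/-!
Genus one: from representations whose pair has scalar commutant to all representations, by counting
parameters.  The first boundary class is regular.
-/

namespace P002Punct

open Matrix MvPolynomial P002Surf Vale.Agent.P002.Surface

variable {s n : ℕ}

/-- In genus one a representation without a scalar commutant depends on few parameters. -/
theorem param_count_one (hn : 0 < n) {J : Fin (s + 1) → Mat n}
    (hJ : ∀ j a b, J j a b ∈ acl (∅ : Set ℂ)) (hJd : ∀ j, (J j).det = 1) (h0 : Cyclic (J 0))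
    (x : St 1 (s + 1) n) (hx : PRep J x) (hbad : ¬ ScalarCommutant (x.1 0)) :
    ∃ T : Finset ℂ, T.card + 2 * n + s + 1 ≤ 2 * (n * n) + s * (n * n) + n ∧
      ∀ v, sev x v ∈ acl (T : Set ℂ) := by
  classical
  have hb : ∃ T, NonScalar T ∧ T * (x.1 0).1 = (x.1 0).1 * T ∧
      T * (x.1 0).2 = (x.1 0).2 * T := by
    simp only [ScalarCommutant, not_forall, not_exists, exists_prop] at hbad
    obtain ⟨T, hT1, hT2, hT⟩ := hbad
    exact ⟨T, hT, hT1, hT2⟩
  obtain ⟨t, ht, htA, htB⟩ := bad_pair_count (hx.1 0).1 (hx.1 0).2 hb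
  choose u hu huH using fun j : Fin s => conj_count hn (hx.2.1 j.succ)
  let S : Finset ℂ := t ∪ Finset.univ.biUnion u
  have hS : S.card + 2 * n + s ≤ 2 * (n * n) + s * (n * n) := by
    have h2 : ∑ j : Fin s, ((u j).card + 1) ≤ ∑ _j : Fin s, n * n :=
      Finset.sum_le_sum fun j _ => hu _
    simp only [Finset.sum_add_distrib, Finset.sum_const, Finset.card_univ, Fintype.card_fin,
      smul_eq_mul, mul_one] at h2
    have h3 : S.card ≤ t.card + (Finset.univ.biUnion u).card := Finset.card_union_le _ _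
    have h5 := Finset.card_biUnion_le (s := (Finset.univ : Finset (Fin s))) (t := u)
    omega
  have htS : (t : Set ℂ) ⊆ acl (S : Set ℂ) := fun z hz =>
    subset_acl _ (Finset.mem_coe.2 (Finset.mem_union_left _ hz))
  have huS : ∀ j : Fin s, InA (S : Set ℂ) (x.2 j.succ) := fun j => (huH j).mono fun z hz =>
    subset_acl _ (Finset.mem_coe.2 (Finset.mem_union_right _
      (Finset.mem_biUnion.2 ⟨j, Finset.mem_univ _, hz⟩)))
  have hJA : ∀ j, InA (S : Set ℂ) (J j) := fun j => InA.mono (fun z hz => absurd hz (Set.notMem_empty z))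
    (show InA ∅ (J j) from hJ j)
  set c0 := bd (J 0) (x.2 0) with hc0
  set rest := (List.ofFn fun j : Fin s => bd (J j.succ) (x.2 j.succ)).prod with hrest
  have hrd : rest.det = 1 := P002Surf.det_list_prod fun M hM => by
    obtain ⟨j, rfl⟩ := List.mem_ofFn.1 hM
    exact det_bd (hJd _) (hx.2.1 _)
  have hcd : (cm (x.1 0)).det = 1 := det_cm (hx.1 0).1 (hx.1 0).2
  have hrel : cm (x.1 0) * (c0 * rest) = 1 := by
    have h := hx.2.2
    simpa [hprod, bdList, List.ofFn_succ] using h
  have hc : InA (S : Set ℂ) c0 := by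
    have e : c0 = (cm (x.1 0)).adjugate * rest.adjugate := by
      calc c0 = (cm (x.1 0)).adjugate * (cm (x.1 0) * (c0 * rest)) * rest.adjugate := by
            rw [← Matrix.mul_assoc _ (cm (x.1 0)), adj_mul_one hcd, Matrix.one_mul, Matrix.mul_assoc,
              mul_adj_one hrd, Matrix.mul_one]
        _ = _ := by rw [hrel, Matrix.mul_one]
    rw [e]
    refine InA.mul (InA.adjugate ?_) (InA.adjugate (InA.list_prod fun A hA => ?_))
    · have a1 := htA.mono htS
      have a2 := htB.mono htS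
      exact ((a1.mul a2).mul a1.adjugate).mul a2.adjugate
    · obtain ⟨j, rfl⟩ := List.mem_ofFn.1 hA
      exact ((huS j).mul (hJA _)).mul (huS j).adjugate
  have hsol : c0 * x.2 0 = x.2 0 * J 0 := by
    rw [hc0, bd, Matrix.mul_assoc _ (x.2 0).adjugate, adj_mul_one (hx.2.1 0), Matrix.mul_one]
  obtain ⟨w, hw, hwA⟩ := sl_param hc (hJA 0) hsol (hx.2.1 0) hn
  refine ⟨S ∪ w, ?_, ?_⟩
  · have := Finset.card_union_le S w
    have := finrank_sol_cyclic h0 c0
    omega
  have hsub : (S : Set ℂ) ⊆ acl ((S ∪ w : Finset ℂ) : Set ℂ) := fun z hz =>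
    subset_acl _ (by simp [Finset.mem_coe.1 hz])
  rintro (⟨i, c, a, b⟩ | ⟨j, a, b⟩)
  · obtain rfl : i = 0 := Subsingleton.elim _ _
    cases c
    · exact acl_subset_acl hsub (htA.mono htS a b)
    · exact acl_subset_acl hsub (htB.mono htS a b)
  · rcases Fin.eq_zero_or_eq_succ j with rfl | ⟨j', rfl⟩
    · rw [Finset.coe_union]
      exact hwA a b
    · exact acl_subset_acl hsub (huS j' a b)

/-- Genus one: if all representations whose pair has scalar commutant are in the closure of the
integral ones with some property, then all representations are. -/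
theorem zdOn_of_good_one (hn : 2 ≤ n) {R : Subring ℂ} (hR : ∀ z ∈ R, z ∈ acl (∅ : Set ℂ))
    {J : Fin (s + 1) → Mat n} {Q : St 1 (s + 1) n → Prop}
    (hJ : ∀ j a b, J j a b ∈ acl (∅ : Set ℂ)) (hJd : ∀ j, (J j).det = 1) (h0 : Cyclic (J 0))
    (h : ∀ x : St 1 (s + 1) n, PRep J x → ScalarCommutant (x.1 0) → ZdOn Q R J x) :
    ∀ x : St 1 (s + 1) n, PRep J x → ZdOn Q R J x := by
  classical
  intro x hx
  have hR' : ∀ z ∈ R, z ∈ algNum := fun z hz => mem_aclField.2 (hR z hz)
  let J₀ : Fin (s + 1) → Matrix (Fin n) (Fin n) algNum := fun j a b =>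
    ⟨J j a b, mem_aclField.2 (hJ j a b)⟩
  let i₀ : Fin n := ⟨0, by omega⟩
  have hiff := prep_iff (g := 1) i₀ J₀ (fun j => hJd j)
  obtain ⟨y, hy, hspec, hdim⟩ := exists_generic_point countable_algNum
    (fun z => by
      have := mem_acl_iff.1 (mem_aclField.1 z.2)
      rw [Algebra.adjoin_empty] at this
      have h1 : IsAlgebraic ℚ (z : ℂ) := this.restrictScalars ℚ
      exact (isAlgebraic_algebraMap_iff (A := ℂ) Subtype.val_injective).1 h1)
    (eqs J₀ 1 i₀) (sev x) ((hiff x).1 hx)
  have hy' : PRep J (unev y) := (hiff (unev y)).2 (by rw [sev_unev]; exact hy)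
  have hZ : ZdOn Q R J (unev y) := by
    refine h _ hy' ?_
    by_contra hbad
    obtain ⟨T, hT, hall⟩ := param_count_one (by omega) hJ hJd h0 (unev y) hy' hbad
    rw [sev_unev] at hall
    have h1 := hdim T hall
    have h2 := eqs_card J₀ 1 i₀
    have hN : Fintype.card (Var 1 (s + 1) n) = 2 * (n * n) + (s + 1) * (n * n) := by
      simp [Var, Idx]
    rw [hN, add_mul, one_mul] at h1
    omega
  intro p hp
  refine eval_eq_zero_of_field p
    {z : Var 1 (s + 1) n → algNum | ∃ a : St 1 (s + 1) n, PRep J a ∧ IntSt R a ∧ Q a ∧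
      (fun v => (z v : ℂ)) = sev a} (sev x) ?_ ?_
  · rintro z ⟨a, ha, hai, haQ, e⟩
    rw [e]
    exact hp a ha hai haQ
  · intro f hf
    refine hspec f ?_
    have h0 := hZ (f.map (algebraMap algNum ℂ)) fun a ha hai haQ => by
      let z : Var 1 (s + 1) n → algNum := fun v => ⟨sev a v, hR' _ (hai v)⟩
      rw [eval_map, ← aeval_def]
      have e1 : sev a = algebraMap algNum ℂ ∘ z := rfl
      rw [e1, aeval_algebraMap_apply, aeval_eq_eval, hf z ⟨a, ha, hai, haQ, rfl⟩, map_zero]
    rwa [eval_map, ← aeval_def, sev_unev] at h0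

end P002Punct
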