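import Vale.Agent.P002Punct.One.Hess
import Vale.Agent.P002Surf.Section
import Vale.Agent.P002Punct.SeedHandle
import Vale.Agent.P002Punct.Moves

/-!
Dominance: the characteristic polynomial of a Hessenberg matrix times a member of a nonscalar class
conjugated by the Borel group fills an open set.
-/

namespace P002Punct

open Matrix Filter Topology P002Surf Polynomial

open scoped Matrix.Norms.Operator

variable {n : ℕ}

/-- The Hessenberg matrix times the inverse of the conjugated class. -/
def domM (H J h : Mat n) : Mat n := H * bd J.adjugate h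

/-- Values of the characteristic polynomial. -/
noncomputable def chv (x : Fin (n - 1) → ℂ) (M : Mat n) : Fin (n - 1) → ℂ :=
  fun i => (x i • (1 : Mat n) - M).det

theorem eval_charpoly_smul (M : Mat n) (x : ℂ) : M.charpoly.eval x = (x • (1 : Mat n) - M).det := by
  rw [Matrix.eval_charpoly, Matrix.scalar_apply, smul_one_eq_diagonal]

/-- The values, with the determinant, determine the characteristic polynomial. -/
theorem charpoly_eq_of_vals (hn : 0 < n) {A B : Mat n} (hd : A.det = B.det) {x : Fin (n - 1) → ℂ}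
    (hx : Function.Injective x) (hx0 : ∀ i, x i ≠ 0) (h : chv x A = chv x B) :
    A.charpoly = B.charpoly := by
  classical
  rw [← sub_eq_zero]
  set p := A.charpoly - B.charpoly with hp
  by_contra hp0
  have hdeg : p.natDegree < n := by
    have h1 : p.degree < A.charpoly.degree := Polynomial.degree_sub_lt_left
      (by rw [Matrix.charpoly_degree_eq_dim, Matrix.charpoly_degree_eq_dim])
      (Matrix.charpoly_monic A).ne_zero
      (by rw [(Matrix.charpoly_monic A).leadingCoeff, (Matrix.charpoly_monic B).leadingCoeff])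
    rw [Matrix.charpoly_degree_eq_dim, Fintype.card_fin] at h1
    exact (Polynomial.natDegree_lt_iff_degree_lt hp0).2 h1
  refine hp0 (Polynomial.eq_zero_of_natDegree_lt_card_of_eval_eq_zero' p
    (insert 0 (Finset.univ.image x)) (fun z hz => ?_) ?_)
  · rcases Finset.mem_insert.1 hz with rfl | hz
    · simp [hp, eval_charpoly_smul, Matrix.det_neg, hd]
    · obtain ⟨i, -, rfl⟩ := Finset.mem_image.1 hz
      simpa [hp, eval_charpoly_smul, sub_eq_zero, chv] using congrFun h i
  · rw [Finset.card_insert_of_notMem (by simpa using fun i => hx0 i),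
      Finset.card_image_of_injective _ hx, Finset.card_univ, Fintype.card_fin]
    omega

/-- The derivative of the determinant at an invertible matrix. -/
theorem hasDerivAt_det_gen {A : Mat n} (hA : A.det ≠ 0) {γ : ℂ → Mat n} {X : Mat n}
    (hγ : HasDerivAt γ X 0) (h0 : γ 0 = A) :
    HasDerivAt (fun t => (γ t).det) (A.adjugate * X).trace 0 := by
  have hdiff := ((contDiff_det (n := n)).differentiable one_ne_zero A).hasFDerivAt
  have hl : HasDerivAt (fun t : ℂ => (A + t • X).det) (A.adjugate * X).trace 0 := by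
    have hu := isUnit_det_of_ne hA
    have h1 := (hasDerivAt_det_line' (A⁻¹ * X)).const_mul A.det
    refine (h1.congr_deriv ?_).congr_of_eventuallyEq (Eventually.of_forall fun t => ?_)
    · rw [show A.adjugate = A.det • A⁻¹ by
        rw [Matrix.inv_def, Ring.inverse_eq_inv', smul_smul, mul_inv_cancel₀ hA, one_smul],
        Matrix.smul_mul, Matrix.trace_smul, smul_eq_mul]
    · show (A + t • X).det = A.det * ((1 : Mat n) + t • (A⁻¹ * X)).det
      rw [← Matrix.det_mul, Matrix.mul_add, Matrix.mul_one, Matrix.mul_smul,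
        Matrix.mul_nonsing_inv_cancel_left _ _ hu]
  have hlineD : HasDerivAt (fun t : ℂ => A + t • X) X 0 :=
    HasDerivAt.const_add _ (by simpa using (hasDerivAt_id (0 : ℂ)).smul_const X)
  have h2 := HasFDerivAt.comp_hasDerivAt_of_eq (0 : ℂ) hdiff hlineD (by simp)
  rw [hl.unique h2]
  exact HasFDerivAt.comp_hasDerivAt_of_eq (0 : ℂ) hdiff hγ h0.symm
where
  hasDerivAt_det_line' {n : ℕ} (Y : Mat n) :
      HasDerivAt (fun t : ℂ => ((1 : Mat n) + t • Y).det) Y.trace 0 := by
    have h := ((contDiff_det (n := n)).differentiable one_ne_zero (1 : Mat n)).hasFDerivAt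
    have hl : HasDerivAt (fun t : ℂ => (1 : Mat n) + t • Y) Y 0 :=
      HasDerivAt.const_add _ (by simpa using (hasDerivAt_id (0 : ℂ)).smul_const Y)
    have := HasFDerivAt.comp_hasDerivAt_of_eq (0 : ℂ) h hl (by simp)
    refine this.congr_deriv ((fderiv_det_apply (det_one (n := Fin n)) Y).trans ?_)
    rw [Matrix.adjugate_one, Matrix.one_mul]

/-- The upper part of a matrix. -/
def upPart : Mat n →ₗ[ℂ] Mat n where
  toFun Y := Matrix.of fun i j => if i ≤ j then Y i j else 0
  map_add' X Y := by
    ext i j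
    by_cases h : i ≤ j <;> simp [h]
  map_smul' c Y := by
    ext i j
    by_cases h : i ≤ j <;> simp [h]

theorem up_upPart (Y : Mat n) : Up (upPart Y) := fun i j h => by
  simp [upPart, not_le.2 (show j < i from h)]

theorem up_zN {Q : Mat n} (hQ : Up Q) : Up (zN Q) := by
  intro i j h
  have hp : ∀ k : ℕ, Up (Q ^ k) := fun k => by
    induction k with
    | zero => rw [pow_zero]; exact blockTriangular_one
    | succ k ih => rw [pow_succ]; exact ih.mul hQ
  rw [zN, Matrix.smul_apply, hp n h, smul_zero]

theorem up_adj {U : Mat n} (hU : Up U) (hd : U.det = 1) :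
    Up U.adjugate ∧ ∀ i, U.adjugate i i = (U i i)⁻¹ := by
  have h := tri_inv Function.injective_id hU (by rw [hd]; exact one_ne_zero)
  rwa [inv_eq_adj hd] at h

theorem diag_ne_of_up {U : Mat n} (hU : Up U) (hd : U.det = 1) (i : Fin n) : U i i ≠ 0 := fun h =>
  zero_ne_one ((Finset.prod_eq_zero (f := fun i => U i i) (Finset.mem_univ i) h).symm.trans
    ((det_of_isUpperTriangular hU).symm.trans hd))

theorem up_bd {J h : Mat n} (hJ : Up J) (hh : Up h) (hd : h.det = 1) :
    Up (bd J h) ∧ ∀ i, bd J h i i = J i i := by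
  obtain ⟨h1, h2⟩ := up_adj hh hd
  refine ⟨(hh.mul hJ).mul h1, fun i => ?_⟩
  rw [bd, tri_mul_diag Function.injective_id (hh.mul hJ) h1, tri_mul_diag Function.injective_id hh hJ,
    h2, mul_comm, ← mul_assoc, inv_mul_cancel₀ (diag_ne_of_up hh hd i), one_mul]

theorem adj_bd {J h : Mat n} (hh : h.det = 1) : (bd J h).adjugate = bd J.adjugate h := by
  rw [bd, bd, Matrix.adjugate_mul_distrib, Matrix.adjugate_mul_distrib, adj_adj_one hh,
    Matrix.mul_assoc]

variable {H J : Mat n}

theorem hess_domM (hH : Hess H) (hJ : Up J) (hJd : J.det = 1) {h : Mat n} (hh : Up h)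
    (hd : h.det = 1) : Hess (domM H J h) ∧
      ∀ i j : Fin n, (i : ℕ) = j + 1 → domM H J h i j = H i j * (J j j)⁻¹ := by
  obtain ⟨h1, h2⟩ := up_bd (up_adj hJ hJd).1 hh hd
  obtain ⟨h3, h4⟩ := hess_mul_up hH h1 fun i => by
    rw [h2, (up_adj hJ hJd).2]; exact inv_ne_zero (diag_ne_of_up hJ hJd i)
  exact ⟨h3, fun i j hij => by rw [domM, h4 i j hij, h2, (up_adj hJ hJd).2]⟩

theorem det_domM (hJd : J.det = 1) {h : Mat n} (hd : h.det = 1) : (domM H J h).det = H.det := by
  rw [domM, Matrix.det_mul, det_bd (det_adj_one hJd) hd, mul_one]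

theorem exists_splits (hn : 0 < n) (hH : Hess H) (hJ : Up J) (hJd : J.det = 1) (hsp : Special J) :
    ∃ h0 : Mat n, Up h0 ∧ h0.det = 1 ∧ Splits (bd J h0) (domM H J h0) := by
  classical
  rcases hsp with ⟨m, a, hm, hma⟩ | ⟨a, ha, o, e, ho, he, hne⟩
  · exact ⟨1, blockTriangular_one, det_one, Or.inl ⟨m, a, hm, fun i => by simpa [bd] using hma i⟩⟩
  set M0 := domM H J 1
  have hM0 := (hess_domM hH hJ hJd blockTriangular_one det_one).1
  let bad : Finset ℂ := insert 0 (Finset.univ.image fun p : Fin n × Fin n =>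
    J p.1 p.2 * (M0 ^ (p.1 : ℕ)) p.2 e / ((M0 ^ (p.1 : ℕ)) p.1 o * J o e))
  obtain ⟨lam, hlam⟩ := Infinite.exists_notMem_finset bad
  have hl0 : lam ≠ 0 := fun h => hlam (by simp [bad, h])
  obtain ⟨c, hc⟩ := IsAlgClosed.exists_pow_nat_eq lam⁻¹ hn
  have hc0 : c ≠ 0 := fun h => by
    rw [h, zero_pow hn.ne', eq_comm, inv_eq_zero] at hc
    exact hl0 hc
  let w : Fin n → ℂ := fun i => if i = o then c * lam else c
  have hw0 : ∀ i, w i ≠ 0 := fun i => by
    by_cases h : i = o <;> simp [w, h, hc0, hl0]
  have hwd : (diagonal w).det = 1 := by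
    rw [det_diagonal, ← Finset.mul_prod_erase _ _ (Finset.mem_univ o)]
    have e1 : ∀ i ∈ (Finset.univ : Finset (Fin n)).erase o, w i = c := fun i hi => by
      simp [w, Finset.ne_of_mem_erase hi]
    rw [Finset.prod_congr rfl e1, Finset.prod_const, Finset.card_erase_of_mem (Finset.mem_univ o),
      Finset.card_univ, Fintype.card_fin]
    simp only [w, if_true]
    rw [mul_right_comm, ← pow_succ', Nat.sub_add_cancel hn, hc, inv_mul_cancel₀ hl0]
  have hup : Up (diagonal w) := blockTriangular_diagonal _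
  have hent : ∀ i j, bd J (diagonal w) i j = w i * J i j * (w j)⁻¹ := fun i j => by
    rw [bd, ← inv_eq_adj hwd, show (diagonal w)⁻¹ = diagonal fun i => (w i)⁻¹ from
      Matrix.inv_eq_right_inv (by
        rw [diagonal_mul_diagonal, ← diagonal_one]
        exact congrArg diagonal (funext fun i => mul_inv_cancel₀ (hw0 i))),
      Matrix.mul_diagonal, Matrix.diagonal_mul]
  refine ⟨diagonal w, hup, hwd, Or.inr ⟨a, fun i => by rw [(up_bd hJ hup hwd).2, ha], o, e, ho, he,
    ?_, fun k k' hk hk' => ?_⟩⟩
  · rw [hent]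
    exact mul_ne_zero (mul_ne_zero (hw0 o) hne) (inv_ne_zero (hw0 e))
  · obtain ⟨hM, hMs⟩ := hess_domM hH hJ hJd hup hwd
    have hco := hess_pow_congr hM hM0 fun i j hij => by
      rw [hMs i j hij, (hess_domM hH hJ hJd blockTriangular_one det_one).2 i j hij]
    have hne_o : ∀ i : Fin n, (i : ℕ) ≠ 0 → w i = c := fun i hi => by
      simp only [w]
      rw [if_neg fun h => hi (by rw [h, ho])]
    have hwo : w o = c * lam := if_pos rfl
    rw [hent, hent, hco (k : ℕ) k' e (by omega), hco (k : ℕ) k o (by omega), hne_o k (by omega),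
      hne_o k' (by omega), hne_o e (by omega), hwo]
    intro heq
    refine hlam (Finset.mem_insert_of_mem (Finset.mem_image.2 ⟨(k, k'), Finset.mem_univ _, ?_⟩))
    have hp : (M0 ^ (k : ℕ)) k o ≠ 0 := hess_pow_ne hM0 _ _ _ (by omega)
    field_simp at heq ⊢
    linear_combination heq

/-- Dominance: near one conjugator the values of the characteristic polynomial fill an open set. -/
theorem dom_open (hn : 2 ≤ n) (hH : Hess H) (hJ : Up J) (hJd : J.det = 1)
    (hsp : Special J) :
    ∃ (x : Fin (n - 1) → ℂ) (h0 : Mat n), Up h0 ∧ h0.det = 1 ∧ Function.Injective x ∧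
      (∀ i, x i ≠ 0) ∧ ∀ᶠ v in 𝓝 (chv x (domM H J h0)),
        ∃ h, Up h ∧ h.det = 1 ∧ chv x (domM H J h) = v := by
  classical
  obtain ⟨h0, hu0, hd0, hspl⟩ := exists_splits (by omega) hH hJ hJd hsp
  set M := domM H J h0 with hM
  have hMh : Hess M := (hess_domM hH hJ hJd hu0 hd0).1
  obtain ⟨x, hxinj, hx0, hxd⟩ : ∃ x : Fin (n - 1) → ℂ, Function.Injective x ∧ (∀ i, x i ≠ 0) ∧
      ∀ i, (x i • (1 : Mat n) - M).det ≠ 0 := by
    have hfin : (insert (0 : ℂ) {z | M.charpoly.IsRoot z}).Finite :=
      (Polynomial.finite_setOfPred_isRoot (Matrix.charpoly_monic M).ne_zero).insert 0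
    let f := hfin.infinite_compl.natEmbedding
    refine ⟨fun i => (f i : ℂ), fun i j h => Fin.ext (f.injective (Subtype.ext h)),
      fun i h => (f i).2 (Or.inl h), fun i h => (f i).2 (Or.inr ?_)⟩
    show M.charpoly.eval _ = 0
    rw [eval_charpoly_smul]
    exact h
  refine ⟨x, h0, hu0, hd0, hxinj, hx0, ?_⟩
  let Φ : Mat n → Fin (n - 1) → ℂ := fun Y => chv x (domM H J (zN (1 + upPart Y) * h0))
  set c' := bd J.adjugate h0 with hc'
  have hbd : ∀ z : Mat n, bd J.adjugate (z * h0) = z * c' * z.adjugate := fun z => by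
    simp only [bd, hc', Matrix.adjugate_mul_distrib, Matrix.mul_assoc]
  have hΦ : ContDiffAt ℂ 1 Φ 0 := by
    let upL : Mat n →L[ℂ] Mat n := LinearMap.toContinuousLinearMap upPart
    have hz : ContDiffAt ℂ 1 (fun Y : Mat n => zN (1 + upPart Y)) 0 :=
      ContDiffAt.comp (g := zN) (0 : Mat n) (contDiffAt_zN (by simp))
        (contDiff_const.add upL.contDiff).contDiffAt
    refine contDiffAt_pi.2 fun i => ?_
    show ContDiffAt ℂ 1 (fun Y => (x i • (1 : Mat n) - domM H J (zN (1 + upPart Y) * h0)).det) 0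
    simp only [domM, hbd]
    exact ContDiffAt.comp (g := Matrix.det) (0 : Mat n) contDiff_det.contDiffAt
      (contDiffAt_const.sub (contDiffAt_const.mul
        ((hz.mul contDiffAt_const).mul (ContDiffAt.comp (g := Matrix.adjugate) (0 : Mat n)
          contDiff_adjugate.contDiffAt hz))))
  have hΦ0 : Φ 0 = chv x M := by simp [Φ, zN_one, hM]
  set L := fderiv ℂ Φ 0 with hL
  have hLs : HasStrictFDerivAt Φ L 0 := hΦ.hasStrictFDerivAt one_ne_zero
  have hder : ∀ (Y : Mat n) (i : Fin (n - 1)), L Y i = ((x i • (1 : Mat n) - M).adjugate *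
      -(H * ((n : ℂ) • (upPart Y * c' - c' * upPart Y)))).trace := by
    intro Y i
    have h1 : HasDerivAt (fun t : ℂ => Φ (t • Y)) (L Y) 0 :=
      HasFDerivAt.comp_hasDerivAt_of_eq (0 : ℂ) hLs.hasFDerivAt
        (by simpa using (hasDerivAt_id (0 : ℂ)).smul_const Y) (zero_smul ℂ Y).symm
    have h2 := hasDerivAt_pi.1 h1 i
    set U := upPart Y
    have hc : HasDerivAt
        (fun t : ℂ => x i • (1 : Mat n) - H * (zN (1 + t • U) * c' * (zN (1 + t • U)).adjugate))
        (-(H * ((n : ℂ) • (U * c' - c' * U)))) 0 := by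
      have hz := ((hasDerivAt_zN_line U).mul_const c').fun_mul (hasDerivAt_adj_zN_line U)
      refine ((hz.const_mul H).const_sub _).congr_deriv ?_
      congr 2
      simp only [zero_smul, add_zero, zN_one, Matrix.adjugate_one, Matrix.mul_one, Matrix.one_mul,
        Matrix.mul_neg, Matrix.mul_sub, Matrix.sub_mul, Matrix.smul_mul, Matrix.mul_smul, smul_sub]
      abel
    refine h2.unique ((hasDerivAt_det_gen (hxd i) hc ?_).congr_of_eventuallyEq
      (Eventually.of_forall fun t => ?_))
    · simp [zN_one, hM, domM, hc']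
    · show Φ (t • Y) i = _
      simp only [Φ, chv, domM, hbd, map_smul, U]
  have hsurj : L.range = ⊤ := by
    by_contra hne
    obtain ⟨f, hf0, hf⟩ := Submodule.exists_dual_map_eq_bot_of_lt_top (lt_top_iff_ne_top.2 hne)
      inferInstance
    let r : Fin (n - 1) → ℂ := fun i => f (Pi.single i 1)
    have hfr : ∀ w, f w = ∑ i, r i * w i := fun w => by
      conv_lhs => rw [← Finset.univ_sum_single w]
      rw [map_sum]
      refine Finset.sum_congr rfl fun i _ => ?_
      rw [show (Pi.single i (w i) : Fin (n - 1) → ℂ) = w i • Pi.single i 1 by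
        rw [← Pi.single_smul, smul_eq_mul, mul_one], map_smul, smul_eq_mul, mul_comm]
    have hkill : ∀ Y, ∑ i, r i * L Y i = 0 := fun Y => by
      rw [← hfr]
      have := Submodule.mem_map_of_mem (f := f) (LinearMap.mem_range_self L.toLinearMap Y)
      rwa [hf, Submodule.mem_bot] at this
    set Q0 := ∑ i, r i • (x i • (1 : Mat n) - M).adjugate with hQ0
    set T := bd J h0 with hT
    have hTd : T.det = 1 := det_bd hJd hd0
    have hTc : T * c' = 1 := by
      rw [hc', ← adj_bd hd0]
      exact mul_adj_one hTd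
    have hMc : M = H * c' := rfl
    have hadjc : ∀ i, M * (x i • (1 : Mat n) - M).adjugate =
        (x i • (1 : Mat n) - M).adjugate * M := fun i => by
      set A := x i • (1 : Mat n) - M
      have hu := isUnit_det_of_ne (hxd i)
      have e : A.adjugate = A.det • A⁻¹ := by
        rw [Matrix.inv_def, Ring.inverse_eq_inv', smul_smul, mul_inv_cancel₀ (hxd i), one_smul]
      have h1 : M * A = A * M := by
        simp only [A, Matrix.mul_sub, Matrix.sub_mul, Matrix.mul_smul, Matrix.smul_mul, Matrix.mul_one,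
          Matrix.one_mul]
      rw [e, Matrix.mul_smul, Matrix.smul_mul]
      congr 1
      calc M * A⁻¹ = A⁻¹ * (A * M) * A⁻¹ := by rw [Matrix.nonsing_inv_mul_cancel_left _ _ hu]
        _ = A⁻¹ * M := by
          rw [← h1, Matrix.mul_assoc, Matrix.mul_nonsing_inv_cancel_right _ _ hu]
    set Q := Q0 * M with hQ
    have hQ0c : M * Q0 = Q0 * M := by
      simp only [hQ0, Finset.mul_sum, Finset.sum_mul, Matrix.mul_smul, Matrix.smul_mul, hadjc]
    have hQc : M * Q = Q * M := by rw [hQ, ← Matrix.mul_assoc, hQ0c]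
    have hQ0H : Q0 * H = Q * T := by
      rw [hQ, hMc, Matrix.mul_assoc, Matrix.mul_assoc H, mul_eq_one_comm.1 hTc, Matrix.mul_one]
    set E := c' * (Q * T) - Q with hE
    have hpair : ∀ Y, (E * upPart Y).trace = 0 := by
      intro Y
      set U := upPart Y
      have h : (Q0 * -(H * ((n : ℂ) • (U * c' - c' * U)))).trace = 0 := by
        rw [← hkill Y, hQ0, Finset.sum_mul, Matrix.trace_sum]
        exact Finset.sum_congr rfl fun i _ => by
          rw [hder, Matrix.smul_mul, Matrix.trace_smul, smul_eq_mul]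
      rw [Matrix.mul_neg, Matrix.trace_neg, neg_eq_zero, Matrix.mul_smul, Matrix.mul_smul,
        Matrix.trace_smul, smul_eq_mul, mul_eq_zero,
        or_iff_right (Nat.cast_ne_zero.2 (by omega : n ≠ 0)), ← Matrix.mul_assoc, hQ0H] at h
      have e1 : (Q * T * (U * c')).trace = (c' * (Q * T) * U).trace := by
        rw [← Matrix.mul_assoc, Matrix.trace_mul_comm, ← Matrix.mul_assoc]
      have e2 : Q * T * (c' * U) = Q * U := by
        rw [Matrix.mul_assoc, ← Matrix.mul_assoc T, hTc, Matrix.one_mul]
      rw [Matrix.mul_sub, Matrix.trace_sub, e1, e2, ← Matrix.trace_sub, ← Matrix.sub_mul] at h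
      exact h
    have hEz : ∀ p i : Fin n, i ≤ p → E p i = 0 := fun p i hip => by
      have h := hpair (Matrix.single i p (1 : ℂ))
      have e : upPart (Matrix.single i p (1 : ℂ)) = Matrix.single i p (1 : ℂ) := by
        ext a b
        show (if a ≤ b then Matrix.single i p (1 : ℂ) a b else 0) = Matrix.single i p (1 : ℂ) a b
        by_cases hab : a ≤ b
        · rw [if_pos hab]
        · rw [if_neg hab, Matrix.single_apply, if_neg fun h' : i = a ∧ p = b => hab (h'.1 ▸ h'.2 ▸ hip)]
      rwa [e, Matrix.trace_mul_single, op_smul_eq_smul, smul_eq_mul, one_mul] at h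
    have hTup : Up T := (up_bd hJ hu0 hd0).1
    obtain ⟨c, hc⟩ := scalar_of_splits (by omega) hMh hTup hspl hQc fun p i hip => by
      have e : T * Q - Q * T = -(T * E) := by
        rw [hE, Matrix.mul_sub, ← Matrix.mul_assoc T c' (Q * T), hTc, Matrix.one_mul, neg_sub]
      rw [e, Matrix.neg_apply, neg_eq_zero, Matrix.mul_apply]
      refine Finset.sum_eq_zero fun l _ => ?_
      rcases lt_or_ge l p with hl | hl
      · rw [up_zero hTup hl, zero_mul]
      · rw [hEz l i (hip.trans hl), mul_zero]
    -- independence of the powers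
    let P : Fin (n - 1) → ℂ[X] := fun j => C (x j) - X
    let p : ℂ[X] := (∑ i, C (r i * (x i • (1 : Mat n) - M).det) *
      (X * ∏ j ∈ Finset.univ.erase i, P j)) - C c * ∏ j, P j
    have hPa : ∀ j, Polynomial.aeval M (P j) = x j • (1 : Mat n) - M := fun j => by
      rw [map_sub, aeval_C, aeval_X, Algebra.algebraMap_eq_smul_one]
    have hpa : Polynomial.aeval M p = 0 := by
      have h0 : (Q - c • (1 : Mat n)) * Polynomial.aeval M (∏ j, P j) = 0 := by
        rw [hc, sub_self, Matrix.zero_mul]
      rw [← h0, Matrix.sub_mul, Matrix.smul_mul, Matrix.one_mul, map_sub, map_mul, aeval_C,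
        ← Algebra.smul_def, map_sum, hQ, hQ0, Finset.sum_mul, Finset.sum_mul]
      congr 1
      refine Finset.sum_congr rfl fun i _ => ?_
      rw [map_mul (Polynomial.aeval (R := ℂ) M), aeval_C,
        map_mul (Polynomial.aeval (R := ℂ) M) X, aeval_X, ← Algebra.smul_def, ← Finset.mul_prod_erase _ P
        (Finset.mem_univ i), map_mul (Polynomial.aeval (R := ℂ) M), hPa, Matrix.smul_mul, Matrix.smul_mul, mul_smul]
      congr 1
      rw [← hadjc, Matrix.mul_assoc, ← Matrix.mul_assoc _ (x i • (1 : Mat n) - M),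
        Matrix.adjugate_mul, Matrix.smul_mul, Matrix.one_mul, Matrix.mul_smul]
    have hP1 : ∀ j, (P j).natDegree ≤ 1 := fun j =>
      (Polynomial.natDegree_sub_le _ _).trans (by simp)
    have hdeg : p.natDegree < n := by
      refine lt_of_le_of_lt (Polynomial.natDegree_sub_le_of_le (n := n - 1) ?_ ?_) (by
        rw [max_self]; omega)
      · refine Polynomial.natDegree_sum_le_of_forall_le _ _ fun i _ => ?_
        refine (Polynomial.natDegree_C_mul_le _ _).trans (Polynomial.natDegree_mul_le.trans ?_)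
        have := (Polynomial.natDegree_prod_le (Finset.univ.erase i) P).trans
          (Finset.sum_le_card_nsmul _ _ 1 fun j _ => hP1 j)
        rw [Finset.card_erase_of_mem (Finset.mem_univ i), Finset.card_univ, Fintype.card_fin,
          smul_eq_mul, mul_one] at this
        have := i.isLt
        rw [Polynomial.natDegree_X]
        omega
      · refine (Polynomial.natDegree_C_mul_le _ _).trans ?_
        have := (Polynomial.natDegree_prod_le Finset.univ P).trans
          (Finset.sum_le_card_nsmul _ _ 1 fun j _ => hP1 j)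
        rw [Finset.card_univ, Fintype.card_fin, smul_eq_mul, mul_one] at this
        exact this
    have hp0 := eq_zero_of_aeval (cyclic_of_hess (by omega) hMh) hdeg hpa
    refine hf0 (LinearMap.ext fun w => ?_)
    rw [hfr, LinearMap.zero_apply]
    refine Finset.sum_eq_zero fun i _ => ?_
    have he := congrArg (Polynomial.eval (x i)) hp0
    simp only [p, eval_sub, eval_finsetSum, eval_mul, eval_C, eval_X, eval_zero, eval_prod, P] at he
    rw [Finset.sum_eq_single i (fun j _ hj => by
        rw [Finset.prod_eq_zero (Finset.mem_erase.2 ⟨hj.symm, Finset.mem_univ i⟩) (sub_self (x i))]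
        simp) (by simp),
      Finset.prod_eq_zero (Finset.mem_univ i) (sub_self (x i)), mul_zero, sub_zero,
      mul_eq_zero, mul_eq_zero, mul_eq_zero, Finset.prod_eq_zero_iff] at he
    rcases he with (h | h) | h | ⟨j, hj, h⟩
    · rw [h, zero_mul]
    · exact absurd h (hxd i)
    · exact absurd h (hx0 i)
    · exact absurd (hxinj (sub_eq_zero.1 h)) (Finset.ne_of_mem_erase hj)
  have hmap := hLs.map_nhds_eq_of_surj hsurj
  rw [hΦ0] at hmap
  rw [← hmap, eventually_map]
  have hev : ∀ᶠ Y in 𝓝 (0 : Mat n), (1 + upPart Y).det ≠ 0 := by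
    refine ContinuousAt.eventually_ne ?_ (by simp)
    exact (continuous_const.add
      (LinearMap.continuous_of_finiteDimensional (upPart (n := n)))).matrix_det.continuousAt
  refine hev.mono fun Y hY => ⟨zN (1 + upPart Y) * h0,
    (up_zN (blockTriangular_one.add (up_upPart Y))).mul hu0, ?_, rfl⟩
  rw [Matrix.det_mul, det_zN hY, hd0, one_mul]

/-- The trace of a member of the family, and of its inverse, is not constant. -/
theorem dom_trace (hn : 2 ≤ n) (hH : Hess H) (hHd : H.det ≠ 0) (hJ : Up J) (hJd : J.det = 1)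
    (hsp : Special J) (c : ℂ) :
    (∃ h, Up h ∧ h.det = 1 ∧ (domM H J h).trace ≠ c) ∧
      ∃ h, Up h ∧ h.det = 1 ∧ (domM H J h).adjugate.trace ≠ c := by
  classical
  obtain ⟨x, h0, hu0, hd0, hx, hx0, hev⟩ := dom_open hn hH hJ hJd hsp
  set M := domM H J h0
  have key : ∀ k : ℕ, 1 ≤ k → k < n → ∃ᶠ t in 𝓝 (0 : ℂ), t ≠ 0 ∧ ∃ h, Up h ∧ h.det = 1 ∧
      (domM H J h).charpoly = M.charpoly + C t * X ^ k := by
    intro k hk hkn
    have hc : Tendsto (fun t : ℂ => fun i => chv x M i + t * x i ^ k) (𝓝 0) (𝓝 (chv x M)) :=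
      (continuous_pi fun i => continuous_const.add (continuous_id.mul continuous_const)).tendsto' _ _
        (by simp)
    have h2 : ∃ᶠ t in 𝓝 (0 : ℂ), t ≠ 0 := by
      refine frequently_iff.2 fun {U} hU => ?_
      obtain ⟨t, htU, ht⟩ := ((infinite_of_mem_nhds (0 : ℂ) hU).sdiff (Set.finite_singleton 0)).nonempty
      exact ⟨t, htU, ht⟩
    refine (h2.and_eventually (hc.eventually hev)).mono ?_
    rintro t ⟨ht, h, hu, hd, hv⟩
    refine ⟨ht, h, hu, hd, ?_⟩
    set p := (domM H J h).charpoly - (M.charpoly + C t * X ^ k) with hp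
    rw [← sub_eq_zero, ← hp]
    by_contra hp0
    have hdeg : p.natDegree < n := by
      have e : p = ((domM H J h).charpoly - M.charpoly) - C t * X ^ k := by rw [hp]; ring
      rw [e]
      refine lt_of_le_of_lt (Polynomial.natDegree_sub_le _ _) (max_lt ?_ ?_)
      · rcases eq_or_ne ((domM H J h).charpoly - M.charpoly) 0 with h0' | h0'
        · rw [h0', natDegree_zero]; omega
        refine (Polynomial.natDegree_lt_iff_degree_lt h0').2 ?_
        have h1 : ((domM H J h).charpoly - M.charpoly).degree < (domM H J h).charpoly.degree :=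
          Polynomial.degree_sub_lt_left
            (by rw [Matrix.charpoly_degree_eq_dim, Matrix.charpoly_degree_eq_dim])
            (Matrix.charpoly_monic _).ne_zero
            (by rw [(Matrix.charpoly_monic _).leadingCoeff, (Matrix.charpoly_monic M).leadingCoeff])
        rwa [Matrix.charpoly_degree_eq_dim, Fintype.card_fin] at h1
      · exact lt_of_le_of_lt (Polynomial.natDegree_C_mul_X_pow_le t k) hkn
    refine hp0 (Polynomial.eq_zero_of_natDegree_lt_card_of_eval_eq_zero' p
      (insert 0 (Finset.univ.image x)) (fun z hz => ?_) ?_)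
    · rcases Finset.mem_insert.1 hz with rfl | hz
      · simp [hp, eval_charpoly_smul, Matrix.det_neg, zero_pow (by omega : k ≠ 0), det_domM hJd hd,
          M, det_domM hJd hd0]
      · obtain ⟨i, -, rfl⟩ := Finset.mem_image.1 hz
        have hvi := congrFun hv i
        simp only [chv] at hvi
        simp [hp, eval_charpoly_smul, hvi]
    · rw [Finset.card_insert_of_notMem (by simpa using fun i => hx0 i),
        Finset.card_image_of_injective _ hx, Finset.card_univ, Fintype.card_fin]
      omega
  have : Nonempty (Fin n) := ⟨⟨0, by omega⟩⟩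
  constructor
  · by_contra hall
    push Not at hall
    obtain ⟨t, ht, h, hu, hd, he⟩ := (key (n - 1) (by omega) (by omega)).exists
    have e1 := hall h hu hd
    rw [Matrix.trace_eq_neg_charpoly_coeff (domM H J h), he, coeff_add, coeff_C_mul, coeff_X_pow,
      Fintype.card_fin, if_pos rfl, mul_one, neg_add, ← hall h0 hu0 hd0,
      Matrix.trace_eq_neg_charpoly_coeff M, Fintype.card_fin] at e1
    exact ht (neg_eq_zero.1 (add_left_cancel (e1.trans (add_zero _).symm)))
  · have hcoeff : ∀ A : Mat n, A.det = H.det →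
        A.charpoly.coeff 1 = (-A).adjugate.trace := fun A hA => by
      have h1 : HasDerivAt (fun t : ℂ => A.charpoly.eval t) (A.charpoly.coeff 1) 0 := by
        have := A.charpoly.hasDerivAt (0 : ℂ)
        rwa [← Polynomial.coeff_zero_eq_eval_zero, Polynomial.coeff_derivative, Nat.cast_zero,
          zero_add, zero_add, mul_one] at this
      have h2 : HasDerivAt (fun t : ℂ => -A + t • (1 : Mat n)) 1 0 :=
        HasDerivAt.const_add _ (by simpa using (hasDerivAt_id (0 : ℂ)).smul_const (1 : Mat n))
      have h3 := hasDerivAt_det_gen (A := -A)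
        (by rw [Matrix.det_neg, hA]; exact mul_ne_zero (pow_ne_zero _ (by norm_num)) hHd) h2 (by simp)
      rw [Matrix.mul_one] at h3
      refine h1.unique (h3.congr_of_eventuallyEq (Eventually.of_forall fun t => ?_))
      show A.charpoly.eval t = _
      rw [eval_charpoly_smul, sub_eq_add_neg, add_comm]
    have hneg : ∀ A : Mat n, (-A).adjugate.trace = (-1 : ℂ) ^ (n - 1) * A.adjugate.trace := fun A => by
      rw [show -A = (-1 : ℂ) • A by simp, Matrix.adjugate_smul, Matrix.trace_smul, Fintype.card_fin,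
        smul_eq_mul]
    by_contra hall
    push Not at hall
    obtain ⟨t, ht, h, hu, hd, he⟩ := (key 1 le_rfl (by omega)).exists
    have e1 := congrArg (fun q : ℂ[X] => q.coeff 1) he
    simp only [coeff_add, coeff_C_mul, coeff_X_pow, if_true, mul_one] at e1
    rw [hcoeff _ (det_domM hJd hd), hcoeff M (det_domM hJd hd0), hneg, hneg, hall h hu hd,
      hall h0 hu0 hd0] at e1
    exact ht (add_left_cancel ((add_zero _).trans e1)).symm

end P002Punct
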