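import Vale.Agent.P002Punct.One.Span
import Vale.Agent.P002Surf.Param

/-!
Genus one: at a point of the closure whose pair is generic, the twists fill the fibre of the
commutator, so every pair in general position with the same commutator gives a point of the closure.
-/

namespace P002Punct

open Matrix Filter Topology P002Surf

open scoped Matrix.Norms.Operator

variable {s n : ℕ} {R : Subring ℂ} {J : Fin s → Mat n}

/-- Near a point of the closure with generic pair, the representations with the same conjugators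
are in the closure. -/
theorem nhds_fibre (hn : 0 < n) (hJd : ∀ k, (J k).det = 1) {x : St 1 s n} (hr : PRep J x)
    (hH : Hy1 (x.1 0)) (hz : Zd R J x) :
    ∀ᶠ y in 𝓝 x, PRep J y → y.2 = x.2 → Zd R J y := by
  set X : Set (St 1 s n) := {y | PRep J y ∧ y.2 = x.2}
  have hX : ∀ side, Inv R J X (twistMove 0 side R J) := fun side y z hy hd hc =>
    ⟨(twistMove 0 side R J).rep y z hy.1 hd hc, hy.2⟩
  have hN : ContDiff ℂ 1 fun y : St 1 s n => (relFun J y, y.2) :=
    (contDiff_relFun J).prodMk contDiff_snd
  have hd : ∀ u, fderiv ℂ (fun y : St 1 s n => (relFun J y, y.2)) x u =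
      (fderiv ℂ (relFun J) x u, u.2) := by
    intro u
    have h1 : HasFDerivAt (fun y : St 1 s n => (relFun J y, y.2))
        ((fderiv ℂ (relFun J) x).prod
          (ContinuousLinearMap.snd ℂ (Fin 1 → Pair n) (Fin s → Mat n))) x :=
      ((contDiff_relFun J).differentiable one_ne_zero x).hasFDerivAt.prodMk hasFDerivAt_snd
    exact congrArg (fun T => T u) h1.fderiv
  have h := nhds_of_span (R := R) (J := J) (X := X) hN.contDiffAt
    (fun y hy => Prod.ext ((prep_iff_relFun.1 hy.1).trans (prep_iff_relFun.1 hr).symm) hy.2)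
    (x0 := x) ⟨hr, rfl⟩ hr hz fun u hu => ?_
  · exact h.mono fun y hy hp h2 =>
      hy (Prod.ext ((prep_iff_relFun.1 hp).trans (prep_iff_relFun.1 hr).symm) h2)
  replace hu := (hd u).symm.trans hu
  rw [Prod.mk_eq_zero] at hu
  obtain ⟨hu1, hu2⟩ := hu
  obtain ⟨hp, -, hprod⟩ := tangent_parts hn hJd hr hu1
  have hD : (fderiv ℂ coords x u).1 0 = 0 := by
    have h1 := hprod hu2
    simp only [List.ofFn_succ, List.ofFn_zero, List.prod_cons, List.prod_nil, Matrix.mul_one] at h1
    exact (hasDerivAt_line (cm (x.1 0)) _).unique h1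
  have hsum : u = emb 0 (u.1 0) := by
    refine Prod.ext (funext fun i => ?_) (by simp [emb, hu2])
    rw [Subsingleton.elim i 0]
    simp [emb]
  rw [hsum]
  obtain ⟨hsl, -, hG, -, hIA, hIB, -⟩ := hH
  obtain ⟨t1, t2, -, he⟩ := hp 0
  exact mem_span_handle_in hX hsl hG hIA hIB (he hD) t1 t2

/-- Every representation with the same conjugators and a pair in general position is in the
closure. -/
theorem zd_of_fibre (hn : 0 < n) (hJd : ∀ k, (J k).det = 1) {x : St 1 s n} (hr : PRep J x)
    (hH : Hy1 (x.1 0)) (hz : Zd R J x) {p : Pair n} (hp : SL1 p) (hg : Good p)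
    (hc : cm p = cm (x.1 0)) :
    Zd R J ((fun _ => p, x.2) : St 1 s n) := by
  obtain ⟨gam, g0, g1, hA, hB, hcont, hev⟩ := fibre_curve (x.1 0) p hH.1 hp hH.2.1 hg hc.symm
  let F : ℂ → St 1 s n := fun t => (fun _ => gam t, x.2)
  have hF0 : F 0 = x := Prod.ext (funext fun i => by rw [Subsingleton.elim i 0]; exact g0) rfl
  have hFc : ContinuousAt F 0 := (continuousAt_pi.2 fun _ => hcont).prodMk continuousAt_const
  intro P hP
  have hrat : RatOn fun t => MvPolynomial.eval (sev (F t)) P := by
    simp only [MvPolynomial.eval_eq]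
    refine ratOn_sum _ fun m _ => (ratOn_const _).mul (ratOn_prod _ fun v _ => RatOn.pow ?_ _)
    rcases v with ⟨i, b, r, c⟩ | ⟨j, r, c⟩
    · cases b
      · exact hA r c
      · exact hB r c
    · exact ratOn_const _
  obtain ⟨a, q, hq0, hq1, e⟩ := hrat
  dsimp only at e
  have ha : a = 0 := by
    refine Polynomial.eq_zero_of_infinite_isRoot a ?_
    have hroot : ∀ᶠ t in 𝓝 (0 : ℂ), a.IsRoot t := by
      have ht : Tendsto F (𝓝 0) (𝓝 x) := hF0 ▸ hFc.tendsto
      filter_upwards [hev, ht.eventually (nhds_fibre hn hJd hr hH hz),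
        q.continuousAt.eventually_ne hq0] with t h1 h2 h3
      have hrep : PRep J (F t) := by
        refine ⟨fun _ => h1.1, hr.2.1, ?_⟩
        have he : hprod (F t) = hprod x := by
          simp only [hprod, List.ofFn_succ, List.ofFn_zero, List.prod_cons, List.prod_nil,
            Matrix.mul_one]
          exact h1.2
        rw [he]
        exact hr.2.2
      have h0 := h2 hrep rfl P hP
      rw [e t h3, div_eq_zero_iff] at h0
      exact h0.resolve_right h3
    exact infinite_of_mem_nhds 0 hroot
  have h1 := e 1 hq1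
  rw [ha, Polynomial.eval_zero, zero_div] at h1
  have hF1 : F 1 = ((fun _ => p, x.2) : St 1 s n) := Prod.ext (funext fun _ => g1) rfl
  rwa [hF1] at h1

end P002Punct
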