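import Vale.Agent.P002Punct.One.Regular
import Vale.Agent.P002Punct.One.Defs
import Vale.Agent.P002Punct.Fam

/-!
Upper Hessenberg matrices: powers, regularity, the gauge, and the commutant condition behind the
dominance of the characteristic polynomial.
-/

namespace P002Punct

open Matrix P002Surf

variable {n : ℕ}

/-- Zero below the first subdiagonal, nowhere zero on it. -/
structure Hess (M : Mat n) : Prop where
  zero : ∀ i j : Fin n, (j : ℕ) + 1 < i → M i j = 0
  ne : ∀ i j : Fin n, (i : ℕ) = j + 1 → M i j ≠ 0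

theorem hess_mul_up {H U : Mat n} (hH : Hess H) (hU : Up U) (hU0 : ∀ i, U i i ≠ 0) :
    Hess (H * U) ∧ ∀ i j : Fin n, (i : ℕ) = j + 1 → (H * U) i j = H i j * U j j := by
  have hz : ∀ i j : Fin n, (j : ℕ) + 1 < i → (H * U) i j = 0 := fun i j hij => by
    rw [Matrix.mul_apply]
    refine Finset.sum_eq_zero fun l _ => ?_
    rcases lt_or_ge j l with h | h
    · rw [up_zero hU h, mul_zero]
    · rw [hH.zero i l (by have : (l : ℕ) ≤ j := h; omega), zero_mul]
  have he : ∀ i j : Fin n, (i : ℕ) = j + 1 → (H * U) i j = H i j * U j j := fun i j hij => by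
    rw [Matrix.mul_apply, Finset.sum_eq_single j (fun l _ hl => ?_) (by simp)]
    rcases lt_or_gt_of_ne hl with h | h
    · rw [hH.zero i l (by have : (l : ℕ) < j := h; omega), zero_mul]
    · rw [up_zero hU h, mul_zero]
  exact ⟨⟨hz, fun i j hij => by rw [he i j hij]; exact mul_ne_zero (hH.ne i j hij) (hU0 j)⟩, he⟩

theorem up_mul_hess {U H : Mat n} (hU : Up U) (hH : Hess H) (hU0 : ∀ i, U i i ≠ 0) :
    Hess (U * H) ∧ ∀ i j : Fin n, (i : ℕ) = j + 1 → (U * H) i j = U i i * H i j := by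
  have hz : ∀ i j : Fin n, (j : ℕ) + 1 < i → (U * H) i j = 0 := fun i j hij => by
    rw [Matrix.mul_apply]
    refine Finset.sum_eq_zero fun l _ => ?_
    rcases lt_or_ge l i with h | h
    · rw [up_zero hU h, zero_mul]
    · rw [hH.zero l j (by have : (i : ℕ) ≤ l := h; omega), mul_zero]
  have he : ∀ i j : Fin n, (i : ℕ) = j + 1 → (U * H) i j = U i i * H i j := fun i j hij => by
    rw [Matrix.mul_apply, Finset.sum_eq_single i (fun l _ hl => ?_) (by simp)]
    rcases lt_or_gt_of_ne hl with h | h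
    · rw [up_zero hU h, zero_mul]
    · rw [hH.zero l j (by have : (i : ℕ) < l := h; omega), mul_zero]
  exact ⟨⟨hz, fun i j hij => by rw [he i j hij]; exact mul_ne_zero (hU0 i) (hH.ne i j hij)⟩, he⟩

theorem hess_of_bidiag {b : Mat n} (hb : Bidiag b) : Hess b :=
  ⟨fun i j h => hb.2.2 i j h, fun i j h => by rw [hb.2.1 i j h]; exact one_ne_zero⟩

theorem hess_pow_zero {M : Mat n} (hM : Hess M) :
    ∀ (k : ℕ) (i j : Fin n), (j : ℕ) + k < i → (M ^ k) i j = 0 := by
  intro k
  induction k with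
  | zero =>
    intro i j h
    rw [pow_zero, Matrix.one_apply_ne fun e => by subst e; omega]
  | succ k ih =>
    intro i j h
    rw [pow_succ', Matrix.mul_apply]
    refine Finset.sum_eq_zero fun l _ => ?_
    rcases lt_or_ge ((j : ℕ) + k) l with hl | hl
    · rw [ih l j hl, mul_zero]
    · rw [hM.zero i l (by omega), zero_mul]

theorem hess_pow_step {M : Mat n} (hM : Hess M) (k : ℕ) {i j l : Fin n}
    (hi : (i : ℕ) = j + (k + 1)) (hl : (l : ℕ) = j + k) :
    (M ^ (k + 1)) i j = M i l * (M ^ k) l j := by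
  rw [pow_succ', Matrix.mul_apply, Finset.sum_eq_single l (fun m _ hm => ?_) (by simp)]
  rcases lt_or_gt_of_ne hm with h | h
  · rw [hM.zero i m (by have : (m : ℕ) < l := h; omega), zero_mul]
  · rw [hess_pow_zero hM k m j (by have : (l : ℕ) < m := h; omega), mul_zero]

theorem hess_pow_ne {M : Mat n} (hM : Hess M) :
    ∀ (k : ℕ) (i j : Fin n), (i : ℕ) = j + k → (M ^ k) i j ≠ 0 := by
  intro k
  induction k with
  | zero =>
    intro i j h
    rw [pow_zero, show i = j from Fin.ext (by omega), Matrix.one_apply_eq]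
    exact one_ne_zero
  | succ k ih =>
    intro i j h
    rw [hess_pow_step hM k (l := ⟨(j : ℕ) + k, by have := i.isLt; omega⟩) h rfl]
    exact mul_ne_zero (hM.ne _ _ (by show (i : ℕ) = j + k + 1; omega)) (ih _ _ rfl)

theorem hess_pow_congr {M M' : Mat n} (hM : Hess M) (hM' : Hess M')
    (h : ∀ i j : Fin n, (i : ℕ) = j + 1 → M i j = M' i j) :
    ∀ (k : ℕ) (i j : Fin n), (i : ℕ) = j + k → (M ^ k) i j = (M' ^ k) i j := by
  intro k
  induction k with
  | zero => intro i j _; simp only [pow_zero]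
  | succ k ih =>
    intro i j hi
    let l : Fin n := ⟨(j : ℕ) + k, by have := i.isLt; omega⟩
    rw [hess_pow_step hM k (l := l) hi rfl, hess_pow_step hM' k (l := l) hi rfl, ih _ _ rfl,
      h _ _ (by show (i : ℕ) = j + k + 1; omega)]

/-- The Krylov matrix at the first basis vector. -/
def kry (M : Mat n) : Mat n := Matrix.of fun i k => (M ^ (k : ℕ)) i ⟨0, k.pos⟩

theorem kry_apply (M : Mat n) (i k o : Fin n) (ho : (o : ℕ) = 0) :
    kry M i k = (M ^ (k : ℕ)) i o := by
  rw [show o = ⟨0, k.pos⟩ from Fin.ext ho]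
  rfl

theorem up_kry {M : Mat n} (hM : Hess M) : Up (kry M) := fun i k h => by
  rw [kry_apply M i k ⟨0, k.pos⟩ rfl]
  exact hess_pow_zero hM _ _ _ (by show 0 + (k : ℕ) < i; have : (k : ℕ) < i := h; omega)

theorem det_kry_ne {M : Mat n} (hM : Hess M) : (kry M).det ≠ 0 := by
  rw [det_of_isUpperTriangular (up_kry hM), Finset.prod_ne_zero_iff]
  intro k _
  rw [kry_apply M k k ⟨0, k.pos⟩ rfl]
  exact hess_pow_ne hM _ _ _ (by show (k : ℕ) = 0 + k; omega)

theorem cyclic_of_hess (hn : 0 < n) {M : Mat n} (hM : Hess M) : Cyclic M := by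
  refine ⟨Pi.single ⟨0, hn⟩ 1, ?_⟩
  have h := Matrix.linearIndependent_cols_of_det_ne_zero (A := kry M) (det_kry_ne hM)
  have e : (fun k : Fin n => M ^ (k : ℕ) *ᵥ Pi.single (⟨0, hn⟩ : Fin n) (1 : ℂ)) = (kry M).col := by
    funext k i
    rw [Matrix.mulVec_single_one]
    rfl
  rw [e]
  exact h

/-- A polynomial of small degree killing a regular matrix is zero. -/
theorem eq_zero_of_aeval {M : Mat n} (hM : Cyclic M) {p : Polynomial ℂ} (hdeg : p.natDegree < n)
    (hp : Polynomial.aeval M p = 0) : p = 0 := by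
  obtain ⟨v, hv⟩ := hM
  have h : ∑ k : Fin n, p.coeff k • (M ^ (k : ℕ) *ᵥ v) = 0 := by
    rw [Polynomial.aeval_eq_sum_range' hdeg, ← Fin.sum_univ_eq_sum_range] at hp
    have := congrArg (fun A : Mat n => A *ᵥ v) hp
    simpa only [Matrix.sum_mulVec, Matrix.smul_mulVec, Matrix.zero_mulVec] using this
  have h0 := Fintype.linearIndependent_iff.1 hv _ h
  refine Polynomial.ext fun k => ?_
  rw [Polynomial.coeff_zero]
  rcases lt_or_ge k n with hk | hk
  · exact h0 ⟨k, hk⟩
  · exact Polynomial.coeff_eq_zero_of_natDegree_lt (hdeg.trans_le hk)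

/-- The hypothesis on an upper triangular matrix for the next lemma. -/
def Splits (T M : Mat n) : Prop :=
  (∃ (m : Fin n) (a : ℂ), 0 < (m : ℕ) ∧ ∀ i, (T i i = a ↔ i < m)) ∨
    ∃ a : ℂ, (∀ i, T i i = a) ∧ ∃ o e : Fin n, (o : ℕ) = 0 ∧ (e : ℕ) = 1 ∧ T o e ≠ 0 ∧
      ∀ k k' : Fin n, 2 ≤ (k : ℕ) → (k' : ℕ) = k + 1 →
        T k k' * (M ^ (k : ℕ)) k' e ≠ (M ^ (k : ℕ)) k o * T o e

/-- A member of the commutant of a Hessenberg matrix whose commutator with such a triangular
matrix is strictly upper triangular is scalar. -/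
theorem scalar_of_splits {T M Q : Mat n} (hn : 0 < n) (hM : Hess M) (hT : Up T) (hsp : Splits T M)
    (hQ : M * Q = Q * M) (hE : ∀ p i : Fin n, i ≤ p → (T * Q - Q * T) p i = 0) :
    ∃ c : ℂ, Q = c • (1 : Mat n) := by
  classical
  obtain ⟨v, hv⟩ := cyclic_of_hess hn hM
  obtain ⟨a, ha⟩ := Cyclic.eq_sum hv hQ
  let o : Fin n := ⟨0, hn⟩
  suffices hzero : ∀ k : Fin n, k ≠ o → a k = 0 by
    refine ⟨a o, ?_⟩
    rw [ha, Finset.sum_eq_single o (fun k _ hk => by rw [hzero k hk, zero_smul]) (by simp)]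
    simp [o]
  by_contra hne
  push Not at hne
  obtain ⟨k1, hk1, hk1'⟩ := hne
  obtain ⟨k, hkmem, hkmax⟩ := Finset.exists_max_image
    (Finset.univ.filter fun k : Fin n => a k ≠ 0) (fun k => (k : ℕ)) ⟨k1, by simp [hk1']⟩
  have hak : a k ≠ 0 := (Finset.mem_filter.1 hkmem).2
  have hk0 : 1 ≤ (k : ℕ) := by
    have h1 : (k1 : ℕ) ≤ k := hkmax k1 (by simp [hk1'])
    have h2 : (k1 : ℕ) ≠ 0 := fun e => hk1 (Fin.ext e)
    omega
  have hQz : ∀ p i : Fin n, (i : ℕ) + k < p → Q p i = 0 := fun p i h => by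
    rw [ha, Matrix.sum_apply]
    refine Finset.sum_eq_zero fun l _ => ?_
    by_cases hl : a l = 0
    · simp [hl]
    · rw [Matrix.smul_apply, hess_pow_zero hM _ p i
        (by have := hkmax l (by simp [hl]); omega), smul_zero]
  have hQk : ∀ p i : Fin n, (p : ℕ) = i + k → Q p i = a k * (M ^ (k : ℕ)) p i := fun p i h => by
    rw [ha, Matrix.sum_apply, Finset.sum_eq_single k ?_ (by simp), Matrix.smul_apply, smul_eq_mul]
    intro l _ hl
    by_cases hl0 : a l = 0
    · simp [hl0]
    · have h1 : (l : ℕ) < k := lt_of_le_of_ne (hkmax l (by simp [hl0])) fun e => hl (Fin.ext e)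
      rw [Matrix.smul_apply, hess_pow_zero hM _ p i (by omega), smul_zero]
  have hTQ : ∀ p i : Fin n, (p : ℕ) = i + k → (T * Q) p i = T p p * Q p i := fun p i h => by
    rw [Matrix.mul_apply, Finset.sum_eq_single p (fun l _ hl => ?_) (by simp)]
    rcases lt_or_gt_of_ne hl with h' | h'
    · rw [up_zero hT h', zero_mul]
    · rw [hQz l i (by have : (p : ℕ) < l := h'; omega), mul_zero]
  have hQT : ∀ p i : Fin n, (p : ℕ) = i + k → (Q * T) p i = Q p i * T i i := fun p i h => by
    rw [Matrix.mul_apply, Finset.sum_eq_single i (fun l _ hl => ?_) (by simp)]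
    rcases lt_or_gt_of_ne hl with h' | h'
    · rw [hQz p l (by have : (l : ℕ) < i := h'; omega), zero_mul]
    · rw [up_zero hT h', mul_zero]
  rcases hsp with ⟨m, x, hm, hx⟩ | ⟨x, hx, o', e, ho, he, hne0, hgen⟩
  · obtain ⟨p, i, hpi, hd⟩ : ∃ p i : Fin n, (p : ℕ) = i + k ∧ T p p ≠ T i i := by
      rcases le_or_gt (m : ℕ) k with hmk | hmk
      · refine ⟨k, o, by show (k : ℕ) = 0 + k; omega, ?_⟩
        rw [(hx o).2 hm]
        exact fun h => absurd ((hx k).1 h) (not_lt.2 hmk)
      · refine ⟨m, ⟨(m : ℕ) - k, by have := m.isLt; omega⟩,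
          by show (m : ℕ) = m - k + k; omega, ?_⟩
        rw [(hx ⟨(m : ℕ) - k, _⟩).2 (show (m : ℕ) - k < m by omega)]
        exact fun h => lt_irrefl m ((hx m).1 h)
    have h0 := hE p i (show (i : ℕ) ≤ p by omega)
    rw [Matrix.sub_apply, hTQ p i hpi, hQT p i hpi, mul_comm (Q p i), ← sub_mul, hQk p i hpi] at h0
    exact mul_ne_zero (sub_ne_zero.2 hd) (mul_ne_zero hak (hess_pow_ne hM _ _ _ hpi)) h0
  · obtain rfl : o' = o := Fin.ext ho
    have hTe : ∀ {p q : Fin n}, (q : ℕ) = p + 1 → ∀ i : Fin n, (q : ℕ) = i + k →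
        (T * Q) p i = x * Q p i + T p q * Q q i := fun {p q} hq i hi => by
      have hpq : p ≠ q := fun e => by rw [e] at hq; omega
      rw [Matrix.mul_apply, Finset.sum_eq_add_of_mem p q (Finset.mem_univ _) (Finset.mem_univ _) hpq
        fun l _ hl => ?_, hx]
      rcases lt_or_gt_of_ne hl.1 with h' | h'
      · rw [up_zero hT h', zero_mul]
      · have h1 : (p : ℕ) < l := h'
        have h2 : (l : ℕ) ≠ q := fun e => hl.2 (Fin.ext e)
        rw [hQz l i (by omega), mul_zero]
    rcases eq_or_ne (k : ℕ) 1 with hk | hk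
    · have h0 := hE o o le_rfl
      rw [Matrix.sub_apply, hTe (p := o) (q := e) (by omega) o (by omega), Matrix.mul_apply,
        Finset.sum_eq_single o (fun l _ hl => by
          rw [up_zero hT (show o < l from Nat.pos_of_ne_zero fun e' => hl (Fin.ext (by omega))),
            mul_zero]) (by simp), hx, mul_comm (Q o o), add_sub_cancel_left, hQk e o (by omega)] at h0
      exact mul_ne_zero hne0 (mul_ne_zero hak (hess_pow_ne hM _ _ _ (by omega))) h0
    · have h0 := hE k e (show (e : ℕ) ≤ k by omega)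
      have hQTe : (Q * T) k e = Q k e * x + Q k o * T o e := by
        have hoe : e ≠ o := fun e' => by rw [e'] at he; omega
        rw [Matrix.mul_apply, Finset.sum_eq_add_of_mem e o (Finset.mem_univ _) (Finset.mem_univ _) hoe
          fun l _ hl => ?_, hx]
        have h1 : (l : ℕ) ≠ e := fun e' => hl.1 (Fin.ext e')
        have h2 : (l : ℕ) ≠ o := fun e' => hl.2 (Fin.ext e')
        rw [up_zero hT (show e < l by show (e : ℕ) < l; omega), mul_zero]
      by_cases hlast : (k : ℕ) + 1 < n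
      · let q : Fin n := ⟨(k : ℕ) + 1, hlast⟩
        rw [Matrix.sub_apply, hTe (p := k) (q := q) rfl e (by show (k : ℕ) + 1 = e + k; omega), hQTe,
          mul_comm (Q k e), add_sub_add_left_eq_sub, hQk q e (by show (k : ℕ) + 1 = e + k; omega),
          hQk k o (by omega), mul_left_comm, mul_assoc, ← mul_sub] at h0
        exact mul_ne_zero hak (sub_ne_zero.2 (hgen k q (by omega) rfl)) h0
      · have hTl : (T * Q) k e = x * Q k e := by
          rw [Matrix.mul_apply, Finset.sum_eq_single k (fun l _ hl => ?_) (by simp), hx]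
          have h1 : (l : ℕ) ≠ k := fun e' => hl (Fin.ext e')
          have h2 := l.isLt
          rw [up_zero hT (show l < k by show (l : ℕ) < k; omega), zero_mul]
        rw [Matrix.sub_apply, hTl, hQTe, mul_comm (Q k e), sub_add_cancel_left, neg_eq_zero,
          hQk k o (by omega)] at h0
        exact mul_ne_zero (mul_ne_zero hak (hess_pow_ne hM _ _ _ (by omega))) hne0 h0

end P002Punct
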