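import Vale.Agent.P002Punct.One.SeedPoint
import Vale.Agent.P002Surf.Param

/-!
Genus one: in the fibre over a Hessenberg commutator every key becomes generic somewhere.  In the
gauge where the commutator is the bidiagonal matrix of ones times a unitriangular matrix the key is
a torus times a matrix which, along a geometric spectrum, tends to a lower times an upper matrix.
-/

namespace P002Punct

open Matrix Filter Topology P002Surf

open scoped Matrix.Norms.Operator

variable {n : ℕ}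

theorem lb_sub (j : Fin n) (h : (j : ℕ) + 1 < n) : lb n (nx j h) j = 1 :=
  bidiag_lb.2.1 _ _ rfl

theorem det_lb : (lb n).det = 1 := det_one_of_lo loU_lb.1 loU_lb.2

/-- The eigenbasis does not see scalars. -/
theorem wMat_smul {l : Mat n} (hl : LoU l) {w : Fin n → ℂ} (hw : Function.Injective w) {c : ℂ}
    (hc : c ≠ 0) : wMat l (fun i => c * w i) = wMat l w := by
  have hw' : Function.Injective fun i => c * w i := fun a b h => hw (mul_left_cancel₀ hc h)
  obtain ⟨h1, -, -, -, e1, -⟩ := wMat_spec hl hw'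
  obtain ⟨h2, h2d, -, -, e2, -⟩ := wMat_spec hl hw
  refine eig_unique (M := hA l fun i => c * w i) hw' (by rw [h2d]; exact one_ne_zero) e1 ?_ h1.2 h2.2
  have ed : diagonal (fun i => c * w i) = c • diagonal w := by rw [← diagonal_smul]; rfl
  rw [hA] at e2
  rw [hA, ed, Matrix.mul_smul, Matrix.smul_mul, e2, Matrix.mul_smul]

theorem diagonal_mul_dinv {d : Fin n → ℂ} (hd0 : ∀ i, d i ≠ 0) :
    diagonal d * diagonal (dinv d) = (1 : Mat n) ∧ diagonal (dinv d) * diagonal d = (1 : Mat n) := by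
  constructor <;> rw [diagonal_mul_diagonal, ← diagonal_one] <;> congr 1 <;> funext i
  exacts [mul_inv_cancel₀ (hd0 i), inv_mul_cancel₀ (hd0 i)]

/-- The eigenbasis of `L D` from that of `L⁻¹ D⁻¹`. -/
theorem wMat_flip {L : Mat n} {d : Fin n → ℂ} (hL : LoU L) (hd : Function.Injective d)
    (hd0 : ∀ i, d i ≠ 0) : wMat L d = L * wMat L⁻¹ (dinv d) := by
  obtain ⟨h1, -, -, -, e1, -⟩ := wMat_spec hL hd
  obtain ⟨h2, h2d, -, -, e2, -⟩ := wMat_spec (loU_inv hL) (dinv_injective hd)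
  set w := wMat L⁻¹ (dinv d)
  have hLd : L.det = 1 := det_one_of_lo hL.1 hL.2
  have hm := loU_mul hL h2
  refine eig_unique hd (by rw [det_one_of_lo hm.1 hm.2]; exact one_ne_zero) e1 ?_ h1.2 hm.2
  obtain ⟨hDD, hDD'⟩ := diagonal_mul_dinv hd0
  have e3 : diagonal (dinv d) * w = L * w * diagonal (dinv d) := by
    have := congrArg (L * ·) e2
    simp only [hA, Matrix.mul_assoc] at this
    rw [Matrix.mul_nonsing_inv_cancel_left _ _ (by rw [hLd]; exact isUnit_one)] at this
    rw [this, Matrix.mul_assoc]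
  calc L * diagonal d * (L * w)
      = L * (diagonal d * (L * w * diagonal (dinv d)) * diagonal d) := by
        simp only [Matrix.mul_assoc, hDD', Matrix.mul_one]
    _ = _ := by
        rw [← e3]
        simp only [Matrix.mul_assoc]
        rw [← Matrix.mul_assoc (diagonal d) (diagonal (dinv d)), hDD, Matrix.one_mul]

theorem loU_transpose {U : Mat n} (hU : UpU U) : LoU Uᵀ :=
  ⟨fun _ _ h => up_zero hU.1 (OrderDual.toDual_lt_toDual.1 h), fun i => hU.2 i⟩

theorem upU_transpose {L : Mat n} (hL : LoU L) : UpU Lᵀ :=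
  ⟨fun _ _ h => lo_zero hL.1 h, fun i => hL.2 i⟩

/-- The inverse of the upper eigenbasis is a transposed lower one. -/
theorem inv_eig_up {U : Mat n} {d : Fin n → ℂ} (hU : UpU U) (hd : Function.Injective d) :
    (eig (diagonal (dinv d) * U) (dinv d))⁻¹ = (wMat Uᵀ (dinv d))ᵀ := by
  obtain ⟨h1, h1d, -, -, e1, -⟩ := wMat_spec (loU_transpose hU) (dinv_injective hd)
  have hUW := upU_transpose h1
  have hdW : (wMat Uᵀ (dinv d))ᵀ.det = 1 := det_one_of_up hUW.1 hUW.2
  have hu : IsUnit (wMat Uᵀ (dinv d))ᵀ.det := by rw [hdW]; exact isUnit_one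
  have hinv := SeedData.upU_inv hUW
  have hup : Up (diagonal (dinv d) * U) := (blockTriangular_diagonal _).mul hU.1
  have hdiag : ∀ i, (diagonal (dinv d) * U) i i = dinv d i := fun i => by
    rw [Matrix.diagonal_mul, hU.2, mul_one]
  obtain ⟨-, h3, h4⟩ := eig_spec Function.injective_id hup hdiag (dinv_injective hd)
    (by rw [charpoly_of_isUpperTriangular _ hup]; simp only [hdiag])
  have et := congrArg Matrix.transpose e1
  simp only [hA, Matrix.transpose_mul, Matrix.transpose_transpose, Matrix.diagonal_transpose] at et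
  have e : eig (diagonal (dinv d) * U) (dinv d) = ((wMat Uᵀ (dinv d))ᵀ)⁻¹ := by
    refine eig_unique (dinv_injective hd)
      (by rw [det_one_of_up hinv.1 hinv.2]; exact one_ne_zero) h4 ?_ h3 hinv.2
    calc diagonal (dinv d) * U * ((wMat Uᵀ (dinv d))ᵀ)⁻¹
        = ((wMat Uᵀ (dinv d))ᵀ)⁻¹ * ((wMat Uᵀ (dinv d))ᵀ * (diagonal (dinv d) * U)) *
            ((wMat Uᵀ (dinv d))ᵀ)⁻¹ := by
          rw [Matrix.nonsing_inv_mul_cancel_left _ _ hu]
      _ = _ := by
          rw [et]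
          simp only [Matrix.mul_assoc, Matrix.mul_nonsing_inv _ hu, Matrix.mul_one]
  rw [e, Matrix.nonsing_inv_nonsing_inv _ hu]

/-- A gauge in which a Hessenberg matrix is the bidiagonal matrix of ones times a unitriangular
matrix. -/
theorem exists_gauge_hess {K : Mat n} (hK : Hess K) (hKd : K.det = 1) :
    ∃ G U₀ : Mat n, Up G ∧ G.det ≠ 0 ∧ UpU U₀ ∧ G * K * G⁻¹ = lb n * U₀ := by
  have hlbH : Hess (lb n) := hess_of_bidiag bidiag_lb
  have hg : (kry (lb n)).det ≠ 0 := det_kry_ne hlbH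
  have hk : (kry K).det ≠ 0 := det_kry_ne hK
  have hku := isUnit_det_of_ne hk
  have hgu := isUnit_det_of_ne hg
  have hlu : IsUnit (lb n).det := by rw [det_lb]; exact isUnit_one
  set G := kry (lb n) * (kry K)⁻¹ with hG
  set M := kry (lb n) * comp K.charpoly * (kry (lb n))⁻¹ with hM
  have hGd : G.det ≠ 0 := by
    rw [hG, Matrix.det_mul, Matrix.det_nonsing_inv, Ring.inverse_eq_inv']
    exact mul_ne_zero hg (inv_ne_zero hk)
  have hGM : G * K * G⁻¹ = M := by
    rw [hM, ← companion_eq hk, hG, Matrix.mul_inv_rev, Matrix.nonsing_inv_nonsing_inv _ hku]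
    simp only [Matrix.mul_assoc]
  have hMd : M.det = 1 := by
    rw [← hGM, Matrix.det_mul, Matrix.det_mul, hKd, mul_one, ← Matrix.det_mul,
      Matrix.mul_nonsing_inv _ (isUnit_det_of_ne hGd), Matrix.det_one]
  have hcol : ∀ i k : Fin n, (k : ℕ) + 1 < n → ((lb n)⁻¹ * M) i k = (1 : Mat n) i k :=
    fun i k hk' => by
      rw [← Matrix.nonsing_inv_mul _ hlu, Matrix.mul_apply, Matrix.mul_apply]
      exact Finset.sum_congr rfl fun l _ => by rw [show M l k = lb n l k from (conj_comp hlbH K.charpoly).1 l k hk']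
  have hup : Up ((lb n)⁻¹ * M) := fun i k h => by
    have h' : (k : ℕ) < i := h
    rw [hcol i k (by have := i.isLt; omega), one_apply_ne (show i ≠ k from h.ne')]
  have hd : ((lb n)⁻¹ * M).det = 1 := by
    rw [Matrix.det_mul, Matrix.det_nonsing_inv, det_lb, Ring.inverse_one, hMd, one_mul]
  refine ⟨G, (lb n)⁻¹ * M,
    (up_kry hlbH).mul (tri_inv Function.injective_id (up_kry hK) hk).1, hGd, ⟨hup, fun i => ?_⟩,
    by rw [Matrix.mul_nonsing_inv_cancel_left _ _ hlu, hGM]⟩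
  by_cases hi : (i : ℕ) + 1 < n
  · rw [hcol i i hi, one_apply_eq]
  · rw [det_of_isUpperTriangular hup, Finset.prod_eq_single i] at hd
    · exact hd
    · intro k _ hk'
      have : (k : ℕ) + 1 < n := by
        have := k.isLt; have : (k : ℕ) ≠ i := fun e => hk' (Fin.ext e); omega
      rw [hcol k k this, one_apply_eq]
    · simp

/-- The lower and upper factors of the normalised commutator. -/
theorem fac_spec {K G : Mat n} (hK : K.det = 1) (h : Ok K G) :
    LoU (lFac K G) ∧ UpU (uFac K G) := by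
  obtain ⟨hL, hL1, hU, hU1, -⟩ := lu_unit fun j => minor_mid hK h n j j.isLt
  exact ⟨⟨hL, hL1⟩, ⟨hU, hU1⟩⟩

/-- A point of the fibre is in general position if the lower factor has no zero just below the
diagonal. -/
theorem good_fib {K G : Mat n} {e t : Fin n → ℂ} (hK : K.det = 1) (h : FibOk K G e t)
    (hl : ∀ j h, lFac K G (nx j h) j ≠ 0) : Good (fib K G e t) := by
  obtain ⟨hok, he, hinj, ht⟩ := h
  obtain ⟨hL, hU⟩ := fac_spec hK hok
  set L := lFac K G
  set d := dd e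
  obtain ⟨hZ, -⟩ := uCom_eig hU hinj (dd_ne he)
  set Z := eig (diagonal (dinv d) * uFac K G) (dinv d) with hZdef
  obtain ⟨-, hW, hlam, -⟩ := wMat_spec hL hinj
  have hT : ∀ i, dd t i ≠ 0 := dd_ne ht
  have hgd : (gauge K G n).det ≠ 0 := by rw [det_gauge]; exact hok.1
  suffices hgood : Good ((hA L d, hB L d Z (dd t)) : Pair n) from good_conj' hgd hgood
  refine ⟨wMat L d, d, diagBy_hA hL hinj, ?_⟩
  show Nondeg ((wMat L d).adjugate * hB L d Z (dd t) * wMat L d)
  rw [← inv_eq_adj hW, conj_hB hL hinj, Matrix.mul_assoc]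
  have hup : Up (Z * diagonal (dd t)) := hZ.1.mul (blockTriangular_diagonal _)
  have hp : ∀ j : Fin n, (∏ a, (Z * diagonal (dd t)) (P002Surf.emb j a) (P002Surf.emb j a)) ≠ 0 := fun j =>
    Finset.prod_ne_zero_iff.2 fun a _ => by
      rw [Matrix.mul_diagonal, hZ.2, one_mul]; exact hT _
  refine ⟨fun j => by rw [minor_lu hlam.1 hlam.2 hup]; exact hp j, fun j h => ?_⟩
  rw [sub_lu hlam.1 hlam.2 hup]
  refine mul_ne_zero (lam_entry hL hinj (dd_ne he) (lt_nx j h) (fun k h1 h2 => ?_) (hl j h)) (hp j)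
  have h1' : (j : ℕ) < k := h1
  have h2' : (k : ℕ) < j + 1 := h2
  omega

/-- The key `B⁻¹ P`, `P = K⁻¹ V` with `V` upper triangular, is generic somewhere in the fibre
over the Hessenberg matrix `K`. -/
theorem exists_key (hn : 0 < n) {K V : Mat n} (hK : Hess K) (hKd : K.det = 1) (hV : Up V)
    (hVd : V.det = 1) (i : Option (Rel n)) :
    ∃ (G : Mat n) (e t : Fin n → ℂ), FibOk K G e t ∧ (∀ j h, lFac K G (nx j h) j ≠ 0) ∧
      genFun i ((fib K G e t).2.adjugate * (K⁻¹ * V)) ≠ 0 := by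
  obtain ⟨G, U, hGu, hGd, hU, hM⟩ := exists_gauge_hess hK hKd
  have hGunit := isUnit_det_of_ne hGd
  have hlb := loU_lb (n := n)
  have hlu : IsUnit (lb n).det := by rw [det_lb]; exact isUnit_one
  have hUd : U.det = 1 := det_one_of_up hU.1 hU.2
  have hUu : IsUnit U.det := by rw [hUd]; exact isUnit_one
  have hmin : ∀ j, minor (G * K * G⁻¹) j = 1 := fun j => by
    rw [hM, minor_lu hlb.1 hlb.2 hU.1]
    simp [hU.2]
  have hg := gauge_eq_self hmin
  have hmid : ∀ k, mid K G k = lb n * U := fun k => by rw [mid, hg, hM]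
  have hok : Ok K G := ⟨hGd, fun j h => by
    rw [hmid, sub_lu hlb.1 hlb.2 hU.1]
    simp [hU.2, lb_sub j h]⟩
  have hlF : lFac K G = lb n := by rw [lFac, hmid, lu_unique hlb.1 hlb.2 hU.1 hU.2]
  have huF : uFac K G = U := by
    have e := (lu_unit fun j => minor_mid hKd hok n j j.isLt).2.2.2.2
    change lFac K G * uFac K G = mid K G n at e
    rw [hlF, hmid] at e
    simpa [Matrix.nonsing_inv_mul_cancel_left _ _ hlu] using congrArg ((lb n)⁻¹ * ·) e
  set Y := G * V * G⁻¹ with hY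
  obtain ⟨hGi, hGi1⟩ := tri_inv Function.injective_id hGu hGd
  have hYu : Up Y := (hGu.mul hV).mul hGi
  have hY0 : ∀ k, Y k k ≠ 0 := diag_ne_of_up hYu (by
    rw [hY, Matrix.det_mul, Matrix.det_mul, hVd, mul_one, ← Matrix.det_mul,
      Matrix.mul_nonsing_inv _ hGunit, Matrix.det_one])
  have hlbi := loU_inv hlb
  have hUt := loU_transpose hU
  let N : ℂ → Mat n := fun x => (wMat Uᵀ fun k : Fin n => x ^ (k : ℕ))ᵀ *
    (U⁻¹ * ((lb n)⁻¹ * Y)) * (lb n * wMat (lb n)⁻¹ fun k : Fin n => x ^ (k : ℕ))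
  have htend : Tendsto N (𝓝[≠] 0) (𝓝 ((lb n)⁻¹ * Y)) := by
    have h := ((continuous_id.matrix_transpose.continuousAt.tendsto.comp (tendsto_wMat hUt)).mul
      (tendsto_const_nhds (x := U⁻¹ * ((lb n)⁻¹ * Y)))).mul
      ((tendsto_const_nhds (x := lb n)).mul (tendsto_wMat hlbi))
    have e : (lb n)⁻¹ * Y = Uᵀᵀ * (U⁻¹ * ((lb n)⁻¹ * Y)) * (lb n * (lb n)⁻¹) := by
      rw [Matrix.mul_nonsing_inv _ hlu, Matrix.mul_one, Matrix.transpose_transpose,
        Matrix.mul_nonsing_inv_cancel_left _ _ hUu]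
    rw [e]
    exact h
  have hm0 : ∀ j, minor ((lb n)⁻¹ * Y) j ≠ 0 := fun j => by
    rw [minor_lo_up hlbi.1 hYu]
    exact mul_ne_zero (Finset.prod_ne_zero_iff.2 fun a _ => by rw [hlbi.2]; exact one_ne_zero)
      (Finset.prod_ne_zero_iff.2 fun a _ => hY0 _)
  have hev : ∀ᶠ x in 𝓝[≠] (0 : ℂ), ∀ j, minor (N x) j ≠ 0 :=
    eventually_all.2 fun j =>
      (((continuous_minor j).tendsto _).comp htend).eventually_ne (hm0 j)
  obtain ⟨x, ⟨hx, hinj, -⟩, hx0⟩ := ((hev.and (eig_tendsto hlbi)).and self_mem_nhdsWithin).exists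
  set w := fun k : Fin n => x ^ (k : ℕ)
  have hw0 : ∀ k, w k ≠ 0 := fun k => pow_ne_zero _ hx0
  obtain ⟨c, hc⟩ := IsAlgClosed.exists_pow_nat_eq (∏ k, w k)⁻¹ hn
  have hc0 : c ≠ 0 := fun h0 => by
    rw [h0, zero_pow hn.ne', eq_comm, inv_eq_zero] at hc
    exact Finset.prod_ne_zero_iff.2 (fun k _ => hw0 k) hc
  set d : Fin n → ℂ := fun k => (c * w k)⁻¹ with hd
  have hdp : ∏ k, d k = 1 := by
    rw [hd, Finset.prod_inv_distrib, Finset.prod_mul_distrib, Finset.prod_const, Finset.card_univ,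
      Fintype.card_fin, hc, inv_mul_cancel₀ (Finset.prod_ne_zero_iff.2 fun k _ => hw0 k), inv_one]
  have hd0 : ∀ k, d k ≠ 0 := fun k => inv_ne_zero (mul_ne_zero hc0 (hw0 k))
  have hdinj : Function.Injective d := fun a b h => hinj (mul_left_cancel₀ hc0 (inv_injective h))
  have hdv : dinv d = fun k => c * w k := funext fun k => inv_inv _
  obtain ⟨e, he, hde⟩ := exists_dd hdp
  obtain ⟨δ, hδ, hne⟩ := exists_gen_sl hx i
  have hδ0 : ∀ k, δ k ≠ 0 := fun k h => zero_ne_one
    ((Finset.prod_eq_zero (Finset.mem_univ k) h).symm.trans hδ)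
  obtain ⟨t, ht, hdt⟩ := exists_dd (d := fun k => (δ k)⁻¹)
    (by rw [Finset.prod_inv_distrib, hδ, inv_one])
  have hfo : FibOk K G e t := ⟨hok, he, by rw [hde]; exact hdinj, ht⟩
  refine ⟨G, e, t, hfo, fun j h => by rw [hlF, lb_sub j h]; exact one_ne_zero, ?_⟩
  set Z := eig (diagonal (dinv d) * U) (dinv d) with hZdef
  set W := wMat (lb n) d with hWdef
  have hWd : W.det = 1 := (wMat_spec hlb hdinj).2.1
  have hZ : UpU Z := (uCom_eig hU hdinj hd0).1
  have hB : (fib K G e t).2 = G⁻¹ * (Z * diagonal (fun k => (δ k)⁻¹) * W⁻¹) * G := by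
    show (gauge K G n)⁻¹ * coB K G e t * gauge K G n = _
    rw [hg n, coB, coA, hlF, huF, hde, hdt]
    rfl
  have hBi : (fib K G e t).2.adjugate = G⁻¹ * (W * (diagonal δ * Z⁻¹)) * G := by
    rw [← inv_eq_adj (fib_spec hKd hfo).1.2, hB]
    refine Matrix.inv_eq_right_inv ?_
    simp only [Matrix.mul_assoc, Matrix.mul_nonsing_inv_cancel_left _ _ hGunit]
    rw [Matrix.nonsing_inv_mul_cancel_left W _ (by rw [hWd]; exact isUnit_one),
      ← Matrix.mul_assoc (diagonal _) (diagonal δ), diagonal_mul_diagonal,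
      show (fun k => (δ k)⁻¹ * δ k) = fun _ => (1 : ℂ) from funext fun k => inv_mul_cancel₀ (hδ0 k),
      diagonal_one, Matrix.one_mul, Matrix.mul_nonsing_inv_cancel_left Z _
        (by rw [det_one_of_up hZ.1 hZ.2]; exact isUnit_one), Matrix.nonsing_inv_mul _ hGunit]
  have hP : G * (K⁻¹ * V) = U⁻¹ * ((lb n)⁻¹ * Y) * G := by
    have eK : (lb n * U)⁻¹ = G * K⁻¹ * G⁻¹ := by
      rw [← hM, Matrix.mul_inv_rev, Matrix.mul_inv_rev, Matrix.nonsing_inv_nonsing_inv _ hGunit,
        Matrix.mul_assoc]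
    rw [← Matrix.mul_assoc U⁻¹, ← Matrix.mul_inv_rev, eK, hY]
    simp only [Matrix.mul_assoc, Matrix.nonsing_inv_mul_cancel_left _ _ hGunit,
      Matrix.nonsing_inv_mul _ hGunit, Matrix.mul_one]
  have hN : N x = Z⁻¹ * (U⁻¹ * ((lb n)⁻¹ * Y)) * W := by
    rw [hWdef, wMat_flip hlb hdinj hd0, hZdef, inv_eig_up hU hdinj, hdv,
      wMat_smul hlbi hinj hc0, wMat_smul hUt hinj hc0]
  have e1 : (fib K G e t).2.adjugate * (K⁻¹ * V) =
      G⁻¹ * (W * (diagonal δ * (Z⁻¹ * (U⁻¹ * ((lb n)⁻¹ * Y))))) * G := by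
    rw [hBi]
    simp only [Matrix.mul_assoc]
    rw [hP]
    simp only [Matrix.mul_assoc]
  rw [e1, genFun_conj hGd, genFun_congr (Matrix.charpoly_mul_comm W _)]
  rw [hN] at hne
  simpa only [Matrix.mul_assoc] using hne

end P002Punct
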