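import Vale.Agent.P002Punct.One.Classes
import Vale.Agent.P002Punct.Tuple
import Vale.Agent.P002Punct.Units

/-!
Genus one: the statement for tuples, given seeds.
-/

namespace P002Punct

open Matrix P002Surf

variable {s n : ℕ}

/-- The seeds used in genus one. -/
def SeedOne (n : ℕ) : Prop :=
  ∃ ω : ℂ, IsIntegral ℤ ω ∧ ∀ {s : ℕ} (R : Subring ℂ) (J : Fin (s + 2) → Mat n),
    ω ∈ R → (∀ z ∈ R, IsIntegral ℤ z) → Bidiag (J 0).adjugate → Special (J 1) →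
    (∀ j, j ≠ 0 → Up (J j)) → (∀ j, (J j).det = 1) → (∀ j, IntM R (J j)) →
    ∃ x : St 1 (s + 2) n, Zd R J x ∧ GenericOne J x

theorem dense_one_sorted (hn : 2 ≤ n) (hseed : SeedOne n)
    (C : Fin (s + 2) → Matrix.SpecialLinearGroup (Fin n) ℂ)
    (hC : ∀ j, ∀ z : ℂ, (C j).1.charpoly.IsRoot z → ∃ m : ℕ, 0 < m ∧ z ^ m = 1)
    (h0 : minpoly ℂ (C 0).1 = (C 0).1.charpoly) (h1 : ∀ c : ℂ, (C 1).1 ≠ c • (1 : Mat n)) :
    DenseTuples 1 C := by
  obtain ⟨ω, hω, hseed⟩ := hseed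
  obtain ⟨m, ω', ε, e, hm, hω', -, hinf, -, -, -, hR⟩ := exists_units n
  obtain ⟨N, hN, hrep⟩ := exists_rep_one (by omega) (fun j => (C j).1) (fun j => (C j).2) hC h0 h1
  obtain ⟨L, hL, hωR, hroots⟩ := exists_field (Nat.mul_pos hN hm) hω
  have hω'R : ω' ∈ intRing L := hroots ω' (by rw [mul_comm, pow_mul, hω'.pow_eq_one, one_pow])
  obtain ⟨J, hb, hlo, hsp, hup, hJd, hJR, hJC⟩ :=
    hrep (intRing L) fun z hz => hroots z (by rw [pow_mul, hz, one_pow])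
  choose c hc hcC using hJC
  have hint : ∀ z ∈ intRing L, IsIntegral ℤ z := fun z hz => (mem_intRing.1 hz).1
  exact dense_of_eval C L hL J hJd hJR hc hcC fun p hp x hx =>
    all_eval_zero_one hn hint (fun z hz => acl_of_mem_intRing hz) (hR _ hω'R).1 (hR _ hω'R).2.1
      hinf hJd hJR (Or.inr hlo) (cyclic_of_adj_bidiag (by omega) (hJd 0) hb) hsp.not_scalar
      (hseed _ J hωR hint hb hsp hup hJd hJR) hp hx

/-- Dense irreducible integral tuples in genus one: one regular class and another nonscalar one. -/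
theorem dense_one (hn : 2 ≤ n) (hseed : SeedOne n)
    (C : Fin s → Matrix.SpecialLinearGroup (Fin n) ℂ)
    (hC : ∀ j, ∀ z : ℂ, (C j).1.charpoly.IsRoot z → ∃ m : ℕ, 0 < m ∧ z ^ m = 1)
    {j k : Fin s} (hjk : j ≠ k) (hj : minpoly ℂ (C j).1 = (C j).1.charpoly)
    (hk : ∀ c : ℂ, (C k).1 ≠ c • (1 : Mat n)) : DenseTuples 1 C := by
  obtain ⟨t, rfl⟩ : ∃ t, s = t + 2 := by
    refine ⟨s - 2, ?_⟩
    have := j.isLt
    have := k.isLt
    have : (j : ℕ) ≠ k := fun e => hjk (Fin.ext e)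
    omega
  let σ : Equiv.Perm (Fin (t + 2)) :=
    (Equiv.swap 1 (Equiv.swap 0 j k)).trans (Equiv.swap 0 j)
  have hne : (0 : Fin (t + 2)) ≠ Equiv.swap 0 j k := fun e => hjk (by
    have := congrArg (Equiv.swap 0 j) e
    rwa [Equiv.swap_apply_self, Equiv.swap_apply_left] at this)
  have hσ0 : σ 0 = j := by
    show Equiv.swap 0 j (Equiv.swap 1 (Equiv.swap 0 j k) 0) = j
    rw [Equiv.swap_apply_of_ne_of_ne (by simp) hne, Equiv.swap_apply_left]
  have hσ1 : σ 1 = k := by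
    show Equiv.swap 0 j (Equiv.swap 1 (Equiv.swap 0 j k) 1) = k
    rw [Equiv.swap_apply_left, Equiv.swap_apply_self]
  refine dense_perm σ C (dense_one_sorted hn hseed _ (fun i => hC (σ i)) ?_ ?_)
  · show minpoly ℂ (C (σ 0)).1 = (C (σ 0)).1.charpoly
    rw [hσ0]; exact hj
  · show ∀ c : ℂ, (C (σ 1)).1 ≠ c • (1 : Mat n)
    rw [hσ1]; exact hk

end P002Punct
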