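import Vale.Agent.P002Punct.Perturb
import Vale.Agent.P002Punct.Span

/-!
A local section of the product of the boundary matrices through conjugators for which these
matrices have scalar joint commutant.
-/

namespace P002Punct

open Matrix Filter Topology P002Surf

open scoped Matrix.Norms.Operator

variable {s n : ℕ}

/-- The product of the boundary matrices of a tuple of conjugators. -/
def bdProd (J : Fin s → Mat n) (h : Fin s → Mat n) : Mat n :=
  (List.ofFn fun j => bd (J j) (h j)).prod

theorem contDiff_bd (J : Mat n) : ContDiff ℂ 1 fun h : Mat n => bd J h :=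
  (contDiff_id.mul contDiff_const).mul contDiff_adjugate

theorem contDiff_bdProd (J : Fin s → Mat n) : ContDiff ℂ 1 (bdProd J) :=
  (contDiff_listProd s).comp
    (contDiff_pi.2 fun j => (contDiff_bd (J j)).comp (contDiff_apply ℂ (Mat n) j))

/-- A product with one varying factor. -/
theorem ofFn_split {M : Type} [Monoid M] {s : ℕ} (f : Fin s → M) (j : Fin s) (a : M) :
    (List.ofFn (Function.update f j a)).prod =
      ((List.ofFn f).take j).prod * a * ((List.ofFn f).drop (j + 1)).prod := by
  have e : List.ofFn (Function.update f j a) = (List.ofFn f).set j a := by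
    refine List.ext_getElem (by simp) fun i h1 h2 => ?_
    rw [List.getElem_ofFn, List.getElem_set, List.getElem_ofFn]
    by_cases hij : (j : ℕ) = i
    · rw [if_pos hij, show (⟨i, by simpa using h1⟩ : Fin s) = j from Fin.ext hij.symm,
        Function.update_self]
    · rw [if_neg hij, Function.update_of_ne fun h => hij (congrArg Fin.val h).symm]
  rw [e, List.prod_set, if_pos (by simp)]

/-- The chart of conjugators, with a scalar factor. -/
noncomputable def bdChart (h : Fin s → Mat n) (a : Fin s → Mat n) : Fin s → Mat n :=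
  fun j => h j * zN (1 + a j)

/-- The derivative of the product along one conjugator. -/
theorem hasDerivAt_bdProd {J h : Fin s → Mat n} (hh : ∀ j, (h j).det = 1) (j : Fin s) (Y : Mat n) :
    HasDerivAt (fun t : ℂ => bdProd J
        (Function.update h j (h j * zN (1 + t • ((h j).adjugate * Y * h j)))))
      (((List.ofFn fun k => bd (J k) (h k)).take j).prod *
        (((n : ℂ) • Y - Y.trace • (1 : Mat n)) * bd (J j) (h j) -
          bd (J j) (h j) * ((n : ℂ) • Y - Y.trace • (1 : Mat n))) *
        ((List.ofFn fun k => bd (J k) (h k)).drop (j + 1)).prod) 0 := by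
  set X := (h j).adjugate * Y * h j with hX
  set Y0 := (n : ℂ) • Y - Y.trace • (1 : Mat n) with hY0
  have hu := mul_adj_one (hh j)
  have eY : ((n : ℂ) • X - X.trace • (1 : Mat n)) = (h j).adjugate * Y0 * h j := by
    have htr : X.trace = Y.trace := by
      rw [hX, Matrix.trace_mul_comm, ← Matrix.mul_assoc, hu, Matrix.one_mul]
    rw [htr]
    simp only [hY0, hX, Matrix.mul_sub, Matrix.sub_mul, Matrix.mul_smul, Matrix.smul_mul,
      Matrix.mul_one, adj_mul_one (hh j)]
  have hfun : (fun t : ℂ => bdProd J (Function.update h j (h j * zN (1 + t • X)))) = fun t =>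
      ((List.ofFn fun k => bd (J k) (h k)).take j).prod *
        ((h j * zN (1 + t • X)) * J j * ((zN (1 + t • X)).adjugate * (h j).adjugate)) *
          ((List.ofFn fun k => bd (J k) (h k)).drop (j + 1)).prod := by
    funext t
    have e2 : (fun k => bd (J k) (Function.update h j (h j * zN (1 + t • X)) k)) =
        Function.update (fun k => bd (J k) (h k)) j (bd (J j) (h j * zN (1 + t • X))) := by
      funext k
      rcases eq_or_ne k j with rfl | hk
      · simp
      · simp [hk]
    rw [bdProd, e2, ofFn_split, bd, Matrix.adjugate_mul_distrib]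
  rw [hfun]
  have h1 := ((((hasDerivAt_zN_line X).const_mul (h j)).mul_const (J j)).fun_mul
    ((hasDerivAt_adj_zN_line X).mul_const (h j).adjugate))
  refine ((h1.const_mul _).mul_const _).congr_deriv ?_
  simp only [zero_smul, add_zero, zN_one, Matrix.adjugate_one, Matrix.one_mul, Matrix.mul_one, eY,
    Matrix.mul_add, Matrix.add_mul, Matrix.neg_mul, Matrix.mul_neg,
    bd, Matrix.mul_assoc, sub_eq_add_neg]
  simp only [← Matrix.mul_assoc (h j) (h j).adjugate, hu, Matrix.one_mul]

/-- A functional killing every partial derivative of the product, rotated to the front, commutes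
with all factors. -/
theorem rotated_commute {c : Fin s → Mat n} {W : Mat n}
    (hcomm : ∀ j : Fin s, c j * (((List.ofFn c).drop (j + 1)).prod * W * ((List.ofFn c).take j).prod) =
      ((List.ofFn c).drop (j + 1)).prod * W * ((List.ofFn c).take j).prod * c j) (j : Fin s) :
    c j * ((List.ofFn c).prod * W) = (List.ofFn c).prod * W * c j := by
  let pre : Fin s → Mat n := fun j => ((List.ofFn c).take j).prod
  let post : Fin s → Mat n := fun j => ((List.ofFn c).drop (j + 1)).prod
  have hUW : ∀ (m : ℕ) (hm : m < s),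
      c ⟨m, hm⟩ * (post ⟨m, hm⟩ * W * pre ⟨m, hm⟩) = (List.ofFn c).prod * W := by
    intro m
    induction m with
    | zero =>
      intro hm
      have e := ofFn_split c ⟨0, hm⟩ (c ⟨0, hm⟩)
      rw [Function.update_eq_self] at e
      rw [e]
      simp [pre, post, Matrix.mul_assoc]
    | succ m ih =>
      intro hm
      have hm' : m < s := Nat.lt_of_succ_lt hm
      rw [← ih hm']
      have e1 : post ⟨m, hm'⟩ = c ⟨m + 1, hm⟩ * post ⟨m + 1, hm⟩ := by
        simp only [post]
        rw [List.drop_eq_getElem_cons (by simpa using hm), List.prod_cons, List.getElem_ofFn]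
      have e2 : pre ⟨m + 1, hm⟩ = pre ⟨m, hm'⟩ * c ⟨m, hm'⟩ := by
        simp only [pre]
        rw [List.prod_take_succ _ _ (by simpa using hm'), List.getElem_ofFn]
      have h := hcomm ⟨m, hm'⟩
      change c ⟨m, hm'⟩ * (post ⟨m, hm'⟩ * W * pre ⟨m, hm'⟩) =
        post ⟨m, hm'⟩ * W * pre ⟨m, hm'⟩ * c ⟨m, hm'⟩ at h
      rw [h, e1, e2]
      simp only [Matrix.mul_assoc]
  rw [← hUW j j.isLt, Fin.eta]
  conv_rhs => rw [Matrix.mul_assoc, ← hcomm j]

theorem bd_section (hn : 0 < n) {J : Fin s → Mat n} (hJd : ∀ j, (J j).det = 1) {h : Fin s → Mat n}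
    (hh : ∀ j, (h j).det = 1)
    (hs : ∀ T : Mat n, (∀ j, T * bd (J j) (h j) = bd (J j) (h j) * T) → ∃ c : ℂ, T = c • (1 : Mat n)) :
    ∃ (τ : Mat n → Fin s → Mat n) (V : Set (Mat n)), IsOpen V ∧ bdProd J h ∈ V ∧
      ContinuousOn τ V ∧ τ (bdProd J h) = h ∧
      ∀ K ∈ V, K.det = 1 → (∀ j, (τ K j).det = 1) ∧ bdProd J (τ K) = K := by
  classical
  have hn' : (n : ℂ) ≠ 0 := by exact_mod_cast hn.ne'
  let E := (Fin s → Mat n) × ℂ
  let Φ : E → Mat n := fun a => (1 + a.2) • bdProd J (bdChart h a.1)
  have hchart0 : bdChart h 0 = h := by funext j; simp [bdChart, zN_one]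
  have hΦ0 : Φ 0 = bdProd J h := by simp [Φ, hchart0]
  have hchart : ∀ a : Fin s → Mat n, (∀ j, (1 + a j).det ≠ 0) → ContDiffAt ℂ 1 (bdChart h) a :=
    fun a ha => contDiffAt_pi.2 fun j => contDiffAt_const.mul (ContDiffAt.comp (g := zN) a
      (contDiffAt_zN (ha j)) (contDiff_const.add (contDiff_apply ℂ (Mat n) j)).contDiffAt)
  have hΦ : ContDiffAt ℂ 1 Φ 0 :=
    (contDiff_const.add contDiff_snd).contDiffAt.smul ((contDiff_bdProd J).contDiffAt.comp (0 : E)
      (ContDiffAt.comp (g := bdChart h) (0 : E) (hchart _ fun j => by simp) contDiff_fst.contDiffAt))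
  have hL : HasStrictFDerivAt Φ (fderiv ℂ Φ 0) 0 := hΦ.hasStrictFDerivAt one_ne_zero
  set L := fderiv ℂ Φ 0 with hLdef
  have hline : ∀ a : E, HasDerivAt (fun t : ℂ => Φ (t • a)) (L a) 0 := fun a =>
    HasFDerivAt.comp_hasDerivAt_of_eq (0 : ℂ) hL.hasFDerivAt
      (by simpa using (hasDerivAt_id (0 : ℂ)).smul_const a) (zero_smul ℂ a).symm
  set c : Fin s → Mat n := fun j => bd (J j) (h j) with hc
  have hcd : ∀ j, (c j).det = 1 := fun j => det_bd (hJd j) (hh j)
  have hsurj : L.range = ⊤ := by
    by_contra hne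
    obtain ⟨f, hf0, hf⟩ := Submodule.exists_dual_map_eq_bot_of_lt_top (lt_top_iff_ne_top.2 hne)
      inferInstance
    obtain ⟨W, hW⟩ : ∃ W : Mat n, ∀ H, f H = (W * H).trace := ⟨_, functional_trace f⟩
    have hkill : ∀ a : E, (W * L a).trace = 0 := fun a => by
      rw [← hW]
      have := Submodule.mem_map_of_mem (f := f) (LinearMap.mem_range_self L.toLinearMap a)
      rw [hf, Submodule.mem_bot] at this
      exact this
    have hcomm : ∀ j : Fin s,
        c j * (((List.ofFn c).drop (j + 1)).prod * W * ((List.ofFn c).take j).prod) =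
          ((List.ofFn c).drop (j + 1)).prod * W * ((List.ofFn c).take j).prod * c j := by
      intro j
      set V := ((List.ofFn c).drop (j + 1)).prod * W * ((List.ofFn c).take j).prod with hV
      rw [← sub_eq_zero]
      refine eq_zero_of_trace_traceless hn' ?_ fun Y => ?_
      · rw [Matrix.trace_sub, Matrix.trace_mul_comm (c j), sub_self]
      set X : Mat n := (h j).adjugate * Y * h j with hX
      have hd := hline ((Pi.single j X, 0) : E)
      have e : (fun t : ℂ => Φ (t • ((Pi.single j X, 0) : E))) =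
          fun t => bdProd J (Function.update h j (h j * zN (1 + t • X))) := by
        funext t
        have e1 : bdChart h (t • Pi.single j X) = Function.update h j (h j * zN (1 + t • X)) := by
          funext k
          rcases eq_or_ne k j with rfl | hk
          · simp [bdChart]
          · simp [bdChart, hk, zN_one]
        simp only [Φ, Prod.smul_mk, smul_zero, add_zero, one_smul, e1]
      rw [e] at hd
      have h0 := hkill ((Pi.single j X, 0) : E)
      rw [hd.unique (hasDerivAt_bdProd hh j Y), show (List.ofFn fun k => bd (J k) (h k)) = List.ofFn c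
        from rfl, show bd (J j) (h j) = c j from rfl, ← Matrix.mul_assoc, ← Matrix.mul_assoc,
        Matrix.trace_mul_comm, ← Matrix.mul_assoc, ← Matrix.mul_assoc, ← hV] at h0
      set Y0 := (n : ℂ) • Y - Y.trace • (1 : Mat n)
      rw [Matrix.sub_mul, Matrix.trace_sub, Matrix.mul_assoc (c j) V Y0,
        Matrix.trace_mul_comm (c j), Matrix.mul_assoc V, Matrix.mul_assoc V, ← Matrix.trace_sub,
        ← Matrix.mul_sub]
      exact h0
    have hPid : (bdProd J h).det = 1 := det_list_prod fun M hM => by
      obtain ⟨j, rfl⟩ := List.mem_ofFn.1 hM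
      exact hcd j
    obtain ⟨e, he⟩ := hs (bdProd J h * W) fun j => (rotated_commute hcomm j).symm
    have he0 : e = 0 := by
      have hd := hline ((0, 1) : E)
      have e1 : (fun t : ℂ => Φ (t • ((0, 1) : E))) = fun t => (1 + t) • bdProd J h := by
        funext t
        simp [Φ, hchart0]
      rw [e1] at hd
      have hd' : HasDerivAt (fun t : ℂ => (1 + t) • bdProd J h) (bdProd J h) 0 :=
        (((hasDerivAt_id (0 : ℂ)).const_add (1 : ℂ)).smul_const (bdProd J h)).congr_deriv
          (one_smul ℂ _)
      have h0 := hkill ((0, 1) : E)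
      rw [hd.unique hd', Matrix.trace_mul_comm, he, Matrix.trace_smul, Matrix.trace_one,
        Fintype.card_fin, smul_eq_mul, mul_eq_zero] at h0
      exact h0.resolve_right hn'
    have hW0 : W = 0 := by
      rw [← Matrix.one_mul W, ← adj_mul_one hPid, Matrix.mul_assoc, he, he0, zero_smul,
        Matrix.mul_zero]
    exact hf0 (LinearMap.ext fun H => by simp [hW, hW0])
  obtain ⟨Ri, hR⟩ := L.toLinearMap.exists_rightInverse_of_surjective hsurj
  let Rc : Mat n →L[ℂ] E := Ri.toContinuousLinearMap
  have hgd : HasStrictFDerivAt (fun w => Φ (Rc w))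
      ((ContinuousLinearEquiv.refl ℂ (Mat n) : Mat n ≃L[ℂ] Mat n) : Mat n →L[ℂ] Mat n) 0 := by
    refine (HasStrictFDerivAt.comp (g := Φ) (0 : Mat n) (by rw [map_zero]; exact hL)
      Rc.hasStrictFDerivAt).congr_fderiv ?_
    refine ContinuousLinearMap.ext fun w => ?_
    exact LinearMap.congr_fun hR w
  let e := hgd.toOpenPartialHomeomorph (fun w => Φ (Rc w))
  have hsrc : (0 : Mat n) ∈ e.source := hgd.mem_toOpenPartialHomeomorph_source
  have hval : ∀ w, e w = Φ (Rc w) := fun w => rfl
  have he0 : e 0 = bdProd J h := by rw [hval, map_zero, hΦ0]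
  have hsymm0 : e.symm (bdProd J h) = 0 := by rw [← he0, e.left_inv hsrc]
  have hsmall : ∀ᶠ t in 𝓝 (0 : ℂ), (1 + t) ^ n = 1 → t = 0 := by
    let p : Polynomial ℂ := (Polynomial.C 1 + Polynomial.X) ^ n - 1
    have hp : p ≠ 0 := by
      intro h0
      have hh := congrArg (Polynomial.eval (-1)) h0
      simp [p, zero_pow hn.ne'] at hh
    have : ∀ᶠ t in 𝓝 (0 : ℂ), t ∉ {t | p.IsRoot t} \ {0} :=
      (((Polynomial.finite_setOfPred_isRoot hp).subset Set.sdiff_subset).isClosed.isOpen_compl).mem_nhds
        (by simp)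
    filter_upwards [this] with t ht h1
    by_contra h0
    exact ht ⟨by simp [Polynomial.IsRoot, p, h1], h0⟩
  have hcs : ContinuousAt (fun K => Rc (e.symm K)) (bdProd J h) :=
    Rc.continuous.continuousAt.comp (e.continuousAt_symm (he0 ▸ e.map_source hsrc))
  have hd0 : ∀ᶠ a in 𝓝 (0 : E), (∀ j, (1 + a.1 j).det ≠ 0) ∧ ((1 + a.2) ^ n = 1 → a.2 = 0) := by
    refine Eventually.and (eventually_all.2 fun j => ?_) ((continuous_snd.tendsto (0 : E)).eventually hsmall)
    exact ((continuous_const.add ((continuous_apply j).comp continuous_fst)).matrix_det).continuousAt.eventually_ne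
      (by simp)
  have hev : ∀ᶠ K in 𝓝 (bdProd J h), K ∈ e.target ∧ ((∀ j, (1 + (Rc (e.symm K)).1 j).det ≠ 0) ∧
      ((1 + (Rc (e.symm K)).2) ^ n = 1 → (Rc (e.symm K)).2 = 0)) := by
    refine Eventually.and (e.open_target.mem_nhds (he0 ▸ e.map_source hsrc)) ?_
    exact hcs.tendsto.eventually (by rw [hsymm0, map_zero]; exact hd0)
  obtain ⟨V, hV, hVo, hVm⟩ := eventually_nhds_iff.1 hev
  refine ⟨fun K => bdChart h (Rc (e.symm K)).1, V, hVo, hVm, ?_, ?_, ?_⟩
  · intro K hK
    refine ContinuousAt.continuousWithinAt ?_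
    obtain ⟨hKt, hd, -⟩ := hV K hK
    exact ContinuousAt.comp' (g := bdChart h) (hchart _ hd).continuousAt
      (ContinuousAt.comp' (g := fun a : E => a.1) continuous_fst.continuousAt
        (ContinuousAt.comp' (g := fun w => Rc w) Rc.continuous.continuousAt
          (e.continuousAt_symm hKt)))
  · show bdChart h (Rc (e.symm (bdProd J h))).1 = h
    rw [hsymm0, map_zero]
    exact hchart0
  · intro K hK hKd
    obtain ⟨hKt, hd, hsv⟩ := hV K hK
    set a := Rc (e.symm K) with ha
    have hdet : ∀ j, (bdChart h a.1 j).det = 1 := fun j => by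
      simp [bdChart, Matrix.det_mul, hh j, det_zN (hd j)]
    have hKe : (1 + a.2) • bdProd J (bdChart h a.1) = K := by
      have := e.right_inv hKt
      rw [hval] at this
      exact this
    have hPd : (bdProd J (bdChart h a.1)).det = 1 := det_list_prod fun M hM => by
      obtain ⟨j, rfl⟩ := List.mem_ofFn.1 hM
      exact det_bd (hJd j) (hdet j)
    have hs0 : a.2 = 0 := by
      refine hsv ?_
      have := congrArg Matrix.det hKe
      rw [Matrix.det_smul, hPd, Fintype.card_fin, mul_one, hKd] at this
      exact this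
    rw [hs0, add_zero, one_smul] at hKe
    exact ⟨hdet, hKe⟩

end P002Punct
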