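import Vale.Agent.P002Punct.One.Count
import Vale.Agent.P002Punct.One.Section
import Vale.Agent.P002Punct.Curve
import Vale.Agent.P002Punct.Box
import Vale.Agent.P002Punct.Irr

/-!
Genus one: representations whose pair is in general position suffice, and irreducible integral
representations suffice.  The boundary absorbs small changes of the pair.
-/

namespace P002Punct

open Matrix Filter Topology P002Surf

open scoped Matrix.Norms.Operator

variable {s n : ℕ} {R : Subring ℂ}

/-- Near any conjugator there is one for which two boundary matrices, the first regular and the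
second not scalar, commute together with scalars only. -/
theorem exists_scalar_pair_near {C J : Mat n} (hC : Cyclic C) (hJd : J.det = 1)
    (hns : ∀ c : ℂ, J ≠ c • (1 : Mat n)) {h : Mat n} (hh : h.det = 1) {U : Set (Mat n)}
    (hU : U ∈ 𝓝 h) :
    ∃ h' ∈ U, h'.det = 1 ∧
      ∀ T, C * T = T * C → bd J h' * T = T * bd J h' → ∃ c : ℂ, T = c • (1 : Mat n) := by
  classical
  have hn : 0 < n := by
    rcases Nat.eq_zero_or_pos n with rfl | hn
    · exact absurd (Subsingleton.elim _ _) (hns 0)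
    · exact hn
  obtain ⟨h1, h1d, h1s⟩ := exists_conj_scalar hC hJd hns
  obtain ⟨v, hv⟩ := hC
  let ι := {k : Fin n // (k : ℕ) ≠ 0}
  -- the commutators with the powers
  let D : Mat n → ι → Mat n := fun H k => C ^ (k.1 : ℕ) * bd J H - bd J H * C ^ (k.1 : ℕ)
  let Φ : Mat n → (ι → ℂ) →ₗ[ℂ] Mat n := fun H =>
    ∑ k, (LinearMap.proj (R := ℂ) (φ := fun _ : ι => ℂ) k).smulRight (D H k)
  have hΦ : ∀ H a, Φ H a = ∑ k, a k • D H k := fun H a => by
    simp [Φ, LinearMap.sum_apply]
  let T : (ι → ℂ) → Mat n := fun a => ∑ k, a k • C ^ (k.1 : ℕ)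
  have hT : ∀ H a, T a * bd J H - bd J H * T a = Φ H a := fun H a => by
    simp only [T, hΦ, D, Finset.sum_mul, Finset.mul_sum, Matrix.smul_mul, Matrix.mul_smul, smul_sub,
      Finset.sum_sub_distrib]
  have hTc : ∀ a, C * T a = T a * C := fun a => by
    simp only [T, Finset.sum_mul, Finset.mul_sum, Matrix.smul_mul, Matrix.mul_smul]
    exact Finset.sum_congr rfl fun k _ => by rw [← pow_succ, ← pow_succ']
  have hker : LinearMap.ker (Φ h1) = ⊥ := by
    rw [LinearMap.ker_eq_bot']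
    intro a ha
    obtain ⟨c, hc⟩ := h1s (T a) (hTc a) (sub_eq_zero.1 (by rw [hT, ha])).symm
    have hsum : ∑ k : Fin n, (if hk : (k : ℕ) ≠ 0 then a ⟨k, hk⟩ else -c) • (C ^ (k : ℕ) *ᵥ v) = 0 := by
      have e0 : ∑ k : Fin n, (if hk : (k : ℕ) ≠ 0 then a ⟨k, hk⟩ else 0) • C ^ (k : ℕ) = T a := by
        rw [← Finset.sum_filter_of_ne (p := fun k : Fin n => (k : ℕ) ≠ 0)
          (fun k _ hne h0 => hne (by simp [h0])),
          ← Finset.sum_subtype_eq_sum_filter]
        refine Finset.sum_congr (by ext; simp [ι]) fun k _ => ?_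
        rw [dif_pos k.2]
      have e1 := congrArg (fun M : Mat n => M *ᵥ v) e0
      simp only [Matrix.sum_mulVec, Matrix.smul_mulVec] at e1
      rw [hc, Matrix.smul_mulVec, Matrix.one_mulVec] at e1
      let o : Fin n := ⟨0, hn⟩
      have e2 : ∀ k : Fin n, (if hk : (k : ℕ) ≠ 0 then a ⟨k, hk⟩ else -c) • (C ^ (k : ℕ) *ᵥ v) =
          (if hk : (k : ℕ) ≠ 0 then a ⟨k, hk⟩ else 0) • (C ^ (k : ℕ) *ᵥ v) -
            (if k = o then c • v else 0) := fun k => by
        by_cases hk : (k : ℕ) ≠ 0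
        · rw [dif_pos hk, dif_pos hk, if_neg fun h => hk (by rw [h]), sub_zero]
        · rw [dif_neg hk, dif_neg hk, if_pos (Fin.ext (not_not.1 hk)), zero_smul, zero_sub,
            not_not.1 hk, pow_zero, Matrix.one_mulVec, neg_smul]
      simp only [e2, Finset.sum_sub_distrib, e1, Finset.sum_ite_eq', Finset.mem_univ, if_true,
        sub_self]
    funext k
    have := Fintype.linearIndependent_iff.1 hv _ hsum k.1
    rwa [dif_pos k.2] at this
  obtain ⟨π, hπ⟩ := (Φ h1).exists_leftInverse_of_injective hker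
  have hfun : ∀ k : ι, ∃ W : Mat n, ∀ M, (LinearMap.proj k).comp π M = (W * M).trace :=
    fun k => ⟨_, functional_trace _⟩
  choose W hW using hfun
  let H : ℂ → Mat n := fun t => colScale ((1 - t) • h + t • h1)
  let F : ℂ → ℂ := fun t => (Matrix.of fun k l : ι => (W k * D (H t) l).trace).det
  have hseg0 : ((1 - (0 : ℂ)) • h + (0 : ℂ) • h1).det ≠ 0 ∧
      ((1 - (1 : ℂ)) • h + (1 : ℂ) • h1).det ≠ 0 := by simp [hh, h1d]
  have hH : RatM H := ratM_colScale (ratM_segment _ _) hseg0.1 hseg0.2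
  have hH1 : H 1 = h1 := by simp [H, colScale_of_det h1d]
  have hF : RatOn F := by
    refine RatM.det fun k l => ?_
    simp only [Matrix.of_apply, Matrix.trace, Matrix.diag_apply]
    refine ratOn_sum _ fun i _ => ((ratM_const (W k)).mul ?_) i i
    have hb : RatM fun t => bd J (H t) := (hH.mul (ratM_const J)).mul hH.adjugate
    exact ((ratM_const _).mul hb).sub (hb.mul (ratM_const _))
  have hF1 : F 1 = 1 := by
    simp only [F, hH1]
    rw [show (Matrix.of fun k l : ι => (W k * D h1 l).trace) = 1 from ?_, Matrix.det_one]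
    ext k l
    have e : Φ h1 (Pi.single l 1) = D h1 l := by
      rw [hΦ, Finset.sum_eq_single l (fun m _ hm => by simp [hm]) (by simp)]
      simp
    have e2 := LinearMap.congr_fun hπ (Pi.single l 1)
    rw [LinearMap.comp_apply, e, LinearMap.id_apply] at e2
    rw [Matrix.of_apply, ← hW k, LinearMap.comp_apply, LinearMap.proj_apply, e2, Pi.single_apply,
      Matrix.one_apply]
  have hfin := finite_zeros hF (Or.inr (by rw [hF1]; exact one_ne_zero))
  have hc : ContinuousAt H 0 := continuousAt_pi.2 fun r => continuousAt_pi.2 fun c =>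
    (hH r c).continuousAt
  have hev : ∀ᶠ t in 𝓝 (0 : ℂ), H t ∈ U ∧ ((1 - t) • h + t • h1).det ≠ 0 := by
    refine Eventually.and ?_ ((ratM_segment h h1).det.eventually_ne hseg0.1)
    refine hc.preimage_mem_nhds ?_
    simpa [H, colScale_of_det hh] using hU
  obtain ⟨t, ⟨htU, htd⟩, htF⟩ := ((infinite_of_mem_nhds (0 : ℂ) hev).sdiff hfin).nonempty
  refine ⟨H t, htU, det_colScale htd, fun T' hT1 hT2 => ?_⟩
  obtain ⟨a, ha⟩ := Cyclic.eq_sum hv hT1
  let a' : ι → ℂ := fun k => a k.1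
  have hsplit : T' = a ⟨0, hn⟩ • (1 : Mat n) + T a' := by
    rw [ha, ← Finset.sum_filter_add_sum_filter_not Finset.univ (fun k : Fin n => (k : ℕ) = 0)]
    congr 1
    · rw [show Finset.univ.filter (fun k : Fin n => (k : ℕ) = 0) = {⟨0, hn⟩} by
        ext k; simp [Fin.ext_iff], Finset.sum_singleton]
      simp
    · rw [← Finset.sum_subtype_eq_sum_filter]
      exact Finset.sum_congr (by ext; simp [ι]) fun k _ => rfl
  have hzero : Φ (H t) a' = 0 := by
    rw [← hT]
    have h3 : T' * bd J (H t) - bd J (H t) * T' = 0 := sub_eq_zero.2 hT2.symm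
    rw [hsplit] at h3
    simpa [Matrix.add_mul, Matrix.mul_add] using h3
  have hmul : (Matrix.of fun k l : ι => (W k * D (H t) l).trace) *ᵥ a' = 0 := by
    funext k
    have : (W k * Φ (H t) a').trace = 0 := by rw [hzero, Matrix.mul_zero, Matrix.trace_zero]
    rw [hΦ, Matrix.mul_sum, Matrix.trace_sum] at this
    simpa [Matrix.mulVec, dotProduct, Matrix.mul_smul, Matrix.trace_smul, mul_comm] using this
  have ha0 : a' = 0 := Matrix.eq_zero_of_mulVec_eq_zero htF hmul
  refine ⟨a ⟨0, hn⟩, ?_⟩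
  rw [hsplit, ha0]
  simp [T]

variable {J : Fin (s + 2) → Mat n}

/-- Genus one: representations with the pair in general position suffice. -/
theorem zdOn_of_hy_one (hn : 2 ≤ n) {Q : St 1 (s + 2) n → Prop}
    (hR : ∀ z ∈ R, z ∈ Vale.Agent.P002.Surface.acl (∅ : Set ℂ))
    (hJ : ∀ j a b, J j a b ∈ Vale.Agent.P002.Surface.acl (∅ : Set ℂ)) (hJd : ∀ j, (J j).det = 1)
    (h0 : Cyclic (J 0)) (h1 : ∀ c : ℂ, J 1 ≠ c • (1 : Mat n))
    (hgood : ∀ x : St 1 (s + 2) n, PRep J x → Hy (x.1 0) → ZdOn Q R J x) :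
    ∀ x : St 1 (s + 2) n, PRep J x → ZdOn Q R J x := by
  refine zdOn_of_good_one hn hR hJ hJd h0 fun x hx hs => ?_
  by_contra hne
  classical
  have hnb : ∀ᶠ y in 𝓝 x, ¬ ZdOn Q R J y := isClosed_zdOn.isOpen_compl.mem_nhds hne
  obtain ⟨Sg, V, hVo, hVm, hVc, hS0, hSg⟩ := absorbP (by omega) hJd hx 0 hs
  obtain ⟨N, hN, hNo, hqN⟩ := eventually_nhds_iff.1 hnb
  have hcts : ContinuousAt Sg x := hVc.continuousAt (hVo.mem_nhds hVm)
  have hU : ∀ᶠ y in 𝓝 x, y ∈ V ∧ Sg y ∈ N :=
    (hVo.eventually_mem hVm).and (hcts.preimage_mem_nhds (hNo.mem_nhds (by rw [hS0]; exact hqN)))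
  -- move the second conjugator
  let upd : Mat n → St 1 (s + 2) n := fun h => (x.1, Function.update x.2 1 h)
  have hupd : Continuous upd :=
    continuous_const.prodMk (continuous_const.update 1 continuous_id)
  have hUh : ∀ᶠ h in 𝓝 (x.2 1), upd h ∈ V ∧ Sg (upd h) ∈ N := by
    have e : upd (x.2 1) = x := by simp [upd, Function.update_eq_self]
    have ht : Tendsto upd (𝓝 (x.2 1)) (𝓝 x) := by
      have := hupd.tendsto (x.2 1)
      rwa [e] at this
    exact ht.eventually hU
  have hc0 : Cyclic (bd (J 0) (x.2 0)) := h0.conj (hx.2.1 0)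
  obtain ⟨h', ⟨hV', hN'⟩, hd', hsc⟩ := exists_scalar_pair_near hc0 (hJd 1) h1 (hx.2.1 1) hUh
  obtain ⟨hrep, -, hr2⟩ := hSg (upd h') hV' (fun k _ => hx.1 k) (fun j => by
    rcases eq_or_ne j 1 with rfl | hj
    · simpa [upd] using hd'
    · simpa [upd, hj] using hx.2.1 j)
  set r := Sg (upd h') with hr
  have hr20 : r.2 0 = x.2 0 := by
    rw [hr2]; simp [upd, Function.update_of_ne]
  have hr21 : r.2 1 = h' := by rw [hr2]; simp [upd]
  obtain ⟨τ, V', hVo', hVm', hτc, hτ0, hτ⟩ := bd_section (by omega) hJd hrep.2.1 fun T hT =>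
    hsc T (by have := hT 0; rw [hr20] at this; exact this.symm)
      (by have := hT 1; rw [hr21] at this; exact this.symm)
  -- the boundary follows the pair
  have hKr : (cm (r.1 0)).adjugate = bdProd J r.2 := by
    have h := hrep.2.2
    have hcd := det_cm (hrep.1 0).1 (hrep.1 0).2
    simp only [hprod, bdList, List.ofFn_succ, List.ofFn_zero, List.prod_cons, List.prod_nil,
      Matrix.mul_one] at h
    calc (cm (r.1 0)).adjugate = (cm (r.1 0)).adjugate * (cm (r.1 0) * bdProd J r.2) := by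
          rw [bdProd, List.ofFn_succ, List.ofFn_succ, List.prod_cons, List.prod_cons, h,
            Matrix.mul_one]
      _ = bdProd J r.2 := by rw [← Matrix.mul_assoc, adj_mul_one hcd, Matrix.one_mul]
  let G : Pair n → St 1 (s + 2) n := fun q => (fun _ => q, τ (cm q).adjugate)
  have hG0 : G (r.1 0) = r := Prod.ext (funext fun i => by rw [Subsingleton.elim i 0])
    (by show τ _ = r.2; rw [hKr, hτ0])
  have hk : ContinuousAt (fun q : Pair n => (cm q).adjugate) (r.1 0) :=
    (continuous_cm.matrix_adjugate).continuousAt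
  have hGc : ContinuousAt G (r.1 0) := by
    refine ContinuousAt.prodMk (continuousAt_pi.2 fun _ => continuousAt_id) ?_
    exact ContinuousAt.comp' (g := τ) (hτc.continuousAt (hVo'.mem_nhds (by rw [hKr]; exact hVm'))) hk
  have hev : ∀ᶠ q in 𝓝 (r.1 0), (cm q).adjugate ∈ V' ∧ G q ∈ N := by
    refine Filter.Eventually.and ?_ ?_
    · exact hk.preimage_mem_nhds (hVo'.mem_nhds (by rw [hKr]; exact hVm'))
    · exact hGc.preimage_mem_nhds (hNo.mem_nhds (by rw [hG0]; exact hN'))
  obtain ⟨q, ⟨hqV, hqN⟩, hq1, hqH⟩ := dense_hy (hrep.1 0) hev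
  have hcd := det_cm hq1.1 hq1.2
  obtain ⟨e1, e2⟩ := hτ _ hqV (det_adj_one hcd)
  refine hN _ hqN (hgood _ ⟨fun _ => hq1, e1, ?_⟩ hqH)
  show (List.ofFn fun _ : Fin 1 => cm q).prod * bdProd J (τ (cm q).adjugate) = 1
  rw [e2, List.ofFn_succ, List.ofFn_zero, List.prod_cons, List.prod_nil, Matrix.mul_one,
    mul_adj_one hcd]

/-- Genus one: if the integral representations are dense, so are the irreducible ones. -/
theorem eval_zero_all_of_irr_one (hn : 2 ≤ n) (hR : ∀ z ∈ R, z ∈ Vale.Agent.P002.Surface.acl (∅ : Set ℂ))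
    (hJ : ∀ j a b, J j a b ∈ Vale.Agent.P002.Surface.acl (∅ : Set ℂ)) (hJd : ∀ j, (J j).det = 1)
    (h0 : Cyclic (J 0)) (h1 : ∀ c : ℂ, J 1 ≠ c • (1 : Mat n))
    (hall : ∀ x : St 1 (s + 2) n, PRep J x → Zd R J x) {p : MvPolynomial (Var 1 (s + 2) n) ℂ}
    (hp : ∀ a : St 1 (s + 2) n, PRep J a → IntSt R a → (∃ i, PairIrr (a.1 i)) →
      MvPolynomial.eval (sev a) p = 0)
    {x : St 1 (s + 2) n} (hx : PRep J x) : MvPolynomial.eval (sev x) p = 0 :=
  zdOn_of_hy_one (Q := fun a => ∃ i, PairIrr (a.1 i)) hn hR hJ hJd h0 h1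
    (fun _ hy hk q hq => eval_zero_of_irr hall hq hy (i := 0) hk.1) x hx p hp

end P002Punct
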