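import Vale.Agent.P002Punct.Count
import Vale.Agent.P002Punct.Lines

/-!
Regular matrices: cyclic vectors, commutants, and partners with scalar joint commutant.
-/

namespace P002Punct

open Matrix P002Surf Module

variable {n : ℕ}

/-- The matrix has a cyclic vector. -/
def Cyclic (J : Mat n) : Prop :=
  ∃ v : Fin n → ℂ, LinearIndependent ℂ fun k : Fin n => (J ^ (k : ℕ)) *ᵥ v

/-- A matrix killing the translates of a cyclic vector vanishes. -/
theorem eq_zero_of_cyclic {J X : Mat n} {v : Fin n → ℂ}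
    (hv : LinearIndependent ℂ fun k : Fin n => (J ^ (k : ℕ)) *ᵥ v)
    (h : ∀ k : Fin n, X *ᵥ ((J ^ (k : ℕ)) *ᵥ v) = 0) : X = 0 := by
  rcases Nat.eq_zero_or_pos n with rfl | hn
  · exact Subsingleton.elim _ _
  have : Nonempty (Fin n) := ⟨⟨0, hn⟩⟩
  let b := basisOfLinearIndependentOfCardEqFinrank hv (by simp)
  refine Matrix.toLin'.injective (b.ext fun k => ?_)
  rw [coe_basisOfLinearIndependentOfCardEqFinrank]
  simpa using h k

theorem mulVec_pow_of_sol {B J X : Mat n} (h : B * X = X * J) (k : ℕ) :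
    X * J ^ k = B ^ k * X := by
  induction k with
  | zero => simp
  | succ k ih => rw [pow_succ, ← Matrix.mul_assoc, ih, Matrix.mul_assoc, ← h, ← Matrix.mul_assoc,
      ← pow_succ]

/-- Intertwiners out of a regular matrix depend on one vector. -/
theorem finrank_sol_cyclic {J : Mat n} (hJ : Cyclic J) (B : Mat n) :
    finrank ℂ (Vale.Agent.P002.Surface.sol B J) ≤ n := by
  obtain ⟨v, hv⟩ := hJ
  let f : Vale.Agent.P002.Surface.sol B J →ₗ[ℂ] (Fin n → ℂ) :=
    { toFun := fun X => (X : Mat n) *ᵥ v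
      map_add' := fun X Y => Matrix.add_mulVec _ _ _
      map_smul' := fun a X => Matrix.smul_mulVec _ _ _ }
  have hf : Function.Injective f := by
    rw [← LinearMap.ker_eq_bot, LinearMap.ker_eq_bot']
    intro X hX
    refine Subtype.ext (eq_zero_of_cyclic hv fun k => ?_)
    rw [Matrix.mulVec_mulVec, mulVec_pow_of_sol (Vale.Agent.P002.Surface.mem_sol.1 X.2),
      ← Matrix.mulVec_mulVec, show (X : Mat n) *ᵥ v = 0 from hX, Matrix.mulVec_zero]
  simpa using LinearMap.finrank_le_finrank_of_injective hf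

/-- The commutant of a regular matrix: polynomials of degree below `n`. -/
theorem Cyclic.eq_sum {J T : Mat n} {v : Fin n → ℂ}
    (hv : LinearIndependent ℂ fun k : Fin n => (J ^ (k : ℕ)) *ᵥ v) (hT : J * T = T * J) :
    ∃ a : Fin n → ℂ, T = ∑ k, a k • J ^ (k : ℕ) := by
  rcases Nat.eq_zero_or_pos n with rfl | hn
  · exact ⟨0, Subsingleton.elim _ _⟩
  have : Nonempty (Fin n) := ⟨⟨0, hn⟩⟩
  let b := basisOfLinearIndependentOfCardEqFinrank hv (by simp)
  refine ⟨fun k => b.repr (T *ᵥ v) k, sub_eq_zero.1 (eq_zero_of_cyclic hv fun k => ?_)⟩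
  set a : Fin n → ℂ := fun k => b.repr (T *ᵥ v) k
  have hS : Commute (J ^ (k : ℕ)) (T - ∑ i, a i • J ^ (i : ℕ)) :=
    (((show Commute J T from hT).pow_left _).sub_right
      (Commute.sum_right _ _ _ fun i _ => (Commute.pow_pow (Commute.refl J) _ _).smul_right _))
  have h0 : (T - ∑ i, a i • J ^ (i : ℕ)) *ᵥ v = 0 := by
    rw [Matrix.sub_mulVec, Matrix.sum_mulVec, sub_eq_zero]
    conv_lhs => rw [← b.sum_repr (T *ᵥ v)]
    simp [a, b, Matrix.smul_mulVec]
  rw [Matrix.mulVec_mulVec, ← hS.eq, ← Matrix.mulVec_mulVec, h0, Matrix.mulVec_zero]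

theorem Cyclic.conj {J P : Mat n} (hJ : Cyclic J) (hP : P.det = 1) :
    Cyclic (P * J * P.adjugate) := by
  obtain ⟨v, hv⟩ := hJ
  refine ⟨P *ᵥ v, ?_⟩
  have e : ∀ k : ℕ, (P * J * P.adjugate) ^ k * P = P * J ^ k := by
    intro k
    induction k with
    | zero => simp
    | succ k ih =>
      rw [pow_succ, Matrix.mul_assoc ((P * J * P.adjugate) ^ k), Matrix.mul_assoc (P * J),
        adj_mul_one hP, Matrix.mul_one, ← Matrix.mul_assoc, ih, Matrix.mul_assoc, ← pow_succ]
  simp only [Matrix.mulVec_mulVec, e]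
  simp only [← Matrix.mulVec_mulVec]
  exact hv.map' (Matrix.toLin' P)
    (LinearMap.ker_eq_bot.2 (Matrix.mulVec_injective_iff_isUnit.2
      ((Matrix.isUnit_iff_isUnit_det P).2 (by rw [hP]; exact isUnit_one))))

theorem Cyclic.adjugate {J : Mat n} (hJ : Cyclic J) (hd : J.det = 1) : Cyclic J.adjugate := by
  obtain ⟨v, hv⟩ := hJ
  refine ⟨v, LinearIndependent.of_comp (Matrix.toLin' (J ^ (n - 1))) ?_⟩
  have e : Matrix.toLin' (J ^ (n - 1)) ∘ (fun k : Fin n => (J.adjugate ^ (k : ℕ)) *ᵥ v) =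
      (fun k : Fin n => (J ^ (k : ℕ)) *ᵥ v) ∘ Fin.rev := by
    funext k
    have hk : n - 1 = ((Fin.rev k : Fin n) : ℕ) + k := by simp [Fin.val_rev]; omega
    have hc : J * J.adjugate = 1 := mul_adj_one hd
    have hp : ∀ m : ℕ, J ^ m * J.adjugate ^ m = 1 := fun m => by
      rw [← (Commute.mul_pow (show Commute J J.adjugate from hc.trans (adj_mul_one hd).symm) m), hc,
        one_pow]
    simp only [Function.comp_apply, Matrix.toLin'_apply, Matrix.mulVec_mulVec]
    rw [hk, pow_add, Matrix.mul_assoc, hp, Matrix.mul_one]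
  rw [e]
  exact hv.comp _ Fin.rev_injective

/-- A matrix whose minimal polynomial is its characteristic polynomial is regular. -/
theorem cyclic_of_minpoly {J : Mat n} (h : minpoly ℂ J = J.charpoly) : Cyclic J := by
  classical
  set f := J.charpoly with hf
  have hf0 : f ≠ 0 := (Matrix.charpoly_monic J).ne_zero
  let S : Set (Polynomial ℂ) := (fun z => f /ₘ (Polynomial.X - Polynomial.C z)) '' {z | f.IsRoot z}
  have hSfin : S.Finite := (Polynomial.finite_setOfPred_isRoot hf0).image _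
  have := hSfin.to_subtype
  obtain ⟨v, hv⟩ : ∃ v : Fin n → ℂ, ∀ q : S, v ∉ LinearMap.ker
      (Matrix.toLin' (Polynomial.aeval J (q : Polynomial ℂ))) := by
    refine Submodule.exists_forall_notMem_of_forall_ne_top _ fun q hq => ?_
    obtain ⟨z, hz, hqz⟩ := q.2
    rw [LinearMap.ker_eq_top, map_eq_zero_iff _ Matrix.toLin'.injective] at hq
    have hd := minpoly.dvd ℂ J hq
    rw [h] at hd
    have hfac := Polynomial.mul_divByMonic_eq_iff_isRoot.2 hz
    have hq0 : (q : Polynomial ℂ) ≠ 0 := fun h0 => hf0 (by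
      rw [← hfac, show f /ₘ (Polynomial.X - Polynomial.C z) = 0 from hqz.trans h0, mul_zero])
    have h1 := Polynomial.natDegree_le_of_dvd hd hq0
    rw [← hfac, show f /ₘ (Polynomial.X - Polynomial.C z) = (q : Polynomial ℂ) from hqz,
      Polynomial.natDegree_mul (Polynomial.X_sub_C_ne_zero z) hq0,
      Polynomial.natDegree_X_sub_C] at h1
    omega
  refine ⟨v, Fintype.linearIndependent_iff.2 fun a ha => ?_⟩
  set p : Polynomial ℂ := ∑ k : Fin n, Polynomial.monomial (k : ℕ) (a k) with hp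
  have hpv : Polynomial.aeval J p *ᵥ v = 0 := by
    rw [← ha, hp, map_sum, Matrix.sum_mulVec]
    refine Finset.sum_congr rfl fun k _ => ?_
    rw [Polynomial.aeval_monomial, ← Algebra.smul_def, Matrix.smul_mulVec]
  suffices hp0 : p = 0 by
    intro i
    have := congrArg (fun q => Polynomial.coeff q (i : ℕ)) hp0
    simp only [hp, Polynomial.finsetSum_coeff, Polynomial.coeff_monomial, Polynomial.coeff_zero] at this
    rw [Finset.sum_eq_single i (fun k _ hk => if_neg fun e => hk (Fin.ext e)) (by simp),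
      if_pos rfl] at this
    exact this
  by_contra hp0
  have hab := EuclideanDomain.gcd_eq_gcd_ab p f
  set d := EuclideanDomain.gcd p f with hd
  clear_value d
  have hdv : Polynomial.aeval J d *ᵥ v = 0 := by
    have e : Polynomial.aeval J f = 0 := Matrix.aeval_self_charpoly J
    rw [hab, mul_comm p, mul_comm f, map_add, map_mul, map_mul, e, mul_zero, add_zero,
      ← Matrix.mulVec_mulVec, hpv, Matrix.mulVec_zero]
  have hdp : d ∣ p := hd ▸ EuclideanDomain.gcd_dvd_left p f
  obtain ⟨u, hu⟩ := EuclideanDomain.gcd_dvd_right p f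
  rw [← hd] at hu
  have hdeg : p.natDegree < n := by
    rcases Nat.eq_zero_or_pos n with rfl | hn
    · exact absurd (by simp [hp]) hp0
    refine lt_of_le_of_lt (Polynomial.natDegree_sum_le_of_forall_le (n := n - 1) _ _ fun k _ => ?_)
      (by omega)
    exact (Polynomial.natDegree_monomial_le _).trans (by omega)
  have hu1 : 0 < u.natDegree := by
    have h1 : f.natDegree = n := by
      rw [hf, Matrix.charpoly_natDegree_eq_dim, Fintype.card_fin]
    have h2 := Polynomial.natDegree_le_of_dvd hdp hp0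
    have hdu : d ≠ 0 ∧ u ≠ 0 := mul_ne_zero_iff.1 (hu ▸ hf0)
    rw [hu, Polynomial.natDegree_mul hdu.1 hdu.2] at h1
    omega
  obtain ⟨z, hz⟩ := IsAlgClosed.exists_root u fun h0 => by
    rw [Polynomial.natDegree_eq_zero_iff_degree_le_zero.2 h0.le] at hu1; exact lt_irrefl _ hu1
  have hzf : f.IsRoot z := hz.dvd ⟨d, by rw [hu, mul_comm]⟩
  refine hv ⟨_, z, hzf, rfl⟩ ?_
  obtain ⟨w, hw⟩ := Polynomial.dvd_iff_isRoot.2 hz
  have e : f /ₘ (Polynomial.X - Polynomial.C z) = w * d := by
    conv_lhs => rw [hu, hw, mul_left_comm, Polynomial.mul_divByMonic_cancel_left _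
      (Polynomial.monic_X_sub_C z), mul_comm]
  rw [LinearMap.mem_ker, Matrix.toLin'_apply]
  simp only [e]
  rw [map_mul, ← Matrix.mulVec_mulVec, hdv,
    Matrix.mulVec_zero]

/-- A nonscalar class has a member with only scalars in common with the commutant of a regular
matrix. -/
theorem exists_conj_scalar {J0 J : Mat n} (hJ0 : Cyclic J0) (hJd : J.det = 1)
    (hns : ∀ c : ℂ, J ≠ c • (1 : Mat n)) :
    ∃ h : Mat n, h.det = 1 ∧ ∀ T, J0 * T = T * J0 → bd J h * T = T * bd J h →
      ∃ c : ℂ, T = c • (1 : Mat n) := by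
  classical
  have hn : 0 < n := by
    rcases Nat.eq_zero_or_pos n with rfl | hn
    · exact absurd (Subsingleton.elim _ _) (hns 0)
    · exact hn
  have : Nonempty (Fin n) := ⟨⟨0, hn⟩⟩
  obtain ⟨v, hv⟩ := hJ0
  let b := basisOfLinearIndependentOfCardEqFinrank hv (by simp)
  obtain ⟨lam, hlam⟩ := IsAlgClosed.exists_root J.charpoly (by
    rw [Matrix.charpoly_degree_eq_dim, Fintype.card_fin]
    exact_mod_cast hn.ne')
  obtain ⟨w, hw0, hw⟩ := Vale.Agent.P002.Surface.exists_eigenvector hlam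
  let L : (Fin n → ℂ) →ₗ[ℂ] (Fin n → ℂ) := Matrix.toLin' (J - lam • (1 : Mat n))
  set W := LinearMap.ker L with hW
  have hWmem : ∀ u, u ∈ W ↔ J *ᵥ u = lam • u := fun u => by
    simp [hW, L, sub_eq_zero]
  obtain ⟨U, hU⟩ := W.exists_isCompl
  set d := finrank ℂ W with hd
  have hd1 : 1 ≤ d := Submodule.one_le_finrank_iff.2 fun h => hw0
    ((Submodule.mem_bot ℂ).1 (h ▸ (hWmem w).2 hw))
  have hdn : d + finrank ℂ U = n := by
    rw [hd, Submodule.finrank_add_eq_of_isCompl hU, Module.finrank_fin_fun]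
  have hU1 : 1 ≤ finrank ℂ U := by
    by_contra h0
    have hWtop : W = ⊤ := Submodule.eq_top_of_finrank_eq (by rw [Module.finrank_fin_fun, ← hd]; omega)
    refine hns lam (Matrix.toLin'.injective (LinearMap.ext fun u => ?_))
    simpa [Matrix.smul_mulVec] using (hWmem u).1 (hWtop ▸ Submodule.mem_top)
  let B : Basis (Fin n) ℂ (Fin n → ℂ) :=
    (((finBasis ℂ W).prod (finBasis ℂ U)).map (Submodule.prodEquivOfIsCompl W U hU)).reindex
      (finSumFinEquiv.trans (finCongr hdn))
  have hBlow : ∀ i : Fin n, (i : ℕ) < d → B i ∈ W := by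
    intro i hi
    have e : (finSumFinEquiv.trans (finCongr hdn)).symm i = Sum.inl (⟨i, hi⟩ : Fin d) := by
      rw [Equiv.symm_apply_eq]; ext; simp
    simp only [B, Basis.reindex_apply, e, Basis.map_apply]
    simp
  have hBspan : ∀ u ∈ W, ∀ i : Fin n, d ≤ (i : ℕ) → B.repr u i = 0 := by
    intro u hu i hi
    have e : (finSumFinEquiv.trans (finCongr hdn)).symm i =
        Sum.inr (⟨(i : ℕ) - d, by omega⟩ : Fin (finrank ℂ U)) := by
      rw [Equiv.symm_apply_eq]
      ext
      simp
      omega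
    simp only [B, Basis.repr_reindex_apply, e]
    simp [Submodule.prodEquivOfIsCompl_symm_apply_left W U hU ⟨u, hu⟩]
  let e := B.equiv b (Equiv.refl _)
  let P : Mat n := LinearMap.toMatrix' e.toLinearMap
  have hPmul : ∀ u, P *ᵥ u = e u := fun u => by
    rw [← Matrix.toLin'_apply, Matrix.toLin'_toMatrix']; rfl
  have hPd : P.det ≠ 0 := by
    rw [LinearMap.det_toMatrix']
    exact (LinearEquiv.isUnit_det' e).ne_zero
  obtain ⟨c, hc⟩ := IsAlgClosed.exists_pow_nat_eq P.det⁻¹ hn
  have hhd : (c • P).det = 1 := by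
    rw [Matrix.det_smul, Fintype.card_fin, hc, inv_mul_cancel₀ hPd]
  have hc0 : c ≠ 0 := fun h => by
    rw [h, zero_pow hn.ne', eq_comm, inv_eq_zero] at hc
    exact hPd hc
  refine ⟨c • P, hhd, fun T hT0 hT => ?_⟩
  -- the commutant preserves the span of the first `d` basis vectors
  have hTW : ∀ i : Fin n, (i : ℕ) < d → ∃ u ∈ W, T *ᵥ b i = e u := by
    intro i hi
    have e1 : T *ᵥ b i = e (e.symm (T *ᵥ b i)) := (e.apply_symm_apply _).symm
    refine ⟨_, (hWmem _).2 ?_, e1⟩
    set h := c • P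
    have hh : ∀ u, h *ᵥ u = c • e u := fun u => by simp [h, Matrix.smul_mulVec, hPmul]
    have hbi : bd J h *ᵥ b i = lam • b i := by
      have : b i = e (B i) := by simp [e]
      have h1 : h *ᵥ B i = c • b i := by rw [hh, this]
      have h2 : bd J h *ᵥ (h *ᵥ B i) = lam • (h *ᵥ B i) := by
        rw [bd, Matrix.mulVec_mulVec, Matrix.mul_assoc _ h.adjugate h, adj_mul_one hhd,
          Matrix.mul_one, ← Matrix.mulVec_mulVec, (hWmem _).1 (hBlow i hi), Matrix.mulVec_smul]
      rw [h1, Matrix.mulVec_smul, smul_comm] at h2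
      exact smul_right_injective _ hc0 h2
    have hTb : bd J h *ᵥ (T *ᵥ b i) = lam • (T *ᵥ b i) := by
      rw [Matrix.mulVec_mulVec, hT, ← Matrix.mulVec_mulVec, hbi, Matrix.mulVec_smul]
    set u := e.symm (T *ᵥ b i)
    have hu : h *ᵥ u = c • (T *ᵥ b i) := by rw [hh, e.apply_symm_apply]
    have : h *ᵥ (J *ᵥ u) = h *ᵥ (lam • u) := by
      rw [Matrix.mulVec_smul, hu, smul_comm, ← hTb, ← Matrix.mulVec_smul, ← hu, bd,
        Matrix.mulVec_mulVec, Matrix.mulVec_mulVec, Matrix.mul_assoc _ h.adjugate h,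
        adj_mul_one hhd, Matrix.mul_one]
    exact Matrix.mulVec_injective_iff_isUnit.2
      ((Matrix.isUnit_iff_isUnit_det h).2 (by rw [hhd]; exact isUnit_one)) this
  obtain ⟨a, ha⟩ := Cyclic.eq_sum hv hT0
  have hlow : ∀ i : Fin n, (i : ℕ) < d → ∀ k : Fin n, d ≤ (k : ℕ) → b.repr (T *ᵥ b i) k = 0 := by
    intro i hi k hk
    obtain ⟨u, hu, hu'⟩ := hTW i hi
    rw [hu']
    simpa [e, Basis.equiv] using hBspan u hu k hk
  have hk0 : ∀ k : Fin n, 1 ≤ (k : ℕ) → a k = 0 := by
    by_contra hne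
    push Not at hne
    obtain ⟨k0, hk0, hk0'⟩ := hne
    obtain ⟨k, hkmem, hkmax⟩ := Finset.exists_max_image
      (Finset.univ.filter fun k : Fin n => a k ≠ 0) (fun k => (k : ℕ))
      ⟨k0, by simp [hk0']⟩
    have hka : a k ≠ 0 := (Finset.mem_filter.1 hkmem).2
    have hk1 : 1 ≤ (k : ℕ) := hk0.trans (hkmax k0 (by simp [hk0']))
    have hdn' : d < n := by omega
    let i : Fin n := ⟨d - k, by omega⟩
    have hi : (i : ℕ) < d := by show d - (k : ℕ) < d; omega
    have hsum : T *ᵥ b i = ∑ m, a m • (J0 ^ ((m : ℕ) + i) *ᵥ v) := by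
      rw [ha, Matrix.sum_mulVec]
      simp [b, Matrix.smul_mulVec, Matrix.mulVec_mulVec, ← pow_add]
    rcases le_or_gt (k : ℕ) d with hkd | hkd
    · have h0 := hlow i hi ⟨d, hdn'⟩ le_rfl
      rw [hsum, map_sum, Finsupp.finsetSum_apply, Finset.sum_eq_single k] at h0
      · have e2 : (k : ℕ) + i = d := by show (k : ℕ) + (d - k) = d; omega
        rw [e2, map_smul, Finsupp.smul_apply,
          show J0 ^ d *ᵥ v = b ⟨d, hdn'⟩ by simp [b], b.repr_self, Finsupp.single_eq_same,
          smul_eq_mul, mul_one] at h0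
        exact hka h0
      · intro m _ hm
        by_cases hma : a m = 0
        · simp [hma]
        have hmk : (m : ℕ) < k := lt_of_le_of_ne (hkmax m (by simp [hma]))
          fun h => hm (Fin.ext h)
        have hmn : (m : ℕ) + i < n := by show (m : ℕ) + (d - k) < n; omega
        rw [map_smul, Finsupp.smul_apply,
          show J0 ^ ((m : ℕ) + i) *ᵥ v = b ⟨(m : ℕ) + i, hmn⟩ by simp [b], b.repr_self,
          Finsupp.single_eq_of_ne (fun h => by
            have := congrArg Fin.val h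
            simp only at this
            change d = (m : ℕ) + (d - k) at this
            omega), smul_zero]
      · simp
    · let o : Fin n := ⟨0, hn⟩
      have h0 := hlow o (by show 0 < d; omega) k hkd.le
      rw [ha, Matrix.sum_mulVec] at h0
      simp only [Matrix.smul_mulVec, show b o = v by simp [b, o]] at h0
      have e3 : ∀ m : Fin n, J0 ^ (m : ℕ) *ᵥ v = b m := fun m => by simp [b]
      simp only [e3, map_sum, map_smul, b.repr_self, Finsupp.finsetSum_apply, Finsupp.smul_apply,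
        Finsupp.single_apply, smul_eq_mul, mul_ite, mul_one, mul_zero, Finset.sum_ite_eq',
        Finset.mem_univ, if_true] at h0
      exact hka h0
  refine ⟨a ⟨0, hn⟩, ?_⟩
  rw [ha, Finset.sum_eq_single (⟨0, hn⟩ : Fin n)
    (fun k _ hk => by
      rw [hk0 k (Nat.one_le_iff_ne_zero.2 fun h => hk (Fin.ext h)), zero_smul]) (by simp)]
  simp

end P002Punct
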