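import Vale.Agent.P002Punct.One.Main
import Vale.Agent.P002Punct.One.Fibre
import Vale.Agent.P002Punct.One.Keys

/-!
The seed in genus one: from the point of the seed family a generic point in the same fibre of the
commutator, where all keys have independent spectra.
-/

namespace P002Punct

open Matrix Filter Topology P002Surf

open scoped Matrix.Norms.Operator

variable {s n : ℕ}

/-- Parameters of a fibre: gauge and two tori. -/
abbrev FCo (n : ℕ) := (Fin n × Fin n) ⊕ (Fin n ⊕ Fin n)

/-- The gauge parameter. -/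
def fG (q : FCo n → ℂ) : Mat n := Matrix.of fun i j => q (.inl (i, j))

/-- The first torus parameter. -/
def fe (q : FCo n → ℂ) : Fin n → ℂ := fun i => q (.inr (.inl i))

/-- The second torus parameter. -/
def ft (q : FCo n → ℂ) : Fin n → ℂ := fun i => q (.inr (.inr i))

theorem continuous_fG : Continuous (fG (n := n)) :=
  continuous_pi fun _ => continuous_pi fun _ => continuous_apply _

theorem continuous_fe : Continuous (fe (n := n)) := continuous_pi fun _ => continuous_apply _

theorem continuous_ft : Continuous (ft (n := n)) := continuous_pi fun _ => continuous_apply _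

theorem continuous_sub_tv (j : Fin n) (h : (j : ℕ) + 1 < n) : Continuous fun t : ℂ => tv j h t := by
  refine continuous_pi fun a => continuous_pi fun b => ?_
  simp only [tv, transvection, Matrix.add_apply, Matrix.single_apply]
  refine continuous_const.add ?_
  split_ifs
  exacts [continuous_id, continuous_const]

/-- The gauge depends continuously on its start. -/
theorem continuousAt_gauge {C G₀ : Mat n} (h : Ok C G₀) :
    ∀ k, ContinuousAt (fun G => gauge C G k) G₀ ∧ ContinuousAt (fun G => mid C G k) G₀ := by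
  have hmid : ∀ k, ContinuousAt (fun G => gauge C G k) G₀ →
      ContinuousAt (fun G => mid C G k) G₀ := fun k hk =>
    (hk.mul continuousAt_const).mul
      (ContinuousAt.comp' (continuousAt_minv (by rw [det_gauge]; exact h.1)) hk)
  intro k
  induction k with
  | zero => exact ⟨continuousAt_id, hmid 0 continuousAt_id⟩
  | succ k ih =>
    suffices h' : ContinuousAt (fun G => gauge C G (k + 1)) G₀ from ⟨h', hmid _ h'⟩
    by_cases hk : k + 1 < n
    · simp only [P002Surf.gauge, dif_pos hk]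
      refine ContinuousAt.mul (ContinuousAt.comp' (continuous_sub_tv _ _).continuousAt ?_) ih.1
      exact (continuousAt_const.sub
        ((continuous_minor ⟨k, (Nat.lt_succ_self k).trans hk⟩).continuousAt.comp' ih.2)).div
          ((continuous_id.matrix_submatrix _ _).matrix_det.continuousAt.comp' ih.2)
          (h.2 ⟨k, (Nat.lt_succ_self k).trans hk⟩ hk)
    · simp only [P002Surf.gauge, dif_neg hk]
      exact ih.1

theorem continuousAt_dd {e₀ : Fin n → ℂ} (h : ∀ i, e₀ i ≠ 0) : ContinuousAt (dd (n := n)) e₀ :=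
  continuousAt_pi.2 fun k => ((continuous_apply k).pow n).continuousAt.div
    (continuous_finsetProd _ fun l _ => continuous_apply l).continuousAt
    (Finset.prod_ne_zero_iff.2 fun l _ => h l)

/-- The parameters where the fibre map works form an open set. -/
theorem eventually_fibOk' {C : Mat n} {q₀ : FCo n → ℂ}
    (h : FibOk C (fG q₀) (fe q₀) (ft q₀)) :
    ∀ᶠ q in 𝓝 q₀, FibOk C (fG q) (fe q) (ft q) := by
  obtain ⟨hok, he, hinj, ht⟩ := h
  have hG := continuous_fG.continuousAt (x := q₀)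
  have a1 : ∀ᶠ q in 𝓝 q₀, (fG q).det ≠ 0 :=
    (continuous_fG.matrix_det.continuousAt).eventually_ne hok.1
  have a2 : ∀ᶠ q in 𝓝 q₀, ∀ (j : Fin n) hj, P002Surf.sub (mid C (fG q) j) j hj ≠ 0 :=
    eventually_all.2 fun j => eventually_all.2 fun hj =>
      ((continuous_id.matrix_submatrix _ _).matrix_det.continuousAt.comp'
        (ContinuousAt.comp' (g := fun G => mid C G j) (continuousAt_gauge hok _).2 hG)).eventually_ne
        (hok.2 j hj)
  have a3 : ∀ᶠ q in 𝓝 q₀, ∀ i, fe q i ≠ 0 := eventually_all.2 fun i =>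
    (((continuous_apply i).comp continuous_fe).continuousAt).eventually_ne (he i)
  have a4 : ∀ᶠ q in 𝓝 q₀, ∀ p : {p : Fin n × Fin n // p.1 ≠ p.2},
      dd (fe q) p.1.1 - dd (fe q) p.1.2 ≠ 0 :=
    eventually_all.2 fun p => by
      have hd : ContinuousAt (fun q : FCo n → ℂ => dd (fe q)) q₀ :=
        (continuousAt_dd he).comp' continuous_fe.continuousAt
      exact (((continuous_apply p.1.1).continuousAt.comp' hd).sub
        ((continuous_apply p.1.2).continuousAt.comp' hd)).eventually_ne
          (sub_ne_zero.2 (hinj.ne p.2))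
  have a5 : ∀ᶠ q in 𝓝 q₀, ∀ i, ft q i ≠ 0 := eventually_all.2 fun i =>
    (((continuous_apply i).comp continuous_ft).continuousAt).eventually_ne (ht i)
  filter_upwards [a1, a2, a3, a4, a5] with q b1 b2 b3 b4 b5
  refine ⟨⟨b1, b2⟩, b3, fun i j hij => ?_, b5⟩
  by_contra hne
  exact b4 ⟨(i, j), hne⟩ (sub_eq_zero.2 hij)

/-- The product of the lower factor's entries just below the diagonal. -/
noncomputable def subFun (C G : Mat n) : ℂ :=
  ∏ j : Fin n, if h : (j : ℕ) + 1 < n then lFac C G (nx j h) j else 1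

theorem subFun_ne {C G : Mat n} : subFun C G ≠ 0 ↔ ∀ j h, lFac C G (nx j h) j ≠ 0 := by
  rw [subFun, Finset.prod_ne_zero_iff]
  refine ⟨fun h j hj => by simpa [dif_pos hj] using h j (Finset.mem_univ j), fun h j _ => ?_⟩
  split_ifs with hj
  exacts [h j hj, one_ne_zero]

/-- The index of the conditions in a fibre. -/
abbrev FCond (s n : ℕ) := Fin 3 ⊕ (Bool × Option (Rel n)) ⊕ (Fin s × Option (Rel n))

/-- The conditions in the fibre over `C`, for boundary products `P`. -/
noncomputable def fcond (C : Mat n) (P : Fin s → Mat n) : FCond s n → (FCo n → ℂ) → ℂ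
  | .inl k => fun q => ![g0Fun (fib C (fG q) (fe q) (ft q)),
      g0Fun (fib C (fG q) (fe q) (ft q)).swap, subFun C (fG q)] k
  | .inr (.inl (b, i)) => fun q =>
      genFun i (cond b (fib C (fG q) (fe q) (ft q)).1 (fib C (fG q) (fe q) (ft q)).2)
  | .inr (.inr (j, i)) => fun q =>
      genFun i ((fib C (fG q) (fe q) (ft q)).2.adjugate * P j)

theorem ratOn_fcond {C : Mat n} (hC : C.det = 1) (P : Fin s → Mat n) {c : ℂ → FCo n → ℂ}
    (hc : ∀ v, RatOn fun t => c t v) (h0 : FibOk C (fG (c 0)) (fe (c 0)) (ft (c 0)))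
    (h1 : FibOk C (fG (c 1)) (fe (c 1)) (ft (c 1))) (k : FCond s n) :
    RatOn fun t => fcond C P k (c t) := by
  have hG : RatM fun t => fG (c t) := fun i j => hc _
  obtain ⟨hA, hB⟩ := ratM_fib (C := fun _ => C) (e := fun t => fe (c t)) (t := fun t => ft (c t))
    (ratM_const C) hG (fun i => hc _) (fun i => hc _) hC hC h0 h1
  rcases k with k | ⟨b, i⟩ | ⟨j, i⟩
  · fin_cases k
    · exact ratOn_g0Fun hA hB
    · exact ratOn_g0Fun hB hA
    · have hm := (ratM_gauge (C := fun _ => C) (ratM_const C) hG h0.1 h1.1 n).2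
      have hne : ∀ {G : Mat n}, Ok C G → ∀ j, minor (mid C G n) j ≠ 0 :=
        fun hok j => by rw [minor_mid hC hok n j j.isLt]; exact one_ne_zero
      have hl : RatM fun t => lFac C (fG (c t)) :=
        hm.mul (ratM_rMat hm (hne h0.1) (hne h1.1))
      show RatOn fun t => subFun C (fG (c t))
      simp only [subFun]
      refine ratOn_prod _ fun j _ => ?_
      by_cases hj : (j : ℕ) + 1 < n
      · simp only [dif_pos hj]; exact hl _ _
      · simp only [dif_neg hj]; exact ratOn_const 1
  · cases b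
    · exact ratOn_genFun hB i
    · exact ratOn_genFun hA i
  · exact ratOn_genFun (hB.adjugate.mul (ratM_const _)) i

theorem exists_fco (G : Mat n) (e t : Fin n → ℂ) :
    ∃ q : FCo n → ℂ, fG q = G ∧ fe q = e ∧ ft q = t :=
  ⟨Sum.elim (fun p => G p.1 p.2) (Sum.elim e t), rfl, rfl, rfl⟩

theorem up_list_prod' {l : List (Mat n)} (h : ∀ M ∈ l, Up M ∧ M.det = 1) :
    Up l.prod ∧ l.prod.det = 1 :=
  ⟨SeedData.up_list_prod fun M hM => (h M hM).1, det_list_prod fun M hM => (h M hM).2⟩

/-- From a point of the closure with generic pair and triangular conjugators to a generic point. -/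
theorem exists_generic_fibre (hn : 0 < n) {R : Subring ℂ} {J : Fin (s + 2) → Mat n}
    (hb : Bidiag (J 0).adjugate) (hup : ∀ j, j ≠ 0 → Up (J j)) (hJd : ∀ j, (J j).det = 1)
    {x : St 1 (s + 2) n} (hr : PRep J x) (hH : Hy1 (x.1 0)) (hz : Zd R J x)
    (hT : ∀ j : Fin (s + 2), j ≠ 0 →
      ((bdPre J x j).adjugate * (cm (x.1 0)).adjugate).trace ≠ (bdPre J x j).adjugate.trace)
    (h0 : x.2 0 = 1) (hh : ∀ j, j ≠ 0 → Up (x.2 j)) :
    ∃ y : St 1 (s + 2) n, Zd R J y ∧ GenericOne J y := by
  classical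
  set K := cm (x.1 0) with hKdef
  have hKd : K.det = 1 := det_cm (hr.1 0).1 (hr.1 0).2
  -- the boundary products
  set l := List.ofFn fun k : Fin (s + 1) => bd (J k.succ) (x.2 k.succ) with hl
  have hlist : bdList J x = J 0 :: l := by
    rw [bdList, List.ofFn_succ, hl]
    congr 1
    rw [h0, bd, Matrix.adjugate_one, Matrix.mul_one, Matrix.one_mul]
  have hlm : ∀ M ∈ l, Up M ∧ M.det = 1 := fun M hM => by
    obtain ⟨k, rfl⟩ := List.mem_ofFn.1 hM
    exact ⟨(up_bd (hup _ (Fin.succ_ne_zero k)) (hh _ (Fin.succ_ne_zero k)) (hr.2.1 _)).1,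
      det_bd (hJd _) (hr.2.1 _)⟩
  obtain ⟨hlu, hld⟩ := up_list_prod' hlm
  have hKW : K * (J 0 * l.prod) = 1 := by
    have h := hr.2.2
    rw [hlist, List.prod_cons, hprod, List.ofFn_succ, List.ofFn_zero, List.prod_cons, List.prod_nil,
      Matrix.mul_one] at h
    exact h
  have hWd : (J 0 * l.prod).det = 1 := by rw [Matrix.det_mul, hJd, hld, one_mul]
  have hKeq : K = l.prod.adjugate * (J 0).adjugate := by
    rw [← Matrix.adjugate_mul_distrib]
    calc K = K * ((J 0 * l.prod) * (J 0 * l.prod).adjugate) := by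
          rw [mul_adj_one hWd, Matrix.mul_one]
      _ = _ := by rw [← Matrix.mul_assoc, hKW, Matrix.one_mul]
  have hKH : Hess K := by
    rw [hKeq]
    refine (up_mul_hess (up_adj hlu hld).1 (hess_of_bidiag hb) fun i => ?_).1
    rw [(up_adj hlu hld).2]
    exact inv_ne_zero (diag_ne_of_up hlu hld i)
  have hPV : ∀ j : Fin (s + 2),
      ∃ V : Mat n, Up V ∧ V.det = 1 ∧ bdPre J x j = K⁻¹ * V := fun j => by
    obtain ⟨hRu, hRd⟩ :=
      up_list_prod' (l := l.drop (j : ℕ)) fun M hM => hlm M (List.mem_of_mem_drop hM)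
    refine ⟨(l.drop (j : ℕ)).prod.adjugate, (up_adj hRu hRd).1, det_adj_one hRd, ?_⟩
    rw [Matrix.inv_eq_right_inv hKW, bdPre, hlist, List.take_succ_cons, List.prod_cons,
      ← List.prod_take_mul_prod_drop l (j : ℕ), Matrix.mul_assoc, Matrix.mul_assoc,
      mul_adj_one hRd, Matrix.mul_one]
  -- parameters
  obtain ⟨G, e, t, hok, hfib⟩ := fib_surj hH.1 hH.2.1
  rw [← hKdef] at hok hfib
  obtain ⟨q₀, rfl, rfl, rfl⟩ := exists_fco G e t
  obtain ⟨U, hU, hUO⟩ := eventually_nhds_iff.1 (eventually_fibOk' hok)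
  obtain ⟨W, hW, hWU⟩ := isOpen_pi_iff'.1 hUO.1 q₀ hUO.2
  have hWok : ∀ q : FCo n → ℂ, (∀ v, q v ∈ W v) → FibOk K (fG q) (fe q) (ft q) :=
    fun q hq => hU q (hWU fun v _ => hq v)
  have hq₀ : ∀ v, q₀ v ∈ W v := fun v => (hW v).2
  set P : Fin (s + 2) → Mat n := fun j => bdPre J x j with hP
  have hwit : ∀ k, ∃ q, FibOk K (fG q) (fe q) (ft q) ∧ fcond K P k q ≠ 0 := by
    obtain ⟨V₀, hV₀, hV₀d, -⟩ := hPV 0
    rintro (k | ⟨b, i⟩ | ⟨j, i⟩)
    · fin_cases k
      · exact ⟨q₀, hok, by simpa [fcond, hfib] using g0Fun_ne hH.2.2.1⟩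
      · exact ⟨q₀, hok, by simpa [fcond, hfib] using g0Fun_ne hH.2.2.2.1⟩
      · obtain ⟨G', e', t', hok', hs', -⟩ := exists_key hn hKH hKd hV₀ hV₀d none
        obtain ⟨q, rfl, rfl, rfl⟩ := exists_fco G' e' t'
        exact ⟨q, hok', by simpa [fcond] using subFun_ne.2 hs'⟩
    · refine ⟨q₀, hok, ?_⟩
      cases b
      · simpa [fcond, hfib] using Gen.of_indep hH.2.2.2.2.2.1 i
      · simpa [fcond, hfib] using Gen.of_indep hH.2.2.2.2.1 i
    · obtain ⟨V, hV, hVd, hPV'⟩ := hPV j
      obtain ⟨G', e', t', hok', -, hne⟩ := exists_key hn hKH hKd hV hVd i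
      obtain ⟨q, rfl, rfl, rfl⟩ := exists_fco G' e' t'
      exact ⟨q, hok', by simpa [fcond, hP, hPV'] using hne⟩
  have hwitW : ∀ k, ∃ q, (∀ v, q v ∈ W v) ∧ fcond K P k q ≠ 0 := fun k => by
    obtain ⟨q, hq, hne⟩ := hwit k
    let c : ℂ → FCo n → ℂ := fun z v => (1 - z) * q₀ v + z * q v
    have c0 : c 0 = q₀ := funext fun v => by simp [c]
    have c1 : c 1 = q := funext fun v => by simp [c]
    have hrat := ratOn_fcond hKd P (c := c)
      (fun v => (((ratOn_const 1).sub ratOn_id).mul (ratOn_const _)).add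
        (ratOn_id.mul (ratOn_const _))) (by rw [c0]; exact hok) (by rw [c1]; exact hq) k
    have hfin := finite_zeros hrat (Or.inr (by rw [c1]; exact hne))
    have hcc : Continuous c := continuous_pi fun v =>
      ((continuous_const.sub continuous_id).mul continuous_const).add
        (continuous_id.mul continuous_const)
    have hmem : ∀ᶠ z in 𝓝 (0 : ℂ), ∀ v, c z v ∈ W v := eventually_all.2 fun v =>
      ((continuous_apply v).comp hcc).continuousAt.preimage_mem_nhds
        ((hW v).1.mem_nhds (by rw [Function.comp_apply, c0]; exact hq₀ v))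
    obtain ⟨z, hz1, hz2⟩ := ((infinite_of_mem_nhds 0 hmem).sdiff hfin).nonempty
    exact ⟨c z, hz1, hz2⟩
  have hG : ∀ k, RatBox W (fcond K P k) := fun k y hy a c₀ h₀ c₁ h₁ => by
    refine ratOn_fcond hKd P (c := fun z => Function.update y a ((1 - z) * c₀ + z * c₁))
      (fun v => ?_) (hWok _ fun v => ?_) (hWok _ fun v => ?_) k
    · rcases eq_or_ne v a with rfl | hv
      · simp only [Function.update_self]
        exact (((ratOn_const 1).sub ratOn_id).mul (ratOn_const c₀)).add
          (ratOn_id.mul (ratOn_const c₁))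
      · simp only [Function.update_of_ne hv]; exact ratOn_const _
    all_goals rcases eq_or_ne v a with rfl | hv
    · simpa using h₀
    · simpa [Function.update_of_ne hv] using hy v
    · simpa using h₁
    · simpa [Function.update_of_ne hv] using hy v
  obtain ⟨q, -, hq, hne⟩ := box_generic hG (fun v => (hW v).1) hwitW isOpen_univ (Set.mem_univ q₀) hq₀
  have hqok := hWok q hq
  obtain ⟨hsl, hcm⟩ := fib_spec hKd hqok
  have f0 : g0Fun (fib K (fG q) (fe q) (ft q)) ≠ 0 := by simpa [fcond] using hne (.inl 0)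
  have f1 : g0Fun (fib K (fG q) (fe q) (ft q)).swap ≠ 0 := by simpa [fcond] using hne (.inl 1)
  have f2 : subFun K (fG q) ≠ 0 := by simpa [fcond] using hne (.inl 2)
  have fA : ∀ i, genFun i (fib K (fG q) (fe q) (ft q)).1 ≠ 0 := fun i => by
    simpa [fcond] using hne (.inr (.inl (true, i)))
  have fB : ∀ i, genFun i (fib K (fG q) (fe q) (ft q)).2 ≠ 0 := fun i => by
    simpa [fcond] using hne (.inr (.inl (false, i)))
  have fP : ∀ j i, genFun i ((fib K (fG q) (fe q) (ft q)).2.adjugate * bdPre J x j) ≠ 0 :=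
    fun j i => by simpa [fcond, hP] using hne (.inr (.inr (j, i)))
  have gd := good_fib hKd hqok (subFun_ne.1 f2)
  generalize fib K (fG q) (fe q) (ft q) = p at hsl hcm f0 f1 fA fB fP gd
  refine ⟨((fun _ => p, x.2) : St 1 (s + 2) n), zd_of_fibre hn hJd hr hH hz hsl gd hcm,
    ⟨fun _ => hsl, hr.2.1, ?_⟩, ⟨hsl, gd, g0_of_fun f0, g0_of_fun f1, Gen.indep fA hsl.1,
      Gen.indep fB hsl.2, ?_⟩, fun j hj => ?_, fun j => ?_⟩
  · have h := hr.2.2
    simp only [hprod, List.ofFn_succ, List.ofFn_zero, List.prod_cons, List.prod_nil,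
      Matrix.mul_one] at h ⊢
    rw [hcm]
    exact h
  · show (cm p).adjugate.trace ≠ _
    rw [hcm]; exact hH.2.2.2.2.2.2
  · show ((bdPre J x j).adjugate * (cm p).adjugate).trace ≠ (bdPre J x j).adjugate.trace
    rw [hcm]; exact hT j hj
  · show Indep (p.2.adjugate * bdPre J x j)
    exact Gen.indep (fP j) (by
      rw [Matrix.det_mul, det_adj_one hsl.2, det_bdPre_span hJd hr.2.1 j, one_mul])

/-- Seeds in genus one. -/
theorem seedOne (hn : 2 ≤ n) : SeedOne n := by
  obtain ⟨m, ω, ε, e, hm, hω, hε0, hinf, he, hinj, -, hR⟩ := exists_units n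
  refine ⟨ω, hω.isIntegral hm, fun {s} R J hωR _ hb hsp hup hJd hJR => ?_⟩
  obtain ⟨hε, hεi, hu⟩ := hR R hωR
  let S : OneData s n :=
    { J := J, d := dd e, hJb := hb, hJ1 := hsp, hJup := hup, hJd := hJd, hd := hinj,
      hd1 := prod_dd he }
  obtain ⟨x, hz, hr, hH, hT, h, hhu, -, hx2⟩ := S.exists_point hn (R := R) (ε := ε)
    { hJ := hJR
      hdR := fun i => dd_mem (fun k => (hu k k).1) (fun k => (hu k k).2.1) i
      hdiff := fun i j => (hu i j).2.2
      hε := ⟨hε, hεi⟩
      hεinf := hinf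
      hε0 := hε0 }
  refine exists_generic_fibre (by omega) hb hup hJd hr hH hz hT ?_ fun j _ => ?_
  · rw [hx2, Function.update_of_ne]
    simp
  · rw [hx2]
    rcases eq_or_ne j 1 with rfl | hj
    · rwa [Function.update_self]
    · rw [Function.update_of_ne hj]
      exact blockTriangular_one

end P002Punct
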