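import Vale.Agent.P002Punct.One.Companion
import Vale.Agent.P002Punct.One.Section
import Vale.Agent.P002Punct.SeedFam
import Vale.Agent.P002Punct.Box

/-!
The seed family in genus one.  The second conjugator runs through the Borel group; in the Krylov
gauge the inverse of the commutator is the bidiagonal matrix of ones times a unitriangular matrix
with the prescribed characteristic polynomial.  The family is integral on a grid.
-/

namespace P002Punct

open P002Surf Matrix Filter Topology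

open scoped Matrix.Norms.Operator

variable {s n : ℕ}

/-- Parameters: the conjugator (unipotent part, torus), the upper factor, the torus of the pair. -/
abbrev OCo (n : ℕ) := (Fin n × Fin n) ⊕ (Fin n ⊕ ((Fin n × Fin n) ⊕ Fin n))

/-- An upper unitriangular matrix with given entries above the diagonal. -/
def uMat (e : Fin n × Fin n → ℂ) : Mat n :=
  Matrix.of fun i j => if i < j then e (i, j) else if i = j then 1 else 0

theorem upU_uMat (e : Fin n × Fin n → ℂ) : UpU (uMat e) := by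
  refine ⟨fun i j h => ?_, fun i => by simp [uMat]⟩
  have h' : j < i := h
  simp [uMat, not_lt.2 h'.le, h'.ne']

theorem uMat_eq {U : Mat n} (hU : UpU U) : uMat (fun p => U p.1 p.2) = U := by
  ext i j
  simp only [uMat, Matrix.of_apply]
  rcases lt_trichotomy i j with h | rfl | h
  · rw [if_pos h]
  · rw [if_neg (lt_irrefl _), if_pos rfl, hU.2]
  · rw [if_neg h.not_gt, if_neg h.ne', up_zero hU.1 h]

theorem det_uMat (e : Fin n × Fin n → ℂ) : (uMat e).det = 1 :=
  det_one_of_up (upU_uMat e).1 (upU_uMat e).2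

/-- The fixed data. -/
structure OneData (s n : ℕ) where
  /-- The classes. -/
  J : Fin (s + 2) → Mat n
  /-- The spectrum of the first entry in the gauge. -/
  d : Fin n → ℂ
  hJb : Bidiag (J 0).adjugate
  hJ1 : Special (J 1)
  hJup : ∀ j, j ≠ 0 → Up (J j)
  hJd : ∀ j, (J j).det = 1
  hd : Function.Injective d
  hd1 : ∏ i, d i = 1

namespace OneData

variable (S : OneData s n)

/-- The allowed parameters. -/
def box : OCo n → Set ℂ :=
  Sum.elim (fun _ => Set.univ) (Sum.elim (fun _ => {z | z ≠ 0})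
    (Sum.elim (fun _ => Set.univ) fun _ => {z | z ≠ 0}))

theorem isOpen_box : ∀ v : OCo n, IsOpen (box v) := fun v => by
  rcases v with v | v | v | v
  exacts [isOpen_univ, isOpen_ne, isOpen_univ, isOpen_ne]

/-- The conjugator. -/
noncomputable def hh (q : OCo n → ℂ) : Mat n :=
  uMat (fun p => q (.inl p)) * diagonal (dd fun i => q (.inr (.inl i)))

/-- The upper factor with arbitrary last column. -/
def xx (q : OCo n → ℂ) : Mat n := uMat fun p => q (.inr (.inr (.inl p)))

/-- The torus of the pair. -/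
noncomputable def tt (q : OCo n → ℂ) : Fin n → ℂ := dd fun i => q (.inr (.inr (.inr i)))

theorem upU_xx (q : OCo n → ℂ) : UpU (xx q) := upU_uMat _

theorem up_hh (q : OCo n → ℂ) : Up (hh q) := (upU_uMat _).1.mul (blockTriangular_diagonal _)

theorem det_hh {q : OCo n → ℂ} (hq : ∀ v, q v ∈ box v) : (hh q).det = 1 := by
  rw [hh, Matrix.det_mul, det_uMat, det_diagonal, prod_dd fun i => hq (.inr (.inl i)), one_mul]

/-- The conjugators. -/
noncomputable def hv (q : OCo n → ℂ) : Fin (s + 2) → Mat n := Function.update (fun _ => 1) 1 (hh q)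

/-- The product of the classes after the second. -/
def rest : Mat n := (List.ofFn fun j : Fin s => S.J j.succ.succ).prod

/-- The product of the boundary matrices. -/
noncomputable def ww (q : OCo n → ℂ) : Mat n := S.J 0 * (bd (S.J 1) (hh q) * S.rest)

theorem bdProd_hv (q : OCo n → ℂ) : bdProd S.J (hv q) = S.ww q := by
  rw [bdProd, List.ofFn_succ, List.prod_cons, List.ofFn_succ, List.prod_cons, ww, rest]
  congr 1
  · simp [hv, bd, Function.update_of_ne]
  congr 1
  refine congrArg List.prod (congrArg List.ofFn (funext fun j => ?_))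
  have : (j.succ.succ : Fin (s + 2)) ≠ 1 := by simp [Fin.ext_iff]
  simp [hv, bd, Function.update_of_ne this]

theorem up_rest : Up S.rest := by
  refine SeedData.up_list_prod fun M hM => ?_
  obtain ⟨j, rfl⟩ := List.mem_ofFn.1 hM
  exact S.hJup _ (Fin.succ_ne_zero _)

theorem det_rest : S.rest.det = 1 := det_list_prod fun M hM => by
  obtain ⟨j, rfl⟩ := List.mem_ofFn.1 hM
  exact S.hJd _

theorem det_ww {q : OCo n → ℂ} (hq : ∀ v, q v ∈ box v) : (S.ww q).det = 1 := by
  rw [ww, Matrix.det_mul, Matrix.det_mul, S.hJd, det_bd (S.hJd 1) (det_hh hq), S.det_rest]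
  norm_num

theorem adj_ww (q : OCo n → ℂ) :
    (S.ww q).adjugate = S.rest.adjugate * (bd (S.J 1) (hh q)).adjugate * (S.J 0).adjugate := by
  rw [ww, Matrix.adjugate_mul_distrib, Matrix.adjugate_mul_distrib]

theorem hess_K {q : OCo n → ℂ} (hq : ∀ v, q v ∈ box v) :
    Hess (S.ww q).adjugate ∧ ∀ i j : Fin n, (i : ℕ) = j + 1 →
      (S.ww q).adjugate i j = (S.rest i i)⁻¹ * (S.J 1 i i)⁻¹ := by
  obtain ⟨h1, h2⟩ := up_bd (S.hJup 1 (by simp)) (up_hh q) (det_hh hq)
  have hd := det_bd (S.hJd 1) (det_hh hq)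
  obtain ⟨h3, h4⟩ := up_adj h1 hd
  obtain ⟨h5, h6⟩ := up_adj S.up_rest S.det_rest
  have hU := h5.mul h3
  have hUd : ∀ i, (S.rest.adjugate * (bd (S.J 1) (hh q)).adjugate) i i =
      (S.rest i i)⁻¹ * (S.J 1 i i)⁻¹ := fun i => by
    rw [tri_mul_diag Function.injective_id h5 h3, h6, h4, h2]
  obtain ⟨h7, h8⟩ := up_mul_hess hU (hess_of_bidiag S.hJb) fun i => by
    rw [hUd]
    exact mul_ne_zero (inv_ne_zero (diag_ne_of_up S.up_rest S.det_rest i))
      (inv_ne_zero (diag_ne_of_up (S.hJup 1 (by simp)) (S.hJd 1) i))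
  rw [S.adj_ww]
  exact ⟨h7, fun i j h => by rw [h8 i j h, hUd, S.hJb.2.1 i j h, mul_one]⟩

theorem det_kry_ww {q : OCo n → ℂ} (hq : ∀ v, q v ∈ box v) : (kry (S.ww q)).det ≠ 0 := by
  obtain ⟨c, hc⟩ := det_kry_inv (S.det_ww hq)
  rw [hc]
  refine mul_ne_zero ?_ (det_kry_ne (S.hess_K hq).1)
  exact_mod_cast c.ne_zero

/-- The first part of the gauge: the Krylov matrix of the leading columns. -/
noncomputable def gg (q : OCo n → ℂ) : Mat n := kry (lb n * xx q)

theorem hess_lb_xx (q : OCo n → ℂ) : Hess (lb n * xx q) :=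
  (hess_mul_up (hess_of_bidiag bidiag_lb) (upU_xx q).1 fun i => by
    rw [(upU_xx q).2 i]; exact one_ne_zero).1

theorem upU_gg (q : OCo n → ℂ) : UpU (gg q) := by
  refine ⟨up_kry (hess_lb_xx q), fun k => ?_⟩
  have hlb : Hess (lb n) := hess_of_bidiag bidiag_lb
  have e : ∀ i j : Fin n, (i : ℕ) = j + 1 → (lb n * xx q) i j = lb n i j := fun i j h => by
    rw [(hess_mul_up hlb (upU_xx q).1 fun i => by
        rw [(upU_xx q).2]; exact one_ne_zero).2 i j h, (upU_xx q).2 j, mul_one]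
  rw [gg, kry_apply _ k k ⟨0, k.pos⟩ rfl,
    hess_pow_congr (hess_lb_xx q) hlb e (k : ℕ) k ⟨0, k.pos⟩ (by simp)]
  have key : ∀ (m : ℕ) (i j : Fin n), (i : ℕ) = j + m → (lb n ^ m) i j = 1 := by
    intro m
    induction m with
    | zero => intro i j h; rw [pow_zero, show i = j from Fin.ext (by omega), Matrix.one_apply_eq]
    | succ m ih =>
      intro i j h
      rw [hess_pow_step hlb m (l := ⟨(j : ℕ) + m, by have := i.isLt; omega⟩) h rfl, ih _ _ rfl,
        bidiag_lb.2.1 _ _ (by show (i : ℕ) = j + m + 1; omega), mul_one]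
  exact key _ _ _ (by simp)

/-- The middle matrix: the gauge transform of the boundary product. -/
noncomputable def mm (q : OCo n → ℂ) : Mat n :=
  gg q * ((kry (S.ww q))⁻¹ * S.ww q * kry (S.ww q)) * (gg q)⁻¹

/-- The upper factor. -/
noncomputable def uu (q : OCo n → ℂ) : Mat n := (lb n)⁻¹ * S.mm q

theorem lb_uu (q : OCo n → ℂ) : lb n * S.uu q = S.mm q := by
  rw [uu, Matrix.mul_nonsing_inv_cancel_left]
  rw [det_one_of_lo loU_lb.1 loU_lb.2]
  exact isUnit_one

theorem det_gg (q : OCo n → ℂ) : (gg q).det = 1 := det_one_of_up (upU_gg q).1 (upU_gg q).2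

theorem det_mm {q : OCo n → ℂ} (hq : ∀ v, q v ∈ box v) : (S.mm q).det = 1 := by
  have hu := isUnit_det_of_ne (S.det_kry_ww hq)
  rw [mm, Matrix.det_mul, Matrix.det_mul, det_gg, Matrix.det_nonsing_inv (gg q), det_gg,
    Ring.inverse_one, one_mul, mul_one, Matrix.det_mul, Matrix.det_mul, mul_right_comm,
    ← Matrix.det_mul, Matrix.nonsing_inv_mul _ hu, Matrix.det_one, one_mul, S.det_ww hq]

theorem upU_uu {q : OCo n → ℂ} (hq : ∀ v, q v ∈ box v) : UpU (S.uu q) := by
  have hm : ∀ i k : Fin n, (k : ℕ) + 1 < n → S.mm q i k = (lb n * xx q) i k := fun i k hk => by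
    rw [mm, companion_eq (S.det_kry_ww hq)]
    exact (conj_comp (hess_lb_xx q) _).1 i k hk
  have hld : (lb n).det = 1 := det_one_of_lo loU_lb.1 loU_lb.2
  have hcol : ∀ i k : Fin n, (k : ℕ) + 1 < n → S.uu q i k = xx q i k := fun i k hk => by
    have e : xx q = (lb n)⁻¹ * (lb n * xx q) := by
      rw [Matrix.nonsing_inv_mul_cancel_left _ _ (by rw [hld]; exact isUnit_one)]
    rw [e, uu, Matrix.mul_apply, Matrix.mul_apply]
    exact Finset.sum_congr rfl fun l _ => by rw [hm l k hk]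
  have hup : Up (S.uu q) := fun i k h => by
    have h' : (k : ℕ) < i := h
    rw [hcol i k (by have := i.isLt; omega)]
    exact up_zero (upU_xx q).1 h
  refine ⟨hup, fun i => ?_⟩
  by_cases hi : (i : ℕ) + 1 < n
  · rw [hcol i i hi]
    exact (upU_xx q).2 i
  · have hd : (S.uu q).det = 1 := by
      rw [uu, Matrix.det_mul, Matrix.det_nonsing_inv, hld, Ring.inverse_one, S.det_mm hq, one_mul]
    rw [det_of_isUpperTriangular hup, Finset.prod_eq_single i] at hd
    · exact hd
    · intro k _ hk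
      have : (k : ℕ) + 1 < n := by
        have := k.isLt; have : (k : ℕ) ≠ i := fun e => hk (Fin.ext e); omega
      rw [hcol k k this]
      exact (upU_xx q).2 k
    · simp

/-- Any unitriangular factor with the right characteristic polynomial is attained. -/
theorem uu_eq {q : OCo n → ℂ} (hq : ∀ v, q v ∈ box v) {u : Mat n} (hx : xx q = u)
    (hc : (lb n * u).charpoly = (S.ww q).charpoly) : S.uu q = u := by
  have hld : (lb n).det = 1 := det_one_of_lo loU_lb.1 loU_lb.2
  have e : S.mm q = lb n * u := by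
    rw [mm, companion_eq (S.det_kry_ww hq), gg, hx]
    exact (conj_comp (by rw [← hx]; exact hess_lb_xx q) _).2 hc
  rw [uu, e, Matrix.nonsing_inv_mul_cancel_left _ _ (by rw [hld]; exact isUnit_one)]

/-- The lower factor of the pair in the gauge. -/
noncomputable def ll (n : ℕ) : Mat n := (lb n)⁻¹

theorem loU_ll : LoU (ll n) := loU_inv loU_lb

/-- The eigenbasis of the upper factor. -/
noncomputable def zz (q : OCo n → ℂ) : Mat n := eig (diagonal (dinv S.d) * (S.uu q)⁻¹) (dinv S.d)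

/-- The pair in the gauge. -/
noncomputable def pg (q : OCo n → ℂ) : Pair n := (hA (ll n) S.d, hB (ll n) S.d (S.zz q) (tt q))

/-- The gauge. -/
noncomputable def gG (q : OCo n → ℂ) : Mat n := (lb n)⁻¹ * gg q * (kry (S.ww q))⁻¹

/-- The pair. -/
noncomputable def pp (q : OCo n → ℂ) : Pair n :=
  ((S.gG q)⁻¹ * (S.pg q).1 * S.gG q, (S.gG q)⁻¹ * (S.pg q).2 * S.gG q)

/-- The state. -/
noncomputable def st (q : OCo n → ℂ) : St 1 (s + 2) n := (fun _ => S.pp q, hv q)

theorem d_ne (i : Fin n) : S.d i ≠ 0 := fun h => zero_ne_one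
  ((Finset.prod_eq_zero (Finset.mem_univ i) h).symm.trans S.hd1)

theorem zz_spec {q : OCo n → ℂ} (hq : ∀ v, q v ∈ box v) :
    UpU (S.zz q) ∧ uCom S.d (S.zz q) = (S.uu q)⁻¹ :=
  uCom_eig (SeedData.upU_inv (S.upU_uu hq)) S.hd S.d_ne

theorem prod_tt {q : OCo n → ℂ} (hq : ∀ v, q v ∈ box v) : ∏ i, tt q i = 1 :=
  prod_dd fun i => hq (.inr (.inr (.inr i)))

theorem sl_pg {q : OCo n → ℂ} (hq : ∀ v, q v ∈ box v) : SL1 (S.pg q) :=
  ⟨det_hA loU_ll S.hd1, det_hB loU_ll S.hd (S.zz_spec hq).1 (prod_tt hq)⟩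

theorem det_gG_ne {q : OCo n → ℂ} (hq : ∀ v, q v ∈ box v) : (S.gG q).det ≠ 0 := by
  rw [gG, Matrix.det_mul, Matrix.det_mul, det_gg, mul_one, Matrix.det_nonsing_inv,
    Matrix.det_nonsing_inv, det_one_of_lo loU_lb.1 loU_lb.2, Ring.inverse_one, one_mul,
    Ring.inverse_eq_inv']
  exact inv_ne_zero (S.det_kry_ww hq)

theorem cm_conj' {g A B : Mat n} (hg : g.det ≠ 0) (hA : A.det = 1) (hB : B.det = 1) :
    SL1 ((g⁻¹ * A * g, g⁻¹ * B * g) : Pair n) ∧
      cm (g⁻¹ * A * g, g⁻¹ * B * g) = g⁻¹ * cm (A, B) * g := by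
  have hu := isUnit_det_of_ne hg
  have hdet : ∀ Y : Mat n, (g⁻¹ * Y * g).det = Y.det := fun Y => by
    rw [Matrix.det_mul, Matrix.det_mul, mul_right_comm, ← Matrix.det_mul,
      Matrix.nonsing_inv_mul _ hu, Matrix.det_one, one_mul]
  refine ⟨⟨(hdet A).trans hA, (hdet B).trans hB⟩,
    cm_eq_of ((hdet A).trans hA) ((hdet B).trans hB) ?_⟩
  simp only [Matrix.mul_assoc, Matrix.mul_nonsing_inv_cancel_left _ _ hu]
  have e := congrArg (fun M => g⁻¹ * M * g) (cm_mul_eq (x := (A, B)) ⟨hA, hB⟩)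
  simpa only [Matrix.mul_assoc] using e

theorem cm_pp {q : OCo n → ℂ} (hq : ∀ v, q v ∈ box v) :
    SL1 (S.pp q) ∧ cm (S.pp q) = (S.ww q).adjugate := by
  obtain ⟨h1, h2⟩ := cm_conj' (S.det_gG_ne hq) (S.sl_pg hq).1 (S.sl_pg hq).2
  refine ⟨h1, h2.trans ?_⟩
  have hW : (S.ww q).det ≠ 0 := by rw [S.det_ww hq]; exact one_ne_zero
  have hWu := isUnit_det_of_ne hW
  have hPu := isUnit_det_of_ne (S.det_kry_ww hq)
  have hgu : IsUnit (gg q).det := by rw [det_gg]; exact isUnit_one
  have hlu : IsUnit (lb n).det := by rw [det_one_of_lo loU_lb.1 loU_lb.2]; exact isUnit_one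
  have hGu := isUnit_det_of_ne (S.det_gG_ne hq)
  have hG : S.gG q * S.ww q = S.uu q * lb n * S.gG q := by
    have e : S.uu q * lb n * S.gG q = (lb n)⁻¹ * S.mm q * gg q * (kry (S.ww q))⁻¹ := by
      simp only [uu, gG, Matrix.mul_assoc, Matrix.mul_nonsing_inv_cancel_left _ _ hlu]
    rw [e, mm]
    simp only [gG, Matrix.mul_assoc, Matrix.nonsing_inv_mul_cancel_left _ _ hgu]
    rw [Matrix.mul_nonsing_inv _ hPu, Matrix.mul_one]
  rw [pg, cm_handle loU_ll S.hd S.hd1 (S.zz_spec hq).1 (prod_tt hq), (S.zz_spec hq).2, ll,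
    ← Matrix.mul_inv_rev, ← inv_eq_adj (S.det_ww hq)]
  refine (Matrix.inv_eq_right_inv ?_).symm
  have hulu : IsUnit (S.uu q * lb n).det := by
    rw [Matrix.det_mul, det_one_of_up (S.upU_uu hq).1 (S.upU_uu hq).2, one_mul]; exact hlu
  calc S.ww q * ((S.gG q)⁻¹ * (S.uu q * lb n)⁻¹ * S.gG q)
      = (S.gG q)⁻¹ * (S.gG q * S.ww q) * ((S.gG q)⁻¹ * (S.uu q * lb n)⁻¹ * S.gG q) := by
        rw [Matrix.nonsing_inv_mul_cancel_left _ _ hGu]
    _ = 1 := by
        rw [hG]
        simp only [Matrix.mul_assoc, Matrix.mul_nonsing_inv_cancel_left _ _ hGu]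
        rw [← Matrix.mul_assoc (S.uu q) (lb n), Matrix.mul_nonsing_inv_cancel_left _ _ hulu,
          Matrix.nonsing_inv_mul _ hGu]

theorem det_hv {q : OCo n → ℂ} (hq : ∀ v, q v ∈ box v) (j : Fin (s + 2)) : (hv q j).det = 1 := by
  rcases eq_or_ne j 1 with rfl | hj
  · simpa [hv] using det_hh hq
  · simp [hv, hj]

theorem prep_st {q : OCo n → ℂ} (hq : ∀ v, q v ∈ box v) : PRep S.J (S.st q) := by
  obtain ⟨h1, h2⟩ := S.cm_pp hq
  refine ⟨fun _ => h1, det_hv hq, ?_⟩
  show (List.ofFn fun _ : Fin 1 => cm (S.pp q)).prod * bdProd S.J (hv q) = 1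
  rw [S.bdProd_hv, List.ofFn_succ, List.ofFn_zero, List.prod_cons, List.prod_nil, Matrix.mul_one, h2,
    adj_mul_one (S.det_ww hq)]

/-! ### rationality -/

/-- A curve of parameters allowed at both ends. -/
def Curve (c : ℂ → OCo n → ℂ) : Prop :=
  (∀ v, RatOn fun t => c t v) ∧ (∀ v, c 0 v ∈ box v) ∧ ∀ v, c 1 v ∈ box v

theorem curve_update {q : OCo n → ℂ} (hq : ∀ v, q v ∈ box v) (a : OCo n) {c₀ c₁ : ℂ}
    (h₀ : c₀ ∈ box a) (h₁ : c₁ ∈ box a) :
    Curve fun t => Function.update q a ((1 - t) * c₀ + t * c₁) := by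
  refine ⟨fun v => ?_, fun v => ?_, fun v => ?_⟩ <;> rcases eq_or_ne v a with rfl | hv
  · simp only [Function.update_self]
    exact (((ratOn_const 1).sub ratOn_id).mul (ratOn_const c₀)).add (ratOn_id.mul (ratOn_const c₁))
  · simp only [Function.update_of_ne hv]; exact ratOn_const _
  · simpa using h₀
  · simpa [Function.update_of_ne hv] using hq v
  · simpa using h₁
  · simpa [Function.update_of_ne hv] using hq v

variable {c : ℂ → OCo n → ℂ}

theorem ratM_uMat {e : ℂ → Fin n × Fin n → ℂ} (he : ∀ p, RatOn fun t => e t p) :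
    RatM fun t => uMat (e t) := fun i j => by
  simp only [uMat, Matrix.of_apply]
  split_ifs
  exacts [he _, ratOn_const _, ratOn_const _]

theorem ratM_hh (hc : Curve c) : RatM fun t => hh (c t) :=
  (ratM_uMat fun _ => hc.1 _).mul (ratM_diagonal
    (ratOn_dd (fun _ => hc.1 _) (fun i => hc.2.1 (.inr (.inl i))) fun i => hc.2.2 (.inr (.inl i))))

theorem ratM_ww (hc : Curve c) : RatM fun t => S.ww (c t) :=
  (ratM_const _).mul (((((ratM_hh hc).mul (ratM_const _))).mul (ratM_hh hc).adjugate).mul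
    (ratM_const _))

theorem ratM_gauge' (hc : Curve c) : RatM (fun t => S.uu (c t)) ∧ RatM (fun t => S.gG (c t)) ∧
    RatM fun t => (S.gG (c t))⁻¹ := by
  have hg : RatM fun t => gg (c t) := ratM_kry ((ratM_const _).mul (ratM_uMat fun _ => hc.1 _))
  have hgi := hg.inv (by rw [det_gg]; exact one_ne_zero) (by rw [det_gg]; exact one_ne_zero)
  have hP := ratM_kry (S.ratM_ww hc)
  have hPi := hP.inv (S.det_kry_ww hc.2.1) (S.det_kry_ww hc.2.2)
  have hG : RatM fun t => S.gG (c t) := ((ratM_const _).mul hg).mul hPi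
  refine ⟨(ratM_const _).mul ((hg.mul ((hPi.mul (S.ratM_ww hc)).mul hP)).mul hgi), hG, ?_⟩
  exact hG.inv (S.det_gG_ne hc.2.1) (S.det_gG_ne hc.2.2)

theorem ratM_pg (hc : Curve c) :
    RatM (fun t => (S.pg (c t)).1) ∧ RatM fun t => (S.pg (c t)).2 := by
  refine ⟨ratM_const _, ?_⟩
  have hu := (S.ratM_gauge' hc).1
  have hz : RatM fun t => S.zz (c t) :=
    ratM_eig (M := fun t => diagonal (dinv S.d) * (S.uu (c t))⁻¹) (d := fun _ => dinv S.d)
      ((ratM_const _).mul (hu.inv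
        (by rw [det_one_of_up (S.upU_uu hc.2.1).1 (S.upU_uu hc.2.1).2]; exact one_ne_zero)
        (by rw [det_one_of_up (S.upU_uu hc.2.2).1 (S.upU_uu hc.2.2).2]; exact one_ne_zero)))
      (fun _ => ratOn_const _) (dinv_injective S.hd) (dinv_injective S.hd)
  exact (hz.mul (ratM_diagonal (ratOn_dd (fun _ => hc.1 _) (fun i => hc.2.1 (.inr (.inr (.inr i))))
    fun i => hc.2.2 (.inr (.inr (.inr i)))))).mul (ratM_const _)

theorem ratM_pp (hc : Curve c) :
    RatM (fun t => (S.pp (c t)).1) ∧ RatM fun t => (S.pp (c t)).2 := by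
  obtain ⟨-, hG, hGi⟩ := S.ratM_gauge' hc
  exact ⟨(hGi.mul (S.ratM_pg hc).1).mul hG, (hGi.mul (S.ratM_pg hc).2).mul hG⟩

theorem ratOn_sev (hc : Curve c) (v : Var 1 (s + 2) n) : RatOn fun t => sev (S.st (c t)) v := by
  rcases v with ⟨i, b, r, k⟩ | ⟨j, r, k⟩
  · cases b
    · exact (S.ratM_pp hc).1 r k
    · exact (S.ratM_pp hc).2 r k
  · show RatOn fun t => hv (c t) j r k
    rcases eq_or_ne j 1 with rfl | hj
    · simp only [hv, Function.update_self]
      exact ratM_hh hc r k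
    · simp only [hv, Function.update_of_ne hj]
      exact ratOn_const _

/-! ### integrality -/

/-- The hypotheses on the ring. -/
structure RingHyp (R : Subring ℂ) (ε : ℂ) : Prop where
  hJ : ∀ j, IntM R (S.J j)
  hdR : ∀ i, S.d i ∈ R ∧ (S.d i)⁻¹ ∈ R
  hdiff : ∀ i j, (S.d i - S.d j)⁻¹ ∈ R
  hε : ε ∈ R ∧ ε⁻¹ ∈ R
  hεinf : (Set.range fun k : ℕ => ε ^ k).Infinite
  hε0 : ε ≠ 0

theorem intM_grid {R : Subring ℂ} {ε : ℂ} (hS : S.RingHyp R ε) {q : OCo n → ℂ}
    (hq : ∀ v, q v ∈ Sum.elim (fun _ => Set.range fun z : ℤ => (z : ℂ))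
      (Sum.elim (fun _ => Set.range fun k : ℕ => ε ^ k) (Sum.elim
        (fun _ => Set.range fun z : ℤ => (z : ℂ)) fun _ => Set.range fun k : ℕ => ε ^ k)) v) :
    (∀ v, q v ∈ box v) ∧ IntSt R (S.st q) := by
  have hqW : ∀ v, q v ∈ box v := fun v => by
    rcases v with v | v | v | v
    · trivial
    · obtain ⟨k, hk⟩ := hq (.inr (.inl v))
      show q _ ≠ 0
      rw [← hk]; exact pow_ne_zero _ hS.hε0
    · trivial
    · obtain ⟨k, hk⟩ := hq (.inr (.inr (.inr v)))
      show q _ ≠ 0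
      rw [← hk]; exact pow_ne_zero _ hS.hε0
  refine ⟨hqW, ?_⟩
  have hpow : ∀ {z : ℂ}, z ∈ Set.range (fun k : ℕ => ε ^ k) → z ∈ R ∧ z⁻¹ ∈ R := by
    rintro _ ⟨k, rfl⟩
    exact ⟨pow_mem hS.hε.1 k, by rw [← inv_pow]; exact pow_mem hS.hε.2 k⟩
  have hint : ∀ {z : ℂ}, z ∈ Set.range (fun z : ℤ => (z : ℂ)) → z ∈ R := by
    rintro _ ⟨z, rfl⟩
    exact intCast_mem R z
  have huMat : ∀ e : Fin n × Fin n → ℂ, (∀ p, e p ∈ R) → InR R (uMat e) := fun e he i j => by
    simp only [uMat, Matrix.of_apply]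
    split_ifs
    exacts [he _, one_mem R, zero_mem R]
  have hdd : ∀ e : Fin n → ℂ, (∀ i, e i ∈ R ∧ (e i)⁻¹ ∈ R) → InR R (diagonal (dd e)) := fun e he =>
    inR_diagonal fun i => (dd_mem (fun k => (he k).1) (fun k => (he k).2) i).1
  have hh' : InR R (hh q) := (huMat _ fun p => hint (hq (.inl p))).mul
    (hdd _ fun i => hpow (hq (.inr (.inl i))))
  have hxx : InR R (xx q) := huMat _ fun p => hint (hq (.inr (.inr (.inl p))))
  have hrest : InR R S.rest := intM_list_prod fun A hA => by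
    obtain ⟨k, rfl⟩ := List.mem_ofFn.1 hA
    exact hS.hJ _
  have hbd : InR R (bd (S.J 1) (hh q)) := (hh'.mul (hS.hJ 1)).mul hh'.adjugate
  have hW : InR R (S.ww q) := InR.mul (hS.hJ 0) (hbd.mul hrest)
  have hP : InR R (kry (S.ww q)) := inR_kry hW
  have hPd : ((kry (S.ww q)).det)⁻¹ ∈ R := by
    obtain ⟨c, hc⟩ := det_kry_inv (S.det_ww hqW)
    rw [hc, mul_inv]
    refine mul_mem ?_ ?_
    · rcases Int.units_eq_one_or c with rfl | rfl <;> simp
    · obtain ⟨hK, hKs⟩ := S.hess_K hqW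
      rw [det_of_isUpperTriangular (up_kry hK), ← Finset.prod_inv_distrib]
      refine prod_mem fun k _ => ?_
      rw [kry_apply _ k k ⟨0, k.pos⟩ rfl]
      refine hess_pow_inv_mem hK (fun i j h => ?_) _ _ _ (by simp)
      rw [hKs i j h, ← mul_inv, inv_inv]
      exact mul_mem (hrest i i) (hS.hJ 1 i i)
  have hPi : InR R (kry (S.ww q))⁻¹ := inR_inv hP hPd
  have hlb : InR R (lb n) := fun i j => by
    simp only [lb, Matrix.of_apply]
    split_ifs
    exacts [one_mem R, zero_mem R]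
  have hld : (lb n).det = 1 := det_one_of_lo loU_lb.1 loU_lb.2
  have hll : InR R (ll n) := hlb.inv hld
  have hg : InR R (gg q) := inR_kry (hlb.mul hxx)
  have hgi := hg.inv (det_gg q)
  have hu : InR R (S.uu q) := (hlb.inv hld).mul ((hg.mul ((hPi.mul hW).mul hP)).mul hgi)
  have hui := hu.inv (det_one_of_up (S.upU_uu hqW).1 (S.upU_uu hqW).2)
  have hz : InR R (S.zz q) := by
    refine inR_eig ((inR_diagonal fun i => (hS.hdR i).2).mul hui) (fun i => (hS.hdR i).2) fun i j => ?_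
    rcases eq_or_ne i j with rfl | hij
    · rw [_root_.sub_self, _root_.inv_zero]; exact zero_mem R
    · have e1 : dinv S.d i - dinv S.d j = (S.d j - S.d i) / (S.d i * S.d j) := by
        have := S.d_ne i
        have := S.d_ne j
        simp only [dinv]
        field_simp
      rw [e1, inv_div, div_eq_mul_inv]
      exact mul_mem (mul_mem (hS.hdR i).1 (hS.hdR j).1) (hS.hdiff j i)
  have hlam : InR R (lam (ll n) S.d) :=
    (inR_eig (hll.mul (inR_diagonal fun i => (hS.hdR i).1)) (fun i => (hS.hdR i).1) hS.hdiff).inv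
      (wMat_spec loU_ll S.hd).2.1
  have hA1 : InR R (S.pg q).1 := hll.mul (inR_diagonal fun i => (hS.hdR i).1)
  have hB1 : InR R (S.pg q).2 :=
    (hz.mul (hdd _ fun i => hpow (hq (.inr (.inr (.inr i)))))).mul hlam
  have hG : InR R (S.gG q) := (hll.mul hg).mul hPi
  have hGi : InR R (S.gG q)⁻¹ := by
    have hgu : IsUnit (gg q).det := by rw [det_gg]; exact isUnit_one
    have hlu : IsUnit (lb n).det := by rw [hld]; exact isUnit_one
    have e : (S.gG q)⁻¹ = kry (S.ww q) * (gg q)⁻¹ * lb n := by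
      rw [gG, Matrix.mul_inv_rev, Matrix.mul_inv_rev,
        Matrix.nonsing_inv_nonsing_inv _ hlu,
        Matrix.nonsing_inv_nonsing_inv _ (isUnit_det_of_ne (S.det_kry_ww hqW)), Matrix.mul_assoc]
    rw [e]
    exact (hP.mul hgi).mul hlb
  refine intSt_iff.2 ⟨fun i => ⟨(hGi.mul hA1).mul hG, (hGi.mul hB1).mul hG⟩, fun j => ?_⟩
  show IntM R (hv q j)
  rcases eq_or_ne j 1 with rfl | hj
  · simp only [hv, Function.update_self]; exact hh'
  · simp only [hv, Function.update_of_ne hj]; exact intM_one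

/-- All members of the family are in the closure of the integral representations. -/
theorem zd_st {R : Subring ℂ} {ε : ℂ} (hS : S.RingHyp R ε) {q : OCo n → ℂ}
    (hq : ∀ v, q v ∈ box v) : Zd R S.J (S.st q) := by
  intro p hp
  refine box_zero (W := box) (F := fun y => MvPolynomial.eval (sev (S.st y)) p) ?_
    (S := fun v => Sum.elim (fun _ => Set.range fun z : ℤ => (z : ℂ))
      (Sum.elim (fun _ => Set.range fun k : ℕ => ε ^ k) (Sum.elim
        (fun _ => Set.range fun z : ℤ => (z : ℂ)) fun _ => Set.range fun k : ℕ => ε ^ k)) v)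
    (fun v => ?_) (fun v => ?_) (fun y hy => ?_) hq
  · intro y hy a c₀ h₀ c₁ h₁
    simp only [MvPolynomial.eval_eq]
    exact ratOn_sum _ fun m _ => (ratOn_const _).mul (ratOn_prod _ fun v _ =>
      (S.ratOn_sev (curve_update hy a h₀ h₁) v).pow _)
  · rcases v with v | v | v | v
    · exact Set.subset_univ _
    · rintro _ ⟨k, rfl⟩; exact pow_ne_zero _ hS.hε0
    · exact Set.subset_univ _
    · rintro _ ⟨k, rfl⟩; exact pow_ne_zero _ hS.hε0
  · rcases v with v | v | v | v
    exacts [Set.infinite_range_of_injective Int.cast_injective, hS.hεinf,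
      Set.infinite_range_of_injective Int.cast_injective, hS.hεinf]
  · obtain ⟨h1, h2⟩ := S.intM_grid hS hy
    exact hp _ (S.prep_st h1) h2

end OneData

end P002Punct
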