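import Vale.Agent.P002Punct.One.SeedFam
import Vale.Agent.P002Punct.Seed

/-!
A point of the seed family where the pair is in general position with independent spectra and the
trace conditions hold.  Conditions on the pair are witnessed by dominance: every unitriangular
factor near one of them occurs with a suitable conjugator.
-/

namespace P002Punct

open P002Surf Matrix Filter Topology

open scoped Matrix.Norms.Operator

variable {s n : ℕ}

theorem exists_hh {h : Mat n} (hh' : Up h) (hd : h.det = 1) :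
    ∃ (a : Fin n × Fin n → ℂ) (e : Fin n → ℂ), (∀ i, e i ≠ 0) ∧ uMat a * diagonal (dd e) = h := by
  have hne := diag_ne_of_up hh' hd
  obtain ⟨e, he, hde⟩ := exists_dd (d := fun i => h i i)
    (by rw [← det_of_isUpperTriangular hh']; exact hd)
  let U : Mat n := h * diagonal fun i => (h i i)⁻¹
  have hU : UpU U := ⟨hh'.mul (blockTriangular_diagonal _), fun i => by
    show (h * diagonal fun i => (h i i)⁻¹) i i = 1
    rw [Matrix.mul_diagonal]; exact mul_inv_cancel₀ (hne i)⟩
  refine ⟨fun p => U p.1 p.2, e, he, ?_⟩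
  rw [uMat_eq hU, hde, Matrix.mul_assoc, diagonal_mul_diagonal,
    show (fun i => (h i i)⁻¹ * h i i) = fun _ => (1 : ℂ) from
      funext fun i => inv_mul_cancel₀ (hne i), diagonal_one, Matrix.mul_one]

theorem good_conj' {g A B : Mat n} (hg : g.det ≠ 0) (h : Good (A, B)) :
    Good (g⁻¹ * A * g, g⁻¹ * B * g) := by
  rcases Nat.eq_zero_or_pos n with rfl | hn
  · have : g.det = 1 := Matrix.det_fin_zero
    exact good_conj this h
  obtain ⟨c, hc⟩ := IsAlgClosed.exists_pow_nat_eq g.det⁻¹ hn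
  have hc0 : c ≠ 0 := fun h0 => by
    rw [h0, zero_pow hn.ne', eq_comm, inv_eq_zero] at hc
    exact hg hc
  have hd : (c • g).det = 1 := by
    rw [Matrix.det_smul, Fintype.card_fin, hc, inv_mul_cancel₀ hg]
  have hu := isUnit_det_of_ne hg
  have hi : (c • g)⁻¹ = c⁻¹ • g⁻¹ := Matrix.inv_eq_right_inv (by
    rw [Matrix.smul_mul, Matrix.mul_smul, smul_smul, mul_inv_cancel₀ hc0, one_smul,
      Matrix.mul_nonsing_inv _ hu])
  have e : ∀ X : Mat n, (c • g)⁻¹ * X * (c • g) = g⁻¹ * X * g := fun X => by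
    rw [hi, Matrix.smul_mul, Matrix.smul_mul, Matrix.mul_smul, smul_smul, inv_mul_cancel₀ hc0,
      one_smul]
  have := good_conj hd h
  rwa [e, e] at this

/-- Twisting the first entry makes it generic. -/
theorem exists_twist_one {A B : Mat n} (hs : SL1 ((A, B) : Pair n)) (g1 : G0 ((A, B) : Pair n))
    (gd : Good ((A, B) : Pair n)) (g2 : G0 ((B, A) : Pair n)) (iB : Indep B)
    (ht : ∀ i, ∃ p, twTest i p ((A, B) : Pair n) ≠ 0) :
    ∃ v : Mat n, v.det = 1 ∧ B * v = v * B ∧ G0 ((A * v, B) : Pair n) ∧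
      Good ((A * v, B) : Pair n) ∧ G0 ((B, A * v) : Pair n) ∧ Indep (A * v) := by
  obtain ⟨P, μ, hP, -⟩ := iB
  let V : (Fin n ⊕ Fin n → ℂ) → Mat n := fun e => P * diagonal (dd fun k => e (.inl k)) * P⁻¹
  obtain ⟨O, hO, hOo, hO1⟩ := eventually_nhds_iff.1 (eventually_twist hP.1 Sum.inl g1 gd g2)
  have hG : ∀ i, RatBox (fun _ => {z : ℂ | z ≠ 0}) fun e => genFun i (A * V e) := by
    intro i y hy a c₀ h₀ c₁ h₁
    have hne : ∀ c : ℂ, c ≠ 0 → ∀ v, Function.update y a c v ≠ 0 := fun c hc v => by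
      rcases eq_or_ne v a with rfl | hv
      · rw [Function.update_self]; exact hc
      · rw [Function.update_of_ne hv]; exact hy v
    refine ratOn_genFun ((ratM_const _).mul (((ratM_const _).mul (ratM_diagonal
      (ratOn_dd (fun k => ?_) (fun k => ?_) fun k => ?_))).mul (ratM_const _))) i
    · rcases eq_or_ne (Sum.inl k : Fin n ⊕ Fin n) a with h | h
      · rw [← h]; simp only [Function.update_self]
        exact (((ratOn_const 1).sub ratOn_id).mul (ratOn_const c₀)).add
          (ratOn_id.mul (ratOn_const c₁))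
      · simp only [Function.update_of_ne h]; exact ratOn_const _
    · simpa using hne c₀ h₀ (.inl k)
    · simpa using hne c₁ h₁ (.inl k)
  have hw : ∀ i, ∃ e, (∀ v, e v ∈ (fun _ : Fin n ⊕ Fin n => {z : ℂ | z ≠ 0}) v) ∧
      genFun i (A * V e) ≠ 0 := fun i => by
    obtain ⟨p, hp⟩ := ht i
    obtain ⟨e, he, h⟩ := exists_twist_gen hP hp
    refine ⟨Sum.elim e fun _ => 1, fun v => by rcases v with v | v; exacts [he v, one_ne_zero], ?_⟩
    simpa only [V, Sum.elim_inl] using h
  obtain ⟨e, heO, he0, hge⟩ := box_generic hG (fun _ => isOpen_ne) hw hOo hO1 (fun _ => one_ne_zero)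
  have hv : (V e).det = 1 := by
    rw [det_conjP hP.1]; exact prod_dd fun k => he0 (.inl k)
  exact ⟨V e, hv, commute_conjP hP _, (hO e heO).1, (hO e heO).2.1, (hO e heO).2.2,
    Gen.indep hge (by rw [Matrix.det_mul, hs.1, hv, one_mul])⟩

namespace OneData

variable (S : OneData s n)

/-- The Hessenberg factor behind the characteristic polynomial. -/
def hfac : Mat n := (S.J 0).adjugate * S.rest.adjugate

theorem hess_hfac_of {U : Mat n} (hU : Up U) (hd : U.det = 1) :
    Hess ((S.J 0).adjugate * U.adjugate) ∧ ((S.J 0).adjugate * U.adjugate).det ≠ 0 := by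
  refine ⟨(hess_mul_up (hess_of_bidiag S.hJb) (up_adj hU hd).1 fun i => ?_).1, ?_⟩
  · rw [(up_adj hU hd).2]; exact inv_ne_zero (diag_ne_of_up hU hd i)
  · rw [Matrix.det_mul, det_adj_one (S.hJd 0), det_adj_one hd, one_mul]; exact one_ne_zero

theorem charpoly_K {q : OCo n → ℂ} (hq : ∀ v, q v ∈ box v) :
    (S.ww q).adjugate.charpoly = (domM S.hfac (S.J 1) (hh q)).charpoly := by
  rw [S.adj_ww, domM, hfac, Matrix.mul_assoc (S.J 0).adjugate, Matrix.charpoly_mul_comm,
    adj_bd (det_hh hq)]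

/-- The parameters of a pair: the upper factor and the torus. -/
abbrev PCo (n : ℕ) := (Fin n × Fin n) ⊕ Fin n

/-- The allowed ones. -/
def pbox : PCo n → Set ℂ := Sum.elim (fun _ => Set.univ) fun _ => {z | z ≠ 0}

/-- The upper factor of a pair. -/
def pu (y : PCo n → ℂ) : Mat n := uMat fun p => y (.inl p)

/-- The pair with given upper factor and torus. -/
noncomputable def pw (y : PCo n → ℂ) : Pair n :=
  (hA (ll n) S.d, hB (ll n) S.d (eig (diagonal (dinv S.d) * (pu y)⁻¹) (dinv S.d))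
    (dd fun i => y (.inr i)))

/-- A pair with prescribed eigenbasis factor and torus. -/
theorem exists_pw {Z : Mat n} {T : Fin n → ℂ} (hZ : UpU Z) (hT : ∏ i, T i = 1) :
    ∃ y : PCo n → ℂ, (∀ v, y v ∈ pbox v) ∧ S.pw y = (hA (ll n) S.d, hB (ll n) S.d Z T) := by
  obtain ⟨e, he, rfl⟩ := exists_dd hT
  let S' : SeedData 0 n :=
    { J := Fin.elim0, d := S.d, lu := 0, hJup := fun j => j.elim0, hJd := fun j => j.elim0,
      hd := S.hd, hd1 := S.hd1 }
  obtain ⟨h1, h2⟩ := S'.zOf_uCom hZ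
  refine ⟨Sum.elim (fun p => (uCom S.d Z)⁻¹ p.1 p.2) e, fun v => ?_, ?_⟩
  · rcases v with v | v
    exacts [trivial, he v]
  · have hu : (uCom S.d Z).det = 1 := det_one_of_up h1.1 h1.2
    have e1 : (pu (Sum.elim (fun p : Fin n × Fin n => (uCom S.d Z)⁻¹ p.1 p.2) e))⁻¹ = uCom S.d Z := by
      rw [show pu (Sum.elim (fun p : Fin n × Fin n => (uCom S.d Z)⁻¹ p.1 p.2) e) = (uCom S.d Z)⁻¹
          from uMat_eq (SeedData.upU_inv h1),
        Matrix.nonsing_inv_nonsing_inv _ (by rw [hu]; exact isUnit_one)]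
    have e2 : eig (diagonal (dinv S.d) * uCom S.d Z) (dinv S.d) = Z := h2
    rw [pw, e1, e2]
    rfl

theorem ratM_pw {y : PCo n → ℂ} (hy : ∀ v, y v ∈ pbox v) (a : PCo n) {c₀ c₁ : ℂ} (h₀ : c₀ ∈ pbox a)
    (h₁ : c₁ ∈ pbox a) :
    RatM (fun t => (S.pw (Function.update y a ((1 - t) * c₀ + t * c₁))).1) ∧
      RatM fun t => (S.pw (Function.update y a ((1 - t) * c₀ + t * c₁))).2 := by
  have hu : ∀ v, RatOn fun t => Function.update y a ((1 - t) * c₀ + t * c₁) v := fun v => by
    rcases eq_or_ne v a with rfl | hv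
    · simp only [Function.update_self]
      exact (((ratOn_const 1).sub ratOn_id).mul (ratOn_const c₀)).add (ratOn_id.mul (ratOn_const c₁))
    · simp only [Function.update_of_ne hv]; exact ratOn_const _
  have hne : ∀ (c : ℂ), c ∈ pbox a → ∀ k, Function.update y a c (.inr k) ≠ 0 := fun c hc k => by
    rcases eq_or_ne (Sum.inr k : PCo n) a with h | h
    · rw [← h] at hc ⊢; rw [Function.update_self]; exact hc
    · rw [Function.update_of_ne h]; exact hy (.inr k)
  have hp : RatM fun t => pu (Function.update y a ((1 - t) * c₀ + t * c₁)) :=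
    ratM_uMat fun _ => hu _
  refine ⟨ratM_const _, ((ratM_eig
    (M := fun t => diagonal (dinv S.d) * (pu (Function.update y a ((1 - t) * c₀ + t * c₁)))⁻¹)
    (d := fun _ => dinv S.d)
    ((ratM_const _).mul (hp.inv (by rw [pu, det_uMat]; exact one_ne_zero)
      (by rw [pu, det_uMat]; exact one_ne_zero)))
    (fun _ => ratOn_const _) (dinv_injective S.hd) (dinv_injective S.hd)).mul
      (ratM_diagonal (ratOn_dd (fun _ => hu _) (fun k => ?_) fun k => ?_))).mul (ratM_const _)⟩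
  · simpa using hne c₀ h₀ k
  · simpa using hne c₁ h₁ k

/-- A rational condition on pairs that holds somewhere holds at a pair of the family. -/
theorem exists_attained (hn : 2 ≤ n) (F : Pair n → ℂ)
    (hF : ∀ A B : ℂ → Mat n, RatM A → RatM B → RatOn fun t => F (A t, B t)) {Z : Mat n}
    {T : Fin n → ℂ} (hZ : UpU Z) (hT : ∏ i, T i = 1)
    (hw : F (hA (ll n) S.d, hB (ll n) S.d Z T) ≠ 0) :
    ∃ q : OCo n → ℂ, (∀ v, q v ∈ box v) ∧ F (S.pg q) ≠ 0 := by
  obtain ⟨hH, -⟩ := S.hess_hfac_of S.up_rest S.det_rest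
  obtain ⟨x, h0, hu0, hd0, hx, hx0, hev⟩ := dom_open hn hH (S.hJup 1 (by simp)) (S.hJd 1) S.hJ1
  obtain ⟨Ω, hΩ, hΩo, hΩm⟩ := eventually_nhds_iff.1 hev
  -- the base point
  obtain ⟨a, e, he, hh0⟩ := exists_hh hu0 hd0
  let q0 : OCo n → ℂ := Sum.elim a (Sum.elim e (Sum.elim (fun _ => 0) fun _ => 1))
  have hq0 : ∀ v, q0 v ∈ box v := fun v => by
    rcases v with v | v | v | v
    exacts [trivial, he v, trivial, one_ne_zero]
  have hh0' : hh q0 = h0 := hh0
  let val : (PCo n → ℂ) → Fin (n - 1) → ℂ := fun y => chv x (lb n * pu y).adjugate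
  let y0 : PCo n → ℂ := Sum.elim (fun p => S.uu q0 p.1 p.2) fun _ => 1
  have hy0 : ∀ v, y0 v ∈ pbox v := fun v => by
    rcases v with v | v
    exacts [trivial, one_ne_zero]
  have hval : val y0 = chv x (domM S.hfac (S.J 1) h0) := by
    have e1 : pu y0 = S.uu q0 := uMat_eq (S.upU_uu hq0)
    have e2 : (S.mm q0).adjugate.charpoly = (S.ww q0).adjugate.charpoly := by
      refine charpoly_of_adjugate (det_adj_one (S.det_mm hq0)) (det_adj_one (S.det_ww hq0)) ?_
      rw [adj_adj_one (S.det_mm hq0), adj_adj_one (S.det_ww hq0), mm]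
      have hu := isUnit_det_of_ne (S.det_kry_ww hq0)
      have hg : IsUnit (gg q0).det := by rw [det_gg]; exact isUnit_one
      rw [Matrix.charpoly_mul_comm, ← Matrix.mul_assoc, Matrix.nonsing_inv_mul _ hg, Matrix.one_mul,
        Matrix.charpoly_mul_comm, ← Matrix.mul_assoc, Matrix.mul_nonsing_inv _ hu, Matrix.one_mul]
    funext i
    simp only [val, chv, e1, S.lb_uu, ← eval_charpoly_smul]
    rw [e2, S.charpoly_K hq0, hh0']
  have hcont : Continuous val := by
    refine continuous_pi fun i => ?_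
    refine (continuous_const.sub ((continuous_const.mul ?_).matrix_adjugate)).matrix_det
    refine continuous_pi fun r => continuous_pi fun c => ?_
    simp only [pu, uMat, Matrix.of_apply]
    split_ifs
    exacts [continuous_apply _, continuous_const, continuous_const]
  obtain ⟨y₁, hy₁, hy₁e⟩ := S.exists_pw hZ hT
  obtain ⟨y, hyO, hyW, hyF⟩ := box_generic (κ := Unit) (G := fun _ y => F (S.pw y))
    (W := pbox) (fun _ y hy a c₀ h₀ c₁ h₁ => by
      obtain ⟨g1, g2⟩ := S.ratM_pw hy a h₀ h₁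
      exact hF _ _ g1 g2)
    (fun v => by rcases v with v | v; exacts [isOpen_univ, isOpen_ne])
    (fun _ => ⟨y₁, hy₁, by rw [hy₁e]; exact hw⟩) (hΩo.preimage hcont)
    (show y0 ∈ val ⁻¹' Ω by rw [Set.mem_preimage, hval]; exact hΩm) hy0
  obtain ⟨h, hup, hhd, hhv⟩ := hΩ _ hyO
  obtain ⟨a', e', he', hh'⟩ := exists_hh hup hhd
  let q : OCo n → ℂ :=
    Sum.elim a' (Sum.elim e' (Sum.elim (fun p => y (.inl p)) fun i => y (.inr i)))
  have hq : ∀ v, q v ∈ box v := fun v => by
    rcases v with v | v | v | v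
    exacts [trivial, he' v, trivial, hyW (.inr v)]
  have hhq : hh q = h := hh'
  have hu : S.uu q = pu y := by
    refine S.uu_eq hq (u := pu y) rfl ?_
    have hdl : (lb n * pu y).det = 1 := by
      rw [Matrix.det_mul, pu, det_uMat, det_one_of_lo loU_lb.1 loU_lb.2, one_mul]
    refine charpoly_of_adjugate hdl (S.det_ww hq) ?_
    rw [S.charpoly_K hq, hhq]
    refine charpoly_eq_of_vals (by omega) ?_ hx hx0 hhv.symm
    rw [det_adj_one hdl, det_domM (S.hJd 1) hhd, hfac, Matrix.det_mul, det_adj_one (S.hJd 0),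
      det_adj_one S.det_rest, one_mul]
  refine ⟨q, hq, ?_⟩
  have : S.pg q = S.pw y := by
    rw [pg, pw, zz, hu]
    rfl
  rw [this]
  exact hyF ()

theorem bdPre_succ (q : OCo n → ℂ) (j : Fin (s + 1)) :
    bdPre S.J (S.st q) j.succ =
      S.J 0 * (bd (S.J 1) (hh q) *
        ((List.ofFn fun k : Fin s => S.J k.succ.succ).take (j : ℕ)).prod) := by
  have e0 : bd (S.J 0) (hv (s := s) q 0) = S.J 0 := by simp [hv, bd, Function.update_of_ne]
  have e1 : bd (S.J 1) (hv (s := s) q 1) = bd (S.J 1) (hh q) := by simp [hv]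
  have e2 : (fun k : Fin s => bd (S.J k.succ.succ) (hv q k.succ.succ)) =
      fun k => S.J k.succ.succ := funext fun k => by
    have : (k.succ.succ : Fin (s + 2)) ≠ 1 := by simp [Fin.ext_iff]
    simp [hv, bd, Function.update_of_ne this]
  show ((List.ofFn fun k => bd (S.J k) (hv q k)).take ((j.succ : ℕ) + 1)).prod = _
  rw [List.ofFn_succ, List.ofFn_succ, Fin.val_succ, List.take_succ_cons, List.take_succ_cons,
    List.prod_cons, List.prod_cons, e0, show Fin.succ (0 : Fin (s + 1)) = 1 from rfl, e1, e2]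

theorem adj_bdPre_mul (q : OCo n → ℂ) (hq : ∀ v, q v ∈ box v) (j : Fin (s + 1)) :
    (bdPre S.J (S.st q) j.succ).adjugate * S.ww q =
      ((List.ofFn fun k : Fin s => S.J k.succ.succ).drop (j : ℕ)).prod := by
  have hd : (bdPre S.J (S.st q) j.succ).det = 1 := det_bdPre_span S.hJd (det_hv hq) j.succ
  rw [bdPre_succ] at hd ⊢
  have e : S.ww q = S.J 0 * (bd (S.J 1) (hh q) *
      ((List.ofFn fun k : Fin s => S.J k.succ.succ).take (j : ℕ)).prod) *
        ((List.ofFn fun k : Fin s => S.J k.succ.succ).drop (j : ℕ)).prod := by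
    rw [ww, rest, ← List.prod_take_mul_prod_drop (List.ofFn fun k : Fin s => S.J k.succ.succ) (j : ℕ)]
    simp only [Matrix.mul_assoc]
  rw [e, ← Matrix.mul_assoc, adj_mul_one hd, Matrix.one_mul]

/-- The index of the conditions. -/
abbrev Cond (s n : ℕ) := Fin 2 ⊕ (Bool × Option (Rel n)) ⊕ Option (Fin (s + 1))

/-- The conditions. -/
noncomputable def cond' (p : Option (Rel n) → Polynomial ℂ) : Cond s n → (OCo n → ℂ) → ℂ
  | .inl k => fun q => ![g0Fun (S.pp q), g0Fun (S.pp q).swap] k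
  | .inr (.inl (b, i)) => fun q => cond b (twTest i (p i) (S.pp q)) (genFun i (S.pp q).2)
  | .inr (.inr none) => fun q => (S.ww q).trace - n
  | .inr (.inr (some j)) => fun q =>
      (bdPre S.J (S.st q) j.succ).adjugate.trace -
        ((List.ofFn fun k : Fin s => S.J k.succ.succ).drop (j : ℕ)).prod.trace

theorem twTest_conj {g A B : Mat n} (hg : g.det ≠ 0) (i : Option (Rel n)) (p : Polynomial ℂ)
    (h : twTest i p ((A, B) : Pair n) ≠ 0) :
    twTest i p ((g⁻¹ * A * g, g⁻¹ * B * g) : Pair n) ≠ 0 := by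
  obtain ⟨h1, h2⟩ := mul_ne_zero_iff.1 h
  have hu := isUnit_det_of_ne hg
  have hc : ∀ M N : Mat n, g⁻¹ * M * g * (g⁻¹ * N * g) = g⁻¹ * (M * N) * g := fun M N => by
    simp only [Matrix.mul_assoc, Matrix.mul_nonsing_inv_cancel_left _ _ hu]
  have hpow : ∀ (M : Mat n) (k : ℕ), (g⁻¹ * M * g) ^ k = g⁻¹ * M ^ k * g := fun M k => by
    induction k with
    | zero => simp [Matrix.nonsing_inv_mul _ hu]
    | succ k ih => rw [pow_succ, ih, hc, ← pow_succ]
  have hae : Polynomial.aeval (g⁻¹ * B * g) p = g⁻¹ * Polynomial.aeval B p * g := by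
    simp only [Polynomial.aeval_eq_sum_range, Matrix.mul_sum, Finset.sum_mul, hpow, Matrix.mul_smul,
      Matrix.smul_mul]
  refine mul_ne_zero ?_ ?_
  · show (Polynomial.aeval (g⁻¹ * B * g) p).det ≠ 0
    rw [hae, Matrix.det_mul, Matrix.det_mul, Matrix.det_nonsing_inv, Ring.inverse_eq_inv']
    exact mul_ne_zero (mul_ne_zero (inv_ne_zero hg) h1) hg
  · show genFun i (g⁻¹ * A * g * Polynomial.aeval (g⁻¹ * B * g) p ^ n) ≠ 0
    rw [hae, hpow, hc, genFun_conj hg]
    exact h2

/-- A point of the closure with generic pair and traces. -/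
theorem exists_point (hn : 2 ≤ n) {R : Subring ℂ} {ε : ℂ} (hS : S.RingHyp R ε) :
    ∃ x : St 1 (s + 2) n, Zd R S.J x ∧ PRep S.J x ∧ Hy1 (x.1 0) ∧
      (∀ j : Fin (s + 2), j ≠ 0 →
        ((bdPre S.J x j).adjugate * (cm (x.1 0)).adjugate).trace ≠ (bdPre S.J x j).adjugate.trace) ∧
      ∃ h : Mat n, Up h ∧ h.det = 1 ∧ x.2 = Function.update (fun _ => 1) 1 h := by
  classical
  have hFl : Full (ll n) := full_inv_lb
  have hFlam : Full (lam (ll n) S.d) := full_lam_lb S.hd S.d_ne
  obtain ⟨Z₁, T₁, P₁, μ₁, hZ₁, hT₁, hP₁, hT3₁, hm₁⟩ :=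
    exists_g0 (by omega : 0 < n) loU_ll hFl S.hd S.d_ne
  choose p hp using fun i => twTest_witness hP₁ hm₁ i
  have hgt : ∀ (q : OCo n → ℂ), (∀ v, q v ∈ box v) → (S.gG q).det ≠ 0 := fun q hq => S.det_gG_ne hq
  have hwit : ∀ k : Cond s n, ∃ q, (∀ v, q v ∈ box v) ∧ S.cond' p k q ≠ 0 := by
    rintro (k | ⟨b, i⟩ | _ | j)
    · fin_cases k
      · obtain ⟨q, hq, h⟩ := S.exists_attained hn g0Fun (fun A B hA hB => ratOn_g0Fun hA hB) hZ₁ hT₁
          (g0Fun_ne ⟨P₁, μ₁, hP₁, hT3₁⟩)
        exact ⟨q, hq, g0Fun_ne (g0_conj (hgt q hq) (A := (S.pg q).1) (B := (S.pg q).2)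
          (g0_of_fun h))⟩
      · obtain ⟨Z₂, hZ₂, hT3₂⟩ := exists_triple_swap (wMat_spec loU_ll S.hd).2.2.1 hFlam
        obtain ⟨q, hq, h⟩ := S.exists_attained hn (fun x => g0Fun x.swap)
          (fun A B hA hB => ratOn_g0Fun hB hA) hZ₂ (T := fun _ => 1) Finset.prod_const_one
          (g0Fun_ne (g0_swap loU_ll S.hd hT3₂ fun _ => one_ne_zero))
        exact ⟨q, hq, g0Fun_ne (g0_conj (hgt q hq) (A := (S.pg q).2) (B := (S.pg q).1)
          (g0_of_fun h))⟩
    · cases b
      · have hup1 : UpU (1 : Mat n) := ⟨blockTriangular_one, fun _ => one_apply_eq _⟩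
        have hl := (wMat_spec loU_ll S.hd).2.2.1
        obtain ⟨T, hT, hne⟩ := exists_gen_sl (M := lam (ll n) S.d * 1) (fun j => by
          rw [minor_lo_up hl.1 hup1.1]; simp [hl.2]) i
        obtain ⟨q, hq, h⟩ := S.exists_attained hn (fun x => genFun i x.2)
          (fun A B _ hB => ratOn_genFun hB i) hup1 hT
          (by rw [Matrix.mul_one] at hne; simpa [hB] using hne)
        refine ⟨q, hq, ?_⟩
        show genFun i ((S.gG q)⁻¹ * (S.pg q).2 * S.gG q) ≠ 0
        rw [genFun_conj (hgt q hq)]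
        exact h
      · obtain ⟨q, hq, h⟩ := S.exists_attained hn (twTest i (p i))
          (fun A B hA hB => ratOn_twTest hA hB i _) hZ₁ hT₁ (hp i)
        refine ⟨q, hq, ?_⟩
        show twTest i (p i) ((S.gG q)⁻¹ * (S.pg q).1 * S.gG q, (S.gG q)⁻¹ * (S.pg q).2 * S.gG q) ≠ 0
        exact twTest_conj (hgt q hq) i (p i) h
    · obtain ⟨hH, hHd⟩ := S.hess_hfac_of S.up_rest S.det_rest
      obtain ⟨h, hu, hd, hne⟩ := (dom_trace hn hH hHd (S.hJup 1 (by simp)) (S.hJd 1) S.hJ1 n).2
      obtain ⟨a, e, he, hh'⟩ := exists_hh hu hd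
      refine ⟨Sum.elim a (Sum.elim e (Sum.elim (fun _ => 0) fun _ => 1)), fun v => ?_, ?_⟩
      · rcases v with v | v | v | v
        exacts [trivial, he v, trivial, one_ne_zero]
      · set q : OCo n → ℂ := Sum.elim a (Sum.elim e (Sum.elim (fun _ => 0) fun _ => 1))
        have hhq : hh q = h := hh'
        show (S.ww q).trace - (n : ℂ) ≠ 0
        refine sub_ne_zero.2 ?_
        rw [domM, Matrix.adjugate_mul_distrib, Matrix.adjugate_mul_distrib, adj_adj_one (S.hJd 0),
          adj_adj_one S.det_rest, ← adj_bd hd, adj_adj_one (det_bd (S.hJd 1) hd),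
          ← Matrix.mul_assoc, Matrix.trace_mul_comm] at hne
        rwa [ww, hhq]
    · obtain ⟨hH, hHd⟩ := S.hess_hfac_of
        (U := ((List.ofFn fun k : Fin s => S.J k.succ.succ).take (j : ℕ)).prod)
        (SeedData.up_list_prod fun M hM => by
          obtain ⟨k, rfl⟩ := List.mem_ofFn.1 (List.mem_of_mem_take hM)
          exact S.hJup _ (Fin.succ_ne_zero _))
        (det_list_prod fun M hM => by
          obtain ⟨k, rfl⟩ := List.mem_ofFn.1 (List.mem_of_mem_take hM)
          exact S.hJd _)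
      obtain ⟨h, hu, hd, hne⟩ := (dom_trace hn hH hHd (S.hJup 1 (by simp)) (S.hJd 1) S.hJ1
        (((List.ofFn fun k : Fin s => S.J k.succ.succ).drop (j : ℕ)).prod.trace)).1
      obtain ⟨a, e, he, hh'⟩ := exists_hh hu hd
      refine ⟨Sum.elim a (Sum.elim e (Sum.elim (fun _ => 0) fun _ => 1)), fun v => ?_, ?_⟩
      · rcases v with v | v | v | v
        exacts [trivial, he v, trivial, one_ne_zero]
      · set q : OCo n → ℂ := Sum.elim a (Sum.elim e (Sum.elim (fun _ => 0) fun _ => 1))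
        have hhq : hh q = h := hh'
        show (bdPre S.J (S.st q) j.succ).adjugate.trace - _ ≠ 0
        refine sub_ne_zero.2 ?_
        rw [domM, Matrix.mul_assoc, Matrix.trace_mul_comm, ← adj_bd hd] at hne
        rwa [bdPre_succ, hhq, Matrix.adjugate_mul_distrib, Matrix.adjugate_mul_distrib]
  have hG : ∀ k, RatBox box (S.cond' p k) := by
    intro k y hy a c₀ h₀ c₁ h₁
    have hc := curve_update hy a h₀ h₁
    obtain ⟨a1, b1⟩ := S.ratM_pp hc
    rcases k with k | ⟨b, i⟩ | _ | j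
    · fin_cases k
      · exact ratOn_g0Fun a1 b1
      · exact ratOn_g0Fun b1 a1
    · cases b
      · exact ratOn_genFun b1 i
      · exact ratOn_twTest a1 b1 i _
    · exact (SeedData.ratM_trace (S.ratM_ww hc)).sub (ratOn_const _)
    · refine (SeedData.ratM_trace (RatM.adjugate ?_)).sub (ratOn_const _)
      simp only [bdPre_succ]
      exact (ratM_const _).mul ((((ratM_hh hc).mul (ratM_const _)).mul (ratM_hh hc).adjugate).mul
        (ratM_const _))
  let q₀ : OCo n → ℂ := fun v => 1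
  have hq₀ : ∀ v, q₀ v ∈ box v := fun v => by
    rcases v with v | v | v | v
    exacts [trivial, one_ne_zero, trivial, one_ne_zero]
  obtain ⟨q, -, hq, hne⟩ := box_generic hG isOpen_box hwit isOpen_univ (Set.mem_univ q₀) hq₀
  have f0 : g0Fun (S.pp q) ≠ 0 := by simpa [cond'] using hne (.inl 0)
  have f1 : g0Fun (S.pp q).swap ≠ 0 := by simpa [cond'] using hne (.inl 1)
  have f2 : ∀ i, genFun i (S.pp q).2 ≠ 0 := fun i => by
    simpa [cond'] using hne (.inr (.inl (false, i)))
  have f3 : ∀ i, twTest i (p i) (S.pp q) ≠ 0 := fun i => by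
    simpa [cond'] using hne (.inr (.inl (true, i)))
  have f4 : (S.ww q).trace ≠ (n : ℂ) := by
    simpa [cond', sub_ne_zero] using hne (.inr (.inr none))
  have f5 : ∀ j : Fin (s + 1), (bdPre S.J (S.st q) j.succ).adjugate.trace ≠
      ((List.ofFn fun k : Fin s => S.J k.succ.succ).drop (j : ℕ)).prod.trace := fun j => by
    simpa [cond', sub_ne_zero] using hne (.inr (.inr (some j)))
  obtain ⟨hsl, hcm⟩ := S.cm_pp hq
  have gd : Good (S.pp q) :=
    good_conj' (hgt q hq) (good_handle loU_ll S.hd hFlam (S.zz_spec hq).1 (prod_tt hq))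
  have iB : Indep (S.pp q).2 := Gen.indep f2 hsl.2
  obtain ⟨v, hv1, hvc, ga, gb, gc, gi⟩ := exists_twist_one hsl (g0_of_fun f0) gd (g0_of_fun f1) iB
    fun i => ⟨p i, f3 i⟩
  set M := twistMove (n := n) (s := s + 2) (0 : Fin 1) false R S.J
  have hkey : M.key (S.st q) = (S.pp q).2 := rfl
  set y := M.act (S.st q) v with hy
  have y1 : y.1 0 = ((S.pp q).1 * v, (S.pp q).2) := by
    show (twistAct 0 false (S.st q) v).1 0 = _
    simp [twistAct, st]
  have z1 : Zd R S.J y := M.zd_act (S.zd_st hS hq) (by rw [hkey]; exact iB) hv1 (by rw [hkey]; exact hvc)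
  have r1 : PRep S.J y := M.rep _ _ (S.prep_st hq) hv1 (by rw [hkey]; exact hvc)
  have hc1 : cm (y.1 0) = (S.ww q).adjugate := by
    rw [y1]
    exact (cm_twistA hv1 hvc).trans hcm
  refine ⟨y, z1, r1, ⟨r1.1 0, ?_, ?_, ?_, ?_, ?_, ?_⟩, fun j hj => ?_, hh q, up_hh q, det_hh hq, rfl⟩
  · rw [y1]; exact gb
  · rw [y1]; exact ga
  · rw [y1]; exact gc
  · rw [y1]; exact gi
  · rw [y1]; exact iB
  · rw [hc1, adj_adj_one (S.det_ww hq)]; exact f4
  · obtain ⟨j', rfl⟩ := Fin.exists_succ_eq_of_ne_zero hj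
    have e : bdPre S.J y j'.succ = bdPre S.J (S.st q) j'.succ := rfl
    rw [e, hc1, adj_adj_one (S.det_ww hq), S.adj_bdPre_mul q hq j']
    exact (f5 j').symm

end OneData

end P002Punct
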