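import Vale.Agent.P002Punct.Tangent
import Vale.Agent.P002Punct.Curve
import Vale.Agent.P002Punct.Box
import Vale.Agent.P002Surf.Tri

/-!
The centraliser of a triangular boundary matrix acts on its conjugator; unit powers and nilpotent
elements show that this action preserves the closure of the integral representations and gives all
traceless polynomials in the matrix as velocities.
-/

namespace P002Punct

open Matrix Filter Topology P002Surf

open scoped Matrix.Norms.Operator

variable {g s n : ℕ} {R : Subring ℂ} {J : Fin s → Mat n}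

/-- Multiply one conjugator on the right. -/
def stab (j : Fin s) (x : St g s n) (z : Mat n) : St g s n :=
  (x.1, Function.update x.2 j (x.2 j * z))

theorem stab_one (j : Fin s) (x : St g s n) : stab j x 1 = x := by simp [stab]

theorem bd_stab {J h z : Mat n} (hz : z.det = 1) (hc : J * z = z * J) : bd J (h * z) = bd J h := by
  rw [bd, bd, Matrix.adjugate_mul_distrib, Matrix.mul_assoc h z, ← hc]
  simp only [Matrix.mul_assoc]
  rw [← Matrix.mul_assoc z z.adjugate, mul_adj_one hz, Matrix.one_mul]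

theorem prep_stab {j : Fin s} {x : St g s n} (hx : PRep J x) {z : Mat n} (hz : z.det = 1)
    (hc : J j * z = z * J j) : PRep J (stab j x z) := by
  refine ⟨hx.1, fun k => ?_, ?_⟩
  · rcases eq_or_ne k j with rfl | hk
    · simp [stab, hx.2.1 k, hz]
    · simp [stab, hk, hx.2.1 k]
  · have e : bdList J (stab j x z) = bdList J x := by
      refine List.ofFn_inj.2 (funext fun k => ?_)
      rcases eq_or_ne k j with rfl | hk
      · simp [stab, bd_stab hz hc]
      · simp [stab, hk]
    show hprod x * _ = 1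
    rw [e]
    exact hx.2.2

theorem polyS_stab {σ : Type} (j : Fin s) {F : (σ → ℂ) → St g s n} (hF : PolyS F)
    {G : (σ → ℂ) → Mat n} (hG : PolyM G) : PolyS fun v => stab j (F v) (G v) := by
  obtain ⟨h1, h2⟩ := polyS_iff.1 hF
  refine polyS_iff.2 ⟨h1, fun k => ?_⟩
  rcases eq_or_ne k j with rfl | hk
  · simp only [stab, Function.update_self]
    exact (h2 k).mul hG
  · simp only [stab, Function.update_of_ne hk]
    exact h2 k

theorem intSt_stab {j : Fin s} {x : St g s n} (hx : IntSt R x) {z : Mat n} (hz : IntM R z) :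
    IntSt R (stab j x z) := by
  obtain ⟨h1, h2⟩ := intSt_iff.1 hx
  refine intSt_iff.2 ⟨h1, fun k => ?_⟩
  rcases eq_or_ne k j with rfl | hk
  · simp only [stab, Function.update_self]
    exact (h2 k).mul hz
  · simp only [stab, Function.update_of_ne hk]
    exact h2 k

/-- Admissible integral multipliers. -/
def StabInt (R : Subring ℂ) (J z : Mat n) : Prop := IntM R z ∧ z.det = 1 ∧ J * z = z * J

/-- An element on a rational curve through infinitely many integral multipliers acts. -/
theorem zd_stab_curve {j : Fin s} {Z : ℂ → Mat n} (hZ : RatM Z)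
    (hinf : {t | StabInt R (J j) (Z t)}.Infinite) {x : St g s n} (hx : Zd R J x) :
    Zd R J (stab j x (Z 1)) := by
  intro p hp
  let G : ℂ → ℂ := fun t => MvPolynomial.eval (sev (stab j x (Z t))) p
  have hG : RatOn G := by
    have hv : ∀ v, RatOn fun t => sev (stab j x (Z t)) v := by
      rintro (⟨i, b, r, c⟩ | ⟨k, r, c⟩)
      · exact ratOn_const (sev x (.inl (i, b, r, c)))
      · show RatOn fun t => Function.update x.2 j (x.2 j * Z t) k r c
        rcases eq_or_ne k j with rfl | hk
        · simp only [Function.update_self]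
          exact ((ratM_const _).mul hZ) r c
        · simp only [Function.update_of_ne hk]
          exact ratOn_const _
    simp only [G, MvPolynomial.eval_eq]
    exact ratOn_sum _ fun m _ => (ratOn_const _).mul (ratOn_prod _ fun v _ => (hv v).pow _)
  by_contra hne
  refine hinf ((finite_zeros hG (Or.inr hne)).subset ?_)
  rintro t ⟨hti, htd, htc⟩
  refine zd_map (J' := J) (F := fun v => stab j (unev v) (Z t))
    (polyS_stab j polyS_unev (polyM_const _)) (fun a ha ha' => ?_) hx p hp
  simp only [unev_sev]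
  exact ⟨prep_stab ha htd htc, intSt_stab ha' hti⟩

/-- A curve of acting multipliers gives a velocity. -/
theorem vel_stab {j : Fin s} {Z : ℂ → Mat n} {V : Mat n}
    (hZ : ∀ᶠ t in 𝓝 (0 : ℂ), ContDiffAt ℂ 1 Z t ∧ (Z t).det = 1 ∧ J j * Z t = Z t * J j ∧
      ∀ x : St g s n, Zd R J x → Zd R J (stab j x (Z t)))
    (hZ0 : Z 0 = 1) (hV : HasDerivAt Z V 0) (x0 : St g s n) :
    Vel R J x0 ((0, Pi.single j (x0.2 j * V)) : St g s n) := by
  classical
  have hupd : ∀ (x : St g s n) (z : Mat n),
      stab j x z = ((x.1, fun k => if k = j then x.2 j * z else x.2 k) : St g s n) := fun x z => by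
    refine Prod.ext rfl (funext fun k => ?_)
    by_cases hk : k = j
    · subst hk; simp [stab]
    · simp [stab, hk]
  have hcd : ∀ a : ℂ × St g s n, ContDiffAt ℂ 1 Z a.1 →
      ContDiffAt ℂ 1 (fun a : ℂ × St g s n => stab j a.2 (Z a.1)) a := by
    intro a ha
    simp only [hupd]
    refine ContDiffAt.prodMk (contDiff_fst.comp contDiff_snd).contDiffAt (contDiffAt_pi.2 fun k => ?_)
    by_cases hk : k = j
    · simp only [if_pos hk]
      exact (((contDiff_apply ℂ (Mat n) j).comp (contDiff_snd.comp contDiff_snd)).contDiffAt).mul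
        (ContDiffAt.comp (g := Z) a ha contDiff_fst.contDiffAt)
    · simp only [if_neg hk]
      exact ((contDiff_apply ℂ (Mat n) k).comp (contDiff_snd.comp contDiff_snd)).contDiffAt
  refine ⟨fun a => stab j a.2 (Z a.1), hcd _ hZ.self_of_nhds.1,
    Eventually.of_forall fun x => by simp [hZ0, stab_one], ?_, fun m Ψ hΨ => ?_⟩
  · simp only [hupd]
    refine HasDerivAt.prodMk (hasDerivAt_const _ _) (hasDerivAt_pi.2 fun k => ?_)
    by_cases hk : k = j
    · subst hk
      simp only [if_true, Pi.single_eq_same]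
      exact hV.const_mul _
    · simp only [if_neg hk, Pi.single_eq_of_ne hk]
      exact hasDerivAt_const _ _
  · refine ⟨by simp [show (fun j : Fin m => (0 : ℂ)) = 0 from rfl, hΨ.1, hZ0, stab_one], ?_⟩
    have ht : Tendsto (initL m) (𝓝 0) (𝓝 0) := by simpa using (initL m).continuous.tendsto 0
    have hl : Tendsto (fun τ : Fin (m + 1) → ℂ => τ (Fin.last m)) (𝓝 0) (𝓝 0) :=
      (continuous_apply (Fin.last m)).tendsto _
    filter_upwards [ht.eventually hΨ.2, hl.eventually hZ] with τ ⟨h1, h2, h3, h4⟩ ⟨g1, g2, g3, g4⟩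
    refine ⟨?_, prep_stab h3 g2 g3, prep_stab h3 g2 g3, g4 _ h4⟩
    exact ContDiffAt.comp (g := fun a : ℂ × St g s n => stab j a.2 (Z a.1)) τ (hcd _ g1)
      ((contDiff_apply ℂ ℂ (Fin.last m)).contDiffAt.prodMk
        (h1.comp τ (initL m).contDiff.contDiffAt))

/-! ### polynomials of a triangular matrix -/

/-- The diagonal of a polynomial of a triangular matrix. -/
theorem aeval_tri {α : Type} [LinearOrder α] {b : Fin n → α} (hb : Function.Injective b) {A : Mat n}
    (hA : A.BlockTriangular b) (p : Polynomial ℂ) :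
    (Polynomial.aeval A p).BlockTriangular b ∧
      ∀ i, Polynomial.aeval A p i i = p.eval (A i i) := by
  induction p using Polynomial.induction_on with
  | C a =>
    rw [Polynomial.aeval_C, Algebra.algebraMap_eq_smul_one, smul_one_eq_diagonal]
    exact ⟨blockTriangular_diagonal _, fun i => by simp⟩
  | add p q hp hq =>
    rw [map_add]
    exact ⟨hp.1.add hq.1, fun i => by simp [hp.2 i, hq.2 i]⟩
  | monomial k a h =>
    rw [pow_succ, ← mul_assoc, map_mul, Polynomial.aeval_X]
    refine ⟨h.1.mul hA, fun i => ?_⟩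
    rw [tri_mul_diag hb h.1 hA, h.2 i]
    simp [mul_assoc]

theorem diag_aeval_tri {A : Mat n} (hA : Up A ∨ Lo A) (p : Polynomial ℂ) (i : Fin n) :
    Polynomial.aeval A p i i = p.eval (A i i) := by
  rcases hA with hA | hA
  · exact (aeval_tri Function.injective_id hA p).2 i
  · exact (aeval_tri OrderDual.toDual.injective hA p).2 i

theorem det_aeval_tri {A : Mat n} (hA : Up A ∨ Lo A) (p : Polynomial ℂ) :
    (Polynomial.aeval A p).det = ∏ i, p.eval (A i i) := by
  have e : (Polynomial.aeval A p).det = ∏ i, Polynomial.aeval A p i i := by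
    rcases hA with hA | hA
    · exact Matrix.det_of_isUpperTriangular (aeval_tri Function.injective_id hA p).1
    · exact Matrix.det_of_isLowerTriangular _ (aeval_tri OrderDual.toDual.injective hA p).1
  rw [e]
  exact Finset.prod_congr rfl fun i _ => diag_aeval_tri hA p i

theorem intM_aeval_prod {A : Mat n} (hA : IntM R A) (S : Finset ℂ) (hS : ∀ z ∈ S, z ∈ R) :
    IntM R (Polynomial.aeval A (∏ z ∈ S, (Polynomial.X - Polynomial.C z))) := by
  refine Finset.prod_induction _ (fun q => IntM R (Polynomial.aeval A q))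
    (fun p q hp hq => by rw [map_mul]; exact hp.mul hq) (by rw [map_one]; exact intM_one)
    fun z hz => ?_
  intro a b
  rw [map_sub, Polynomial.aeval_X, Polynomial.aeval_C, Algebra.algebraMap_eq_smul_one,
    Matrix.sub_apply, Matrix.smul_apply, smul_eq_mul]
  exact sub_mem (hA a b) (mul_mem (hS z hz) (intM_one a b))

/-- A nonzero integer is a multiple of a nonzero algebraic integer. -/
theorem exists_int_mul {D : ℂ} (hD : D ≠ 0) (hint : IsIntegral ℤ D) (hR : D ∈ R) :
    ∃ m : ℤ, m ≠ 0 ∧ ∃ r ∈ R, (m : ℂ) = D * r := by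
  set f := minpoly ℤ D
  have hf0 : f.coeff 0 ≠ 0 := fun h => by
    have h1 := minpoly.coeff_zero_ne_zero (hint.tower_top (A := ℚ)) hD
    rw [minpoly.isIntegrallyClosed_eq_field_fractions' ℚ hint, Polynomial.coeff_map,
      show (minpoly ℤ D).coeff 0 = 0 from h, map_zero] at h1
    exact h1 rfl
  refine ⟨f.coeff 0, hf0, -(Polynomial.aeval D f.divX),
    neg_mem (Algebra.adjoin_le (S := subalgebraOfSubring R) (Set.singleton_subset_iff.2 hR)
      (Polynomial.aeval_mem_adjoin_singleton ℤ D)), ?_⟩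
  have h := congrArg (Polynomial.aeval D) (Polynomial.X_mul_divX_add f)
  rw [map_add, map_mul, Polynomial.aeval_X, Polynomial.aeval_C, minpoly.aeval] at h
  simp only [algebraMap_int_eq, eq_intCast] at h
  linear_combination h

/-- Some power of a unit is congruent to one. -/
theorem exists_pow_congr {ε : ℂ} (hint : IsIntegral ℤ ε) (hε : ε ∈ R) (hε' : ε⁻¹ ∈ R) (h0 : ε ≠ 0)
    {m : ℤ} (hm : m ≠ 0) : ∃ N : ℕ, 0 < N ∧ ∃ r ∈ R, ε ^ N - 1 = (m : ℂ) * r := by
  obtain ⟨f, hf, hfε⟩ := hint
  have : NeZero m.natAbs := ⟨Int.natAbs_ne_zero.2 hm⟩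
  obtain ⟨i, j, hij, he⟩ := Finite.exists_ne_map_eq_of_infinite fun i : ℕ =>
    fun k : Fin f.natDegree => (((Polynomial.X ^ i %ₘ f).coeff k : ℤ) : ZMod m.natAbs)
  rcases eq_or_ne f.natDegree 0 with hd | hd
  · rw [Polynomial.eq_one_of_monic_natDegree_zero hf hd] at hfε
    simp at hfε
  wlog hlt : i < j generalizing i j
  · exact this j i hij.symm he.symm (lt_of_le_of_ne (not_lt.1 hlt) hij.symm)
  set P := Polynomial.X ^ j %ₘ f - Polynomial.X ^ i %ₘ f with hP
  have hc : ∀ k, m ∣ P.coeff k := fun k => by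
    by_cases hk : k < f.natDegree
    · rw [← Int.natAbs_dvd, ← ZMod.intCast_zmod_eq_zero_iff_dvd, hP, Polynomial.coeff_sub,
        Int.cast_sub, sub_eq_zero]
      exact (congrFun he ⟨k, hk⟩).symm
    · have : ∀ q : Polynomial ℤ, (q %ₘ f).coeff k = 0 := fun q => by
        refine Polynomial.coeff_eq_zero_of_natDegree_lt (lt_of_lt_of_le ?_ (not_lt.1 hk))
        exact Polynomial.natDegree_modByMonic_lt q hf (fun h => hd (by rw [h]; simp))
      simp [hP, this]
  obtain ⟨Q, hQ⟩ := (Polynomial.C_dvd_iff_dvd_coeff m P).2 hc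
  have hev : ∀ k : ℕ, Polynomial.aeval ε (Polynomial.X ^ k %ₘ f) = ε ^ k := fun k => by
    have h := congrArg (Polynomial.aeval ε) (Polynomial.modByMonic_add_div (Polynomial.X ^ k) f)
    rw [map_add, map_mul, show Polynomial.aeval ε f = 0 from hfε, zero_mul, add_zero, map_pow,
      Polynomial.aeval_X] at h
    exact h
  refine ⟨j - i, by omega, Polynomial.aeval ε Q * ε⁻¹ ^ i,
    mul_mem (Algebra.adjoin_le (S := subalgebraOfSubring R) (Set.singleton_subset_iff.2 hε)
      (Polynomial.aeval_mem_adjoin_singleton ℤ ε)) (pow_mem hε' _), ?_⟩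
  have h := congrArg (Polynomial.aeval ε) hQ
  rw [hP, map_sub, hev, hev, map_mul, Polynomial.aeval_C] at h
  simp only [algebraMap_int_eq, eq_intCast] at h
  rw [← mul_assoc, ← h, show ε ^ j = ε ^ (j - i) * ε ^ i by
    rw [← pow_add, Nat.sub_add_cancel hlt.le], sub_mul, mul_assoc, ← mul_pow,
    mul_inv_cancel₀ h0]
  simp

theorem infinite_pow_pow {ε : ℂ} (hinf : (Set.range fun k : ℕ => ε ^ k).Infinite) {N : ℕ}
    (hN : 0 < N) : (Set.range fun k : ℕ => (ε ^ N) ^ k).Infinite := by
  refine Set.infinite_range_of_injective fun a b hab => ?_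
  simp only [← pow_mul] at hab
  by_contra hne
  have hne' : N * a ≠ N * b := fun h => hne (Nat.eq_of_mul_eq_mul_left hN h)
  rcases eq_or_ne ε 0 with rfl | h0
  · refine hinf (((Set.finite_singleton (1 : ℂ)).insert 0).subset ?_)
    rintro _ ⟨k, rfl⟩
    rcases Nat.eq_zero_or_pos k with rfl | hk
    · simp
    · simp [zero_pow hk.ne']
  obtain ⟨d, hd, h1⟩ : ∃ d, 0 < d ∧ ε ^ d = 1 := by
    rcases lt_or_gt_of_ne hne' with h | h
    · refine ⟨N * b - N * a, by omega, ?_⟩
      rw [pow_sub₀ _ h0 h.le, hab, mul_inv_cancel₀ (pow_ne_zero _ h0)]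
    · refine ⟨N * a - N * b, by omega, ?_⟩
      rw [pow_sub₀ _ h0 h.le, hab, mul_inv_cancel₀ (pow_ne_zero _ h0)]
  refine hinf (((Finset.range d).finite_toSet.image fun k => ε ^ k).subset ?_)
  rintro _ ⟨k, rfl⟩
  refine ⟨k % d, by simpa using Nat.mod_lt k hd, ?_⟩
  dsimp only
  conv_rhs => rw [← Nat.mod_add_div k d, pow_add, pow_mul, h1, one_pow, mul_one]

/-- Traceless polynomials in a triangular integral matrix are velocities. -/
theorem stab_span {j : Fin s} (htri : Up (J j) ∨ Lo (J j))
    (hJR : IntM R (J j)) (hRint : ∀ z ∈ R, IsIntegral ℤ z) {ε : ℂ} (hε : ε ∈ R) (hε' : ε⁻¹ ∈ R)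
    (hinf : (Set.range fun k : ℕ => ε ^ k).Infinite) (x0 : St g s n) (p : Polynomial ℂ)
    (hp : (Polynomial.aeval (J j) p).trace = 0) :
    ((0, Pi.single j (x0.2 j * Polynomial.aeval (J j) p)) : St g s n) ∈
      Submodule.span ℂ {v | Vel R J x0 v} := by
  classical
  set A := J j with hA
  let inc : Mat n →ₗ[ℂ] St g s n := (LinearMap.inr ℂ (Fin g → Pair n) (Fin s → Mat n)).comp
    ((LinearMap.single ℂ (fun _ : Fin s => Mat n) j).comp (LinearMap.mulLeft ℂ (x0.2 j)))
  let S : Submodule ℂ (Polynomial ℂ) := (Submodule.span ℂ {v | Vel R J x0 v}).comap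
    (inc.comp (Polynomial.aeval A).toLinearMap)
  suffices h : p ∈ S from h
  have hcomm : ∀ q : Polynomial ℂ, A * Polynomial.aeval A q = Polynomial.aeval A q * A := fun q => by
    conv_lhs => arg 1; rw [← Polynomial.aeval_X (R := ℂ) A]
    conv_rhs => arg 2; rw [← Polynomial.aeval_X (R := ℂ) A]
    rw [← map_mul, ← map_mul, mul_comm]
  have hd : ∀ i, A i i ∈ R := fun i => hJR i i
  let Λ : Finset ℂ := Finset.univ.image fun i => A i i
  have hΛ : ∀ z ∈ Λ, z ∈ R := fun z hz => by
    obtain ⟨i, -, rfl⟩ := Finset.mem_image.1 hz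
    exact hd i
  let Q0 : Polynomial ℂ := ∏ z ∈ Λ, (Polynomial.X - Polynomial.C z)
  -- nilpotent directions
  have hnil : ∀ k : ℕ, Q0 * Polynomial.X ^ k ∈ S := by
    intro k
    set q := Q0 * Polynomial.X ^ k with hq
    have hev : ∀ i, q.eval (A i i) = 0 := fun i => by
      have hmem : A i i ∈ Λ := Finset.mem_image.2 ⟨i, Finset.mem_univ _, rfl⟩
      simp [hq, Q0, Polynomial.eval_prod, Finset.prod_eq_zero hmem (f := fun z => A i i - z) (sub_self _)]
    have hint : IntM R (Polynomial.aeval A q) := by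
      rw [hq, map_mul, map_pow, Polynomial.aeval_X]
      exact (intM_aeval_prod hJR Λ hΛ).mul (hJR.pow k)
    set M := Polynomial.aeval A q with hM
    have hdet : ∀ t : ℂ, (1 + t • M).det = 1 := fun t => by
      rw [show 1 + t • M = Polynomial.aeval A (1 + Polynomial.C t * q) by
        rw [map_add, map_one, map_mul, Polynomial.aeval_C, ← Algebra.smul_def], det_aeval_tri htri]
      simp [hev]
    have hcm : ∀ t : ℂ, A * (1 + t • M) = (1 + t • M) * A := fun t => by
      simp [Matrix.mul_add, Matrix.add_mul, hM, hcomm q]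
    have hder : HasDerivAt (fun t : ℂ => 1 + t • M) M 0 :=
      HasDerivAt.const_add _ (by simpa using (hasDerivAt_id (0 : ℂ)).smul_const M)
    refine Submodule.subset_span (vel_stab (Eventually.of_forall fun t => ⟨?_, hdet t, hcm t, ?_⟩)
      (by simp) hder x0)
    · exact (contDiff_const.add (contDiff_id.smul contDiff_const)).contDiffAt
    intro x hx
    rcases eq_or_ne t 0 with rfl | ht
    · simpa [stab_one] using hx
    have hrat : RatM fun u : ℂ => (1 : Mat n) + (u * t) • M := fun a b => by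
      simp only [Matrix.add_apply, Matrix.smul_apply, smul_eq_mul]
      exact (ratOn_const _).add ((ratOn_id.mul (ratOn_const t)).mul (ratOn_const _))
    have hi : {u : ℂ | StabInt R A ((1 : Mat n) + (u * t) • M)}.Infinite := by
      refine Set.infinite_of_injective_forall_mem (f := fun i : ℕ => (i : ℂ) / t)
        (fun a b h => by simpa [div_left_inj' ht] using h) fun i => ?_
      show StabInt R A (1 + ((i : ℂ) / t * t) • M)
      rw [div_mul_cancel₀ _ ht]
      exact ⟨fun a b => add_mem (intM_one a b) (mul_mem (natCast_mem R i) (hint a b)), hdet _, hcm _⟩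
    simpa using zd_stab_curve hrat hi hx
  -- Lagrange polynomials
  let D : ℂ → ℂ := fun z => ∏ w ∈ Λ.erase z, (z - w)
  have hD : ∀ z, D z ≠ 0 := fun z => Finset.prod_ne_zero_iff.2 fun w hw =>
    sub_ne_zero.2 (Finset.ne_of_mem_erase hw).symm
  let q1 : ℂ → Polynomial ℂ := fun z => ∏ w ∈ Λ.erase z, (Polynomial.X - Polynomial.C w)
  let eb : ℂ → Polynomial ℂ := fun z => Polynomial.C (D z)⁻¹ * q1 z
  have heb : ∀ z ∈ Λ, ∀ w ∈ Λ, (eb z).eval w = if w = z then 1 else 0 := fun z _ w hw => by
    by_cases h : w = z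
    · subst h
      simp [eb, q1, D, Polynomial.eval_prod, inv_mul_cancel₀ (hD w)]
    · rw [if_neg h]
      simp [eb, q1, Polynomial.eval_prod,
        Finset.prod_eq_zero (Finset.mem_erase.2 ⟨h, hw⟩) (f := fun u => w - u) (sub_self _)]
  let mu : ℂ → ℕ := fun z => (Finset.univ.filter fun i => A i i = z).card
  have hsum : ∀ f : ℂ → ℂ, ∑ i, f (A i i) = ∑ z ∈ Λ, (mu z : ℂ) * f z := fun f => by
    rw [← Finset.sum_fiberwise_of_maps_to (g := fun i => A i i) (t := Λ)
      fun i _ => Finset.mem_image.2 ⟨i, Finset.mem_univ _, rfl⟩]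
    refine Finset.sum_congr rfl fun z _ => ?_
    rw [Finset.sum_congr rfl fun i hi => by rw [(Finset.mem_filter.1 hi).2],
      Finset.sum_const, nsmul_eq_mul]
  have hprod : ∀ f : ℂ → ℂ, ∏ i, f (A i i) = ∏ z ∈ Λ, f z ^ mu z := fun f => by
    rw [← Finset.prod_fiberwise_of_maps_to (g := fun i => A i i) (t := Λ)
      fun i _ => Finset.mem_image.2 ⟨i, Finset.mem_univ _, rfl⟩]
    refine Finset.prod_congr rfl fun z _ => ?_
    rw [Finset.prod_congr rfl fun i hi => by rw [(Finset.mem_filter.1 hi).2],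
      Finset.prod_const]
  -- torus directions
  have htor : ∀ z ∈ Λ, ∀ w ∈ Λ, z ≠ w →
      Polynomial.C (mu w : ℂ) * eb z - Polynomial.C (mu z : ℂ) * eb w ∈ S := by
    intro z hz w hw hzw
    set a := mu w
    set b := mu z
    let pc : ℂ → Polynomial ℂ := fun c =>
      1 + Polynomial.C (c ^ a - 1) * eb z + Polynomial.C (c⁻¹ ^ b - 1) * eb w
    let Zf : ℂ → Mat n := fun c =>
      1 + (c ^ a - 1) • Polynomial.aeval A (eb z) + (c⁻¹ ^ b - 1) • Polynomial.aeval A (eb w)
    have hpc : ∀ c, Polynomial.aeval A (pc c) = Zf c := fun c => by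
      simp only [pc, Zf, map_add, map_one, map_mul, Polynomial.aeval_C, ← Algebra.smul_def]
    have hcm : ∀ c, A * Zf c = Zf c * A := fun c => by rw [← hpc]; exact hcomm _
    have hdet : ∀ c : ℂ, c ≠ 0 → (Zf c).det = 1 := fun c hc => by
      rw [← hpc, det_aeval_tri htri, hprod fun u => (pc c).eval u,
        Finset.prod_eq_mul z w hzw (fun u hu hu' => ?_) (fun h => absurd hz h) (fun h => absurd hw h)]
      · simp only [pc, Polynomial.eval_add, Polynomial.eval_one, Polynomial.eval_mul,
          Polynomial.eval_C, heb z hz z hz, heb w hw w hw, heb z hz w hw, heb w hw z hz, if_true,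
          if_neg hzw, if_neg hzw.symm, mul_one, mul_zero, add_zero, add_sub_cancel]
        show (c ^ a) ^ b * (c⁻¹ ^ b) ^ a = 1
        rw [← pow_mul, ← pow_mul, mul_comm b a, ← mul_pow, mul_inv_cancel₀ hc, one_pow]
      · simp [pc, heb z hz u hu, heb w hw u hu, hu'.1, hu'.2]
    -- a unit congruent to one
    have hq1 : ∀ u, IntM R (Polynomial.aeval A (q1 u)) := fun u =>
      intM_aeval_prod hJR _ fun v hv => hΛ v (Finset.mem_of_mem_erase hv)
    have hDR : ∀ u ∈ Λ, D u ∈ R := fun u hu => prod_mem fun v hv =>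
      sub_mem (hΛ u hu) (hΛ v (Finset.mem_of_mem_erase hv))
    obtain ⟨mz, hmz, rz, hrz, ez⟩ := exists_int_mul (hD z) (hRint _ (hDR z hz)) (hDR z hz)
    obtain ⟨mw, hmw, rw', hrw, ew⟩ := exists_int_mul (hD w) (hRint _ (hDR w hw)) (hDR w hw)
    have hε0 : ε ≠ 0 := fun h => hinf (((Set.finite_singleton (1 : ℂ)).insert 0).subset (by
      rintro _ ⟨k, rfl⟩
      rcases Nat.eq_zero_or_pos k with rfl | hk
      · simp
      · simp [h, zero_pow hk.ne']))
    obtain ⟨N, hN, r, hr, eN⟩ := exists_pow_congr (hRint _ hε) hε hε' hε0 (mul_ne_zero hmz hmw)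
    have hint : ∀ i : ℕ, IntM R (Zf ((ε ^ N) ^ i)) := by
      intro i
      set u := (ε ^ N) ^ i with hu
      have key : ∀ k : ℕ, ∃ e ∈ R, u ^ k - 1 = (ε ^ N - 1) * e ∧
          ∃ e' ∈ R, u⁻¹ ^ k - 1 = (ε ^ N - 1) * e' := by
        intro k
        have h1 : u ^ k - 1 = (ε ^ N - 1) * ∑ l ∈ Finset.range (i * k), (ε ^ N) ^ l := by
          rw [hu, ← pow_mul, mul_comm (ε ^ N - 1), geom_sum_mul]
        refine ⟨_, sum_mem fun l _ => pow_mem (pow_mem hε _) _, h1,
          -(u⁻¹ ^ k * ∑ l ∈ Finset.range (i * k), (ε ^ N) ^ l),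
          neg_mem (mul_mem (pow_mem ?_ _) (sum_mem fun l _ => pow_mem (pow_mem hε _) _)), ?_⟩
        · rw [hu, ← inv_pow, ← inv_pow]
          exact pow_mem (pow_mem hε' _) _
        · have hu0 : u ≠ 0 := pow_ne_zero _ (pow_ne_zero _ hε0)
          have : u⁻¹ ^ k * u ^ k = 1 := by rw [← mul_pow, inv_mul_cancel₀ hu0, one_pow]
          linear_combination -(u⁻¹ ^ k) * h1 + this
      obtain ⟨e1, he1, ee1, -⟩ := key a
      obtain ⟨-, -, -, e2, he2, ee2⟩ := key b
      intro p q
      have hz' : ((u ^ a - 1) • Polynomial.aeval A (eb z)) p q ∈ R := by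
        simp only [eb, map_mul, Polynomial.aeval_C, ← Algebra.smul_def, Matrix.smul_apply,
          smul_eq_mul]
        rw [ee1, eN, Int.cast_mul, ez, ← mul_assoc,
          show D z * rz * mw * r * e1 * (D z)⁻¹ = rz * mw * r * e1 * (D z * (D z)⁻¹) by ring,
          mul_inv_cancel₀ (hD z), mul_one]
        exact mul_mem (mul_mem (mul_mem (mul_mem hrz (intCast_mem R mw)) hr) he1) (hq1 z p q)
      have hw' : ((u⁻¹ ^ b - 1) • Polynomial.aeval A (eb w)) p q ∈ R := by
        simp only [eb, map_mul, Polynomial.aeval_C, ← Algebra.smul_def, Matrix.smul_apply,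
          smul_eq_mul]
        rw [ee2, eN, Int.cast_mul, ew, ← mul_assoc,
          show mz * (D w * rw') * r * e2 * (D w)⁻¹ = mz * rw' * r * e2 * (D w * (D w)⁻¹) by ring,
          mul_inv_cancel₀ (hD w), mul_one]
        exact mul_mem (mul_mem (mul_mem (mul_mem (intCast_mem R mz) hrw) hr) he2) (hq1 w p q)
      simp only [Zf, Matrix.add_apply]
      exact add_mem (add_mem (intM_one p q) hz') hw'
    have hev : ∀ᶠ t in 𝓝 (0 : ℂ), (1 : ℂ) + t ≠ 0 :=
      (continuous_const.add continuous_id).continuousAt.eventually_ne (by simp)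
    have hder : HasDerivAt (fun t : ℂ => Zf (1 + t))
        ((a : ℂ) • Polynomial.aeval A (eb z) - (b : ℂ) • Polynomial.aeval A (eb w)) 0 := by
      have h1 : HasDerivAt (fun t : ℂ => (1 + t) ^ a - 1) (a : ℂ) 0 :=
        ((((hasDerivAt_id (0 : ℂ)).const_add 1).fun_pow a).sub_const 1).congr_deriv (by simp)
      have h2 : HasDerivAt (fun t : ℂ => (1 + t)⁻¹ ^ b - 1) (-(b : ℂ)) 0 :=
        (((((hasDerivAt_id (0 : ℂ)).const_add 1).fun_inv (by simp)).fun_pow b).sub_const 1).congr_deriv
          (by simp)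
      exact (((h1.smul_const _).const_add (1 : Mat n)).fun_add (h2.smul_const _)).congr_deriv
        (by rw [neg_smul, sub_eq_add_neg])
    have hvel := vel_stab (g := g) (R := R) (J := J) (j := j) (hev.mono fun t ht =>
      ⟨?_, hdet _ ht, hcm _, ?_⟩) (by simp [Zf]) hder x0
    · show inc (Polynomial.aeval A
          (Polynomial.C (a : ℂ) * eb z - Polynomial.C (b : ℂ) * eb w)) ∈
        Submodule.span ℂ {v : St g s n | Vel R J x0 v}
      have e1 : ∀ (c : ℂ) (q : Polynomial ℂ),
          Polynomial.aeval A (Polynomial.C c * q) = c • Polynomial.aeval A q := fun c q => by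
        rw [map_mul, Polynomial.aeval_C, ← Algebra.smul_def]
      rw [map_sub (Polynomial.aeval (R := ℂ) A), e1 (a : ℂ), e1 (b : ℂ)]
      exact Submodule.subset_span hvel
    · refine ContDiffAt.add (ContDiffAt.add contDiffAt_const ?_) ?_
      · exact (((contDiff_const.add contDiff_id).pow a).sub contDiff_const).contDiffAt.smul
          contDiffAt_const
      · exact ((((contDiff_const.add contDiff_id).contDiffAt.inv ht).pow b).sub
          contDiffAt_const).smul contDiffAt_const
    intro x hx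
    rcases eq_or_ne t 0 with rfl | ht0
    · simpa [Zf, stab_one] using hx
    have hrat : RatM fun u : ℂ => Zf (1 + u * t) := fun p q => by
      have hl : RatOn fun u : ℂ => 1 + u * t := (ratOn_const 1).add (ratOn_id.mul (ratOn_const t))
      simp only [Zf, Matrix.add_apply, Matrix.smul_apply, smul_eq_mul]
      exact ((ratOn_const _).add (((hl.pow a).sub (ratOn_const 1)).mul (ratOn_const _))).add
        ((((hl.inv (by simp) (by simpa using ht)).pow b).sub (ratOn_const 1)).mul (ratOn_const _))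
    have hi : {u : ℂ | StabInt R A (Zf (1 + u * t))}.Infinite := by
      refine ((infinite_pow_pow hinf hN).image (f := fun c => (c - 1) / t)
        (fun c _ c' _ h => by simpa [div_left_inj' ht0] using h)).mono ?_
      rintro _ ⟨_, ⟨i, rfl⟩, rfl⟩
      show StabInt R A _
      rw [div_mul_cancel₀ _ ht0, add_sub_cancel]
      exact ⟨hint i, hdet _ (pow_ne_zero _ (pow_ne_zero _ hε0)), hcm _⟩
    simpa using zd_stab_curve hrat hi hx
  -- decompose
  let q := p - ∑ z ∈ Λ, Polynomial.C (p.eval z) * eb z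
  have hqv : ∀ w ∈ Λ, q.eval w = 0 := fun w hw => by
    simp only [q, Polynomial.eval_sub, Polynomial.eval_finsetSum, Polynomial.eval_mul,
      Polynomial.eval_C]
    rw [Finset.sum_eq_single w (fun z hz hzw => by rw [heb z hz w hw, if_neg hzw.symm, mul_zero])
      (fun h => absurd hw h), heb w hw w hw, if_pos rfl, mul_one, sub_self]
  have hqS : q ∈ S := by
    obtain ⟨r, hr⟩ : Q0 ∣ q := Finset.prod_dvd_of_coprime
      (fun a _ b _ hab => Polynomial.isCoprime_X_sub_C_of_isUnit_sub (sub_ne_zero.2 hab).isUnit)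
      fun w hw => Polynomial.dvd_iff_isRoot.2 (hqv w hw)
    rw [hr, ← Polynomial.sum_C_mul_X_pow_eq r, Polynomial.sum_def, Finset.mul_sum]
    refine Submodule.sum_mem _ fun k _ => ?_
    rw [mul_left_comm, ← Polynomial.smul_eq_C_mul]
    exact S.smul_mem _ (hnil k)
  have hv0 : ∑ z ∈ Λ, (mu z : ℂ) * p.eval z = 0 := by
    rw [← hsum]
    simp only [Matrix.trace, Matrix.diag_apply] at hp
    rw [← hp]
    exact Finset.sum_congr rfl fun i _ => (diag_aeval_tri htri p i).symm
  have hsumS : ∑ z ∈ Λ, Polynomial.C (p.eval z) * eb z ∈ S := by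
    rcases Λ.eq_empty_or_nonempty with he | ⟨w, hw⟩
    · rw [he, Finset.sum_empty]; exact S.zero_mem
    have hmw : (mu w : ℂ) ≠ 0 := by
      obtain ⟨i, -, hi⟩ := Finset.mem_image.1 hw
      exact Nat.cast_ne_zero.2 (Finset.card_ne_zero_of_mem (Finset.mem_filter.2 ⟨Finset.mem_univ i, hi⟩))
    have e : ∑ z ∈ Λ, Polynomial.C (p.eval z) * eb z = ∑ z ∈ Λ.erase w,
        (p.eval z / mu w) • (Polynomial.C (mu w : ℂ) * eb z - Polynomial.C (mu z : ℂ) * eb w) := by
      have h1 : p.eval w = -(∑ z ∈ Λ.erase w, (mu z : ℂ) * p.eval z) / mu w := by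
        rw [← Finset.add_sum_erase _ _ hw] at hv0
        rw [eq_div_iff hmw]
        linear_combination hv0
      rw [← Finset.add_sum_erase _ _ hw, h1, neg_div, Finset.sum_div, map_neg, map_sum, neg_mul,
        Finset.sum_mul, neg_add_eq_sub, ← Finset.sum_sub_distrib]
      refine Finset.sum_congr rfl fun z _ => ?_
      rw [show Polynomial.C (p.eval z) = Polynomial.C (p.eval z / mu w) * Polynomial.C (mu w : ℂ) by
          rw [← Polynomial.C_mul, div_mul_cancel₀ _ hmw],
        show Polynomial.C ((mu z : ℂ) * p.eval z / mu w) =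
          Polynomial.C (p.eval z / mu w) * Polynomial.C (mu z : ℂ) by
          rw [← Polynomial.C_mul]; ring_nf, Polynomial.smul_eq_C_mul]
      ring
    rw [e]
    exact Submodule.sum_mem _ fun z hz => S.smul_mem _
      (htor z (Finset.mem_of_mem_erase hz) w hw (Finset.ne_of_mem_erase hz))
  have : p = q + ∑ z ∈ Λ, Polynomial.C (p.eval z) * eb z := by simp [q]
  rw [this]
  exact S.add_mem hqS hsumS

end P002Punct
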